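import Crest.Agent.R238.Conc

/-!
# Row 238: from Gaussian-weighted finite slab systems to arbitrary families and Lebesgue measure
-/

set_option autoImplicit false
open MeasureTheory Matrix Filter Topology
open scoped ContDiff BigOperators

noncomputable section
namespace Crest.Agent.R238

variable {n : ℕ}

theorem integrable_gaussw {ε : ℝ} (hε : 0 < ε) :
    Integrable (fun x : E n => Real.exp (-(ε / 2 * ∑ a, x a ^ 2))) := by
  refine integrable_of_le_gauss (C := 1) (s := 0) (c := ε / 2) (by fun_prop) (by positivity) ?_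
  intro x
  simp

theorem gvol_nonneg (ε : ℝ) (A : Set (E n)) : 0 ≤ gvol ε A :=
  integral_nonneg fun _ => (Real.exp_pos _).le

theorem gvol_mono {ε : ℝ} (hε : 0 < ε) {A B : Set (E n)} (h : A ⊆ B) : gvol ε A ≤ gvol ε B :=
  setIntegral_mono_set (integrable_gaussw hε).integrableOn
    (Eventually.of_forall fun _ => (Real.exp_pos _).le) h.eventuallyLE

theorem gvol_le {ε : ℝ} (hε : 0 < ε) {A : Set (E n)} (hA : volume A ≠ ⊤) :
    gvol ε A ≤ (volume A).toReal := by
  have h1 : gvol ε A ≤ ∫ _ in A, (1 : ℝ) := by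
    refine integral_mono (integrable_gaussw hε).integrableOn ?_ fun x => ?_
    · exact integrableOn_const hA
    · have : 0 ≤ ε / 2 * ∑ a, x a ^ 2 := by positivity
      simpa using this
  simpa [Measure.real] using h1

theorem le_gvol {ε R : ℝ} (hε : 0 < ε) {A : Set (E n)} (hA : IsCompact A)
    (hR : ∀ x ∈ A, ∑ a, x a ^ 2 ≤ R) : Real.exp (-(ε / 2 * R)) * (volume A).toReal ≤ gvol ε A := by
  have h1 : ∫ _ in A, Real.exp (-(ε / 2 * R)) ≤ gvol ε A := by
    refine setIntegral_mono_on (integrableOn_const hA.measure_lt_top.ne)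
      (integrable_gaussw hε).integrableOn hA.measurableSet fun x hx => ?_
    have := hR x hx
    apply Real.exp_le_exp.2
    nlinarith
  simpa [Measure.real, mul_comm] using h1

theorem isClosed_strip (u : E n) (h : ℝ) : IsClosed {x : E n | |u ⬝ᵥ x| ≤ h} :=
  isClosed_le (by fun_prop) continuous_const

/-- Gaussian-weighted inequality for an arbitrary family of strips. -/
theorem gvol_family {I : Type} {ε : ℝ} (hε : 0 < ε) (u : I → E n) (h0 h1 : I → ℝ)
    (p0 : ∀ i, 0 < h0 i) (p1 : ∀ i, 0 < h1 i) {t : ℝ} (t0 : 0 ≤ t) (t1 : t ≤ 1)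
    {K L : Set (E n)} (hK : ∀ x ∈ K, ∀ i, |u i ⬝ᵥ x| ≤ h0 i) (hL : ∀ x ∈ L, ∀ i, |u i ⬝ᵥ x| ≤ h1 i) :
    gvol ε K ^ (1 - t) * gvol ε L ^ t ≤
      gvol ε {x | ∀ i, |u i ⬝ᵥ x| ≤ h0 i ^ (1 - t) * h1 i ^ t} := by
  classical
  set C : I → Set (E n) := fun i => {x | |u i ⬝ᵥ x| ≤ h0 i ^ (1 - t) * h1 i ^ t} with hC
  obtain ⟨T, hTc, hT⟩ := TopologicalSpace.isOpen_iUnion_countable (fun i => (C i)ᶜ)
    (fun i => (isClosed_strip _ _).isOpen_compl)
  haveI : Countable T := hTc.to_subtype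
  let s : Finset T → Set (E n) := fun F =>
    slab (fun i : F => u i.1.1) (fun i : F => h0 i.1.1 ^ (1 - t) * h1 i.1.1 ^ t)
  have hsm : ∀ F, MeasurableSet (s F) := fun F => by
    have : s F = ⋂ i : F, C i.1.1 := by ext x; simp [s, slab, hC]
    rw [this]
    exact (isClosed_iInter fun i => isClosed_strip _ _).measurableSet
  have hanti : Antitone s := fun F G hFG x hx i => hx ⟨i.1, hFG i.2⟩
  have hlim := tendsto_setIntegral_of_antitone (μ := volume)
    (f := fun x : E n => Real.exp (-(ε / 2 * ∑ a, x a ^ 2))) hsm hanti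
    ⟨∅, (integrable_gaussw hε).integrableOn⟩
  have hint : (⋂ F, s F) = {x | ∀ i, |u i ⬝ᵥ x| ≤ h0 i ^ (1 - t) * h1 i ^ t} := by
    ext x
    simp only [Set.mem_iInter, Set.mem_setOf_eq]
    constructor
    · intro hx i
      by_contra hi
      have : x ∈ ⋃ i, (C i)ᶜ := Set.mem_iUnion.2 ⟨i, hi⟩
      rw [← hT] at this
      obtain ⟨j, hj, hxj⟩ := Set.mem_iUnion₂.1 this
      exact hxj (hx {⟨j, hj⟩} ⟨⟨j, hj⟩, Finset.mem_singleton_self _⟩)
    · intro hx F i
      exact hx _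
  rw [hint] at hlim
  refine ge_of_tendsto' hlim fun F => ?_
  refine le_trans ?_ (slab_logconcave hε (fun i : F => u i.1.1) (fun i : F => h0 i.1.1)
    (fun i : F => h1 i.1.1) (fun i => p0 _) (fun i => p1 _) t0 t1)
  have a0 : gvol ε K ≤ gvol ε (slab (fun i : F => u i.1.1) (fun i : F => h0 i.1.1)) :=
    gvol_mono hε fun x hx i => hK x hx _
  have a1 : gvol ε L ≤ gvol ε (slab (fun i : F => u i.1.1) (fun i : F => h1 i.1.1)) :=
    gvol_mono hε fun x hx i => hL x hx _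
  exact mul_le_mul (Real.rpow_le_rpow (gvol_nonneg _ _) a0 (by linarith))
    (Real.rpow_le_rpow (gvol_nonneg _ _) a1 t0) (Real.rpow_nonneg (gvol_nonneg _ _) _)
    (Real.rpow_nonneg (gvol_nonneg _ _) _)

/-- Lebesgue measure, arbitrary family of strips. -/
theorem vol_family {I : Type} (u : I → E n) (h0 h1 : I → ℝ)
    (p0 : ∀ i, 0 < h0 i) (p1 : ∀ i, 0 < h1 i) {t : ℝ} (t0 : 0 ≤ t) (t1 : t ≤ 1)
    {K L : Set (E n)} (hKc : IsCompact K) (hLc : IsCompact L)
    (hK : ∀ x ∈ K, ∀ i, |u i ⬝ᵥ x| ≤ h0 i) (hL : ∀ x ∈ L, ∀ i, |u i ⬝ᵥ x| ≤ h1 i) :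
    volume K ^ (1 - t) * volume L ^ t ≤
      volume {x : E n | ∀ i, |u i ⬝ᵥ x| ≤ h0 i ^ (1 - t) * h1 i ^ t} := by
  set S : Set (E n) := {x | ∀ i, |u i ⬝ᵥ x| ≤ h0 i ^ (1 - t) * h1 i ^ t} with hS
  by_cases hfin : volume S = ⊤
  · rw [hfin]; exact le_top
  obtain ⟨R, hR⟩ : ∃ R : ℝ, ∀ x ∈ K ∪ L, ∑ a, x a ^ 2 ≤ R := by
    obtain ⟨R, hR⟩ := (hKc.union hLc).bddAbove_image
      (f := fun x : E n => ∑ a, x a ^ 2) (by fun_prop)
    exact ⟨R, fun x hx => hR ⟨x, hx, rfl⟩⟩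
  set k := (volume K).toReal
  set l := (volume L).toReal
  have hk : 0 ≤ k := ENNReal.toReal_nonneg
  have hl : 0 ≤ l := ENNReal.toReal_nonneg
  have key : ∀ ε : ℝ, 0 < ε →
      Real.exp (-(ε / 2 * R)) * (k ^ (1 - t) * l ^ t) ≤ (volume S).toReal := by
    intro ε hε
    have e0 := Real.exp_pos (-(ε / 2 * R))
    have b0 := le_gvol hε hKc fun x hx => hR x (Or.inl hx)
    have b1 := le_gvol hε hLc fun x hx => hR x (Or.inr hx)
    have b2 := gvol_family hε u h0 h1 p0 p1 t0 t1 hK hL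
    refine le_trans ?_ (b2.trans (gvol_le hε hfin))
    calc Real.exp (-(ε / 2 * R)) * (k ^ (1 - t) * l ^ t)
        = (Real.exp (-(ε / 2 * R)) * k) ^ (1 - t) * (Real.exp (-(ε / 2 * R)) * l) ^ t := by
          rw [Real.mul_rpow e0.le hk, Real.mul_rpow e0.le hl]
          have : Real.exp (-(ε / 2 * R)) =
              Real.exp (-(ε / 2 * R)) ^ (1 - t) * Real.exp (-(ε / 2 * R)) ^ t := by
            rw [← Real.rpow_add e0]; simp
          conv_lhs => rw [this]
          ring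
      _ ≤ _ := mul_le_mul (Real.rpow_le_rpow (by positivity) b0 (by linarith))
          (Real.rpow_le_rpow (by positivity) b1 t0) (by positivity)
          (Real.rpow_nonneg (gvol_nonneg _ _) _)
  have hlim : Tendsto (fun ε : ℝ => Real.exp (-(ε / 2 * R)) * (k ^ (1 - t) * l ^ t)) (𝓝[>] 0)
      (𝓝 (k ^ (1 - t) * l ^ t)) := by
    have : Continuous fun ε : ℝ => Real.exp (-(ε / 2 * R)) * (k ^ (1 - t) * l ^ t) := by fun_prop
    have h := (this.tendsto 0).mono_left (nhdsWithin_le_nhds (s := Set.Ioi 0))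
    simpa using h
  have hreal : k ^ (1 - t) * l ^ t ≤ (volume S).toReal :=
    le_of_tendsto hlim (eventually_nhdsWithin_of_forall fun ε hε => key ε hε)
  have eK : volume K = ENNReal.ofReal k := (ENNReal.ofReal_toReal hKc.measure_lt_top.ne).symm
  have eL : volume L = ENNReal.ofReal l := (ENNReal.ofReal_toReal hLc.measure_lt_top.ne).symm
  rw [eK, eL, ENNReal.ofReal_rpow_of_nonneg hk (by linarith), ENNReal.ofReal_rpow_of_nonneg hl t0,
    ← ENNReal.ofReal_mul (Real.rpow_nonneg hk _), ← ENNReal.ofReal_toReal hfin]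
  exact ENNReal.ofReal_le_ofReal hreal

end Crest.Agent.R238
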