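import Crest.Agent.R238.Basic

/-!
# Row 238: pointwise linear algebra for real matrices
-/

set_option autoImplicit false
open MeasureTheory Matrix
open scoped ContDiff BigOperators

noncomputable section
namespace Crest.Agent.R238

variable {n : ℕ}

/-- Real `n × n` matrices. -/
abbrev RM (n : ℕ) := Matrix (Fin n) (Fin n) ℝ

theorem dot_self_nonneg (v : E n) : 0 ≤ v ⬝ᵥ v := Finset.sum_nonneg fun _ _ => mul_self_nonneg _

theorem alg_herm {A : RM n} (hA : Aᵀ = A) : A.IsHermitian := by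
  rw [IsHermitian, conjTranspose_eq_transpose_of_trivial, hA]

theorem alg_symm_dot {A : RM n} (hA : Aᵀ = A) (v w : E n) : v ⬝ᵥ (A *ᵥ w) = w ⬝ᵥ (A *ᵥ v) := by
  rw [dotProduct_mulVec, ← mulVec_transpose, hA, dotProduct_comm]

theorem alg_cs (v w : E n) : (v ⬝ᵥ w) ^ 2 ≤ (v ⬝ᵥ v) * (w ⬝ᵥ w) := by
  simpa only [dotProduct, sq] using Finset.sum_mul_sq_le_sq_mul_sq Finset.univ v w

theorem psd_of_low {A : RM n} (hA : Aᵀ = A) {c : ℝ} (hc : 0 ≤ c)
    (h : ∀ v : E n, c * (v ⬝ᵥ v) ≤ v ⬝ᵥ (A *ᵥ v)) : A.PosSemidef := by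
  exact PosSemidef.of_dotProduct_mulVec_nonneg (alg_herm hA) fun v =>
    (mul_nonneg hc (dot_self_nonneg v)).trans (h v)

theorem posDef_of_low {A : RM n} (hA : Aᵀ = A) {c : ℝ} (hc : 0 < c)
    (h : ∀ v : E n, c * (v ⬝ᵥ v) ≤ v ⬝ᵥ (A *ᵥ v)) : A.PosDef := by
  refine PosDef.of_dotProduct_mulVec_pos (alg_herm hA) fun v hv => lt_of_lt_of_le ?_ (h v)
  exact mul_pos hc (lt_of_le_of_ne (dot_self_nonneg v) fun h0 => hv (dotProduct_self_eq_zero.1 h0.symm))

theorem psd_quad {A : RM n} (hA : A.PosSemidef) (v : E n) : 0 ≤ v ⬝ᵥ (A *ᵥ v) := by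
  exact hA.dotProduct_mulVec_nonneg v

theorem psd_transpose {A : RM n} (hA : A.PosSemidef) : Aᵀ = A := by
  have := hA.1
  rwa [IsHermitian, conjTranspose_eq_transpose_of_trivial] at this

open scoped MatrixOrder in
theorem alg_sqrt {A : RM n} (hA : A.PosSemidef) : ∃ R : RM n, Rᵀ = R ∧ R * R = A :=
  ⟨CFC.sqrt A, psd_transpose (CFC.sqrt_nonneg A).posSemidef, CFC.sqrt_mul_sqrt_self A hA.nonneg⟩

theorem alg_conj {A S : RM n} (hA : A.PosSemidef) (hS : Sᵀ = S) : (S * A * S).PosSemidef := by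
  have := hA.conjTranspose_mul_mul_same S
  rwa [conjTranspose_eq_transpose_of_trivial, hS] at this

theorem posDef_inv_of_mul {τ g : RM n} (hg : g.PosDef) (h : τ * g = 1) : τ.PosDef := by
  rw [← Matrix.inv_eq_left_inv h]
  exact hg.inv

theorem trace_mul_nonneg {A B : RM n} (hA : A.PosSemidef) (hB : B.PosSemidef) : 0 ≤ (A * B).trace := by
  obtain ⟨R, hR, rfl⟩ := alg_sqrt hA
  rw [trace_mul_cycle, trace_mul_cycle]
  exact (alg_conj hB hR).trace_nonneg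

theorem trace_conj_nonneg {τ S : RM n} (hτ : τ.PosSemidef) (hS : Sᵀ = S) :
    0 ≤ (τ * S * τ * S).trace := by
  have := trace_mul_nonneg hτ (alg_conj hτ hS)
  simpa only [Matrix.mul_assoc] using this

/-- `tr(τSτS) ≥ c tr(SτS) ≥ c² tr(S²)` (twice `trace_mul_nonneg` with `τ - c • 1`). -/
theorem trace_conj_ge {τ S : RM n} {c : ℝ} (hc : 0 ≤ c) (hτ : τᵀ = τ)
    (h : ∀ v : E n, c * (v ⬝ᵥ v) ≤ v ⬝ᵥ (τ *ᵥ v)) (hS : Sᵀ = S) :
    c ^ 2 * ∑ a, ∑ b, S a b ^ 2 ≤ (τ * S * τ * S).trace := by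
  have hP : (τ - c • (1 : RM n)).PosSemidef := by
    refine psd_of_low (c := 0) (by rw [transpose_sub, transpose_smul, transpose_one, hτ]) le_rfl
      fun v => ?_
    rw [sub_mulVec, smul_mulVec, one_mulVec, dotProduct_sub, dotProduct_smul, smul_eq_mul]
    linarith [h v]
  have h1 := trace_mul_nonneg hP (alg_conj (psd_of_low hτ hc h) hS)
  have h2 := trace_mul_nonneg hP (alg_conj PosSemidef.one hS)
  have h3 : (S * S).trace = ∑ a, ∑ b, S a b ^ 2 := by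
    simp only [trace, diag, mul_apply, sq]
    refine Finset.sum_congr rfl fun a _ => Finset.sum_congr rfl fun b _ => ?_
    rw [← transpose_apply S a b, hS]
  have h4 : (S * τ * S).trace = (τ * (S * S)).trace := by
    rw [trace_mul_cycle, trace_mul_comm]
  simp only [Matrix.sub_mul, Matrix.smul_mul, Matrix.one_mul, Matrix.mul_one, trace_sub, trace_smul,
    smul_eq_mul] at h1 h2
  rw [h4] at h1
  rw [← h3, show τ * S * τ * S = τ * (S * τ * S) by simp only [Matrix.mul_assoc]]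
  nlinarith [mul_le_mul_of_nonneg_left h2 hc]

/-- Expand `0 ≤ tr(g (Q - τsτ) g (Q - τsτ))`. -/
theorem two_trace_le {τ g Q s : RM n} (hg : g.PosDef) (h : τ * g = 1) (hQ : Qᵀ = Q) (hs : sᵀ = s) :
    2 * (Q * s).trace ≤ (Q * g * Q * g).trace + (τ * s * τ * s).trace := by
  have hτ := psd_transpose (posDef_inv_of_mul hg h).posSemidef
  have h' : g * τ = 1 := mul_eq_one_comm.1 h
  have a1 : ∀ X : RM n, τ * (g * X) = X := fun X => by rw [← Matrix.mul_assoc, h, Matrix.one_mul]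
  have a2 : ∀ X : RM n, g * (τ * X) = X := fun X => by rw [← Matrix.mul_assoc, h', Matrix.one_mul]
  have h1 := trace_conj_nonneg hg.posSemidef (S := Q - τ * s * τ) (by
    rw [transpose_sub, transpose_mul, transpose_mul, hQ, hτ, hs, Matrix.mul_assoc])
  have e : g * (Q - τ * s * τ) * g * (Q - τ * s * τ) =
      g * (Q * g * Q) - g * (Q * s) * τ - s * Q + s * τ * s * τ := by
    simp only [Matrix.mul_sub, Matrix.sub_mul, Matrix.mul_assoc, a1, a2, h, Matrix.mul_one]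
    abel
  rw [e, trace_add, trace_sub, trace_sub, trace_mul_comm g (Q * g * Q), trace_mul_cycle g (Q * s) τ,
    h, Matrix.one_mul, trace_mul_comm s Q, trace_mul_comm (s * τ * s) τ] at h1
  rw [show τ * s * τ * s = τ * (s * τ * s) by simp only [Matrix.mul_assoc]]
  linarith

/-- Cauchy–Schwarz for a positive semidefinite form. -/
theorem psd_cs {A : RM n} (hA : A.PosSemidef) (v w : E n) :
    (v ⬝ᵥ (A *ᵥ w)) ^ 2 ≤ (v ⬝ᵥ (A *ᵥ v)) * (w ⬝ᵥ (A *ᵥ w)) := by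
  obtain ⟨R, hR, rfl⟩ := alg_sqrt hA
  have e : ∀ x y : E n, x ⬝ᵥ ((R * R) *ᵥ y) = (R *ᵥ x) ⬝ᵥ (R *ᵥ y) := fun x y => by
    rw [← mulVec_mulVec, alg_symm_dot hR, dotProduct_comm]
  rw [e, e, e]
  exact alg_cs _ _

/-- `psd_cs` for `g` at `τ v` and `w`. -/
theorem cs_inv {τ g : RM n} (hg : g.PosDef) (h : τ * g = 1) (v w : E n) :
    (v ⬝ᵥ w) ^ 2 ≤ (v ⬝ᵥ (τ *ᵥ v)) * (w ⬝ᵥ (g *ᵥ w)) := by
  have h' : g * τ = 1 := mul_eq_one_comm.1 h
  have h1 := psd_cs hg.posSemidef (τ *ᵥ v) w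
  rwa [alg_symm_dot (psd_transpose hg.posSemidef), mulVec_mulVec, h', one_mulVec,
    dotProduct_comm w v, dotProduct_comm (τ *ᵥ v) v] at h1

theorem inv_low {τ g : RM n} (hg : g.PosDef) (h : τ * g = 1) {Λ : ℝ} (hΛ : 0 < Λ)
    (hup : ∀ v : E n, v ⬝ᵥ (g *ᵥ v) ≤ Λ * (v ⬝ᵥ v)) (v : E n) : Λ⁻¹ * (v ⬝ᵥ v) ≤ v ⬝ᵥ (τ *ᵥ v) := by
  have h0 := psd_quad (posDef_inv_of_mul hg h).posSemidef v
  have h1 := (cs_inv hg h v v).trans (mul_le_mul_of_nonneg_left (hup v) h0)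
  rw [inv_mul_le_iff₀ hΛ]
  rcases (dot_self_nonneg v).eq_or_lt with h2 | h2
  · rw [← h2]; positivity
  · refine le_of_mul_le_mul_right ?_ h2
    nlinarith

theorem inv_up {τ g : RM n} (hg : gᵀ = g) (h : τ * g = 1) {c : ℝ} (hc : 0 < c)
    (hlow : ∀ v : E n, c * (v ⬝ᵥ v) ≤ v ⬝ᵥ (g *ᵥ v)) (v : E n) :
    v ⬝ᵥ (τ *ᵥ v) ≤ c⁻¹ * (v ⬝ᵥ v) := by
  have h' : g * τ = 1 := mul_eq_one_comm.1 h
  have h1 := hlow (τ *ᵥ v)
  rw [mulVec_mulVec, h', one_mulVec, dotProduct_comm (τ *ᵥ v) v] at h1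
  have h2 := alg_cs v (τ *ᵥ v)
  have h3 := dot_self_nonneg v
  have h4 := dot_self_nonneg (τ *ᵥ v)
  rw [le_inv_mul_iff₀ hc]
  rcases ((mul_nonneg hc.le h4).trans h1).eq_or_lt with h5 | h5
  · rw [← h5, mul_zero]; exact h3
  · refine le_of_mul_le_mul_right ?_ h5
    nlinarith [mul_le_mul_of_nonneg_left h2 hc.le, mul_le_mul_of_nonneg_left h1 h3]

/-- Polarisation. -/
theorem abs_entry_le {A : RM n} (hA : Aᵀ = A) {Λ : ℝ}
    (h : ∀ v : E n, |v ⬝ᵥ (A *ᵥ v)| ≤ Λ * (v ⬝ᵥ v)) (a b : Fin n) : |A a b| ≤ Λ := by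
  have e1 : ∀ i j : Fin n, (Pi.single i 1 : E n) ⬝ᵥ (A *ᵥ Pi.single j 1) = A i j := by
    intro i j; simp
  have e2 : ∀ i : Fin n, (Pi.single i 1 : E n) ⬝ᵥ (Pi.single i 1 : E n) = 1 := by
    intro i; simp
  have e3 : A b a = A a b := by rw [← transpose_apply A a b, hA]
  have h1 := h (Pi.single a 1 + Pi.single b 1)
  have h2 := h (Pi.single a 1 - Pi.single b 1)
  simp only [mulVec_add, mulVec_sub, add_dotProduct, dotProduct_add, sub_dotProduct, dotProduct_sub,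
    e1, e2, e3] at h1 h2
  obtain ⟨a1, a2⟩ := abs_le.1 h1
  obtain ⟨a3, a4⟩ := abs_le.1 h2
  rw [abs_le]
  constructor <;> linarith

theorem abs_quad_le {A : RM n} {K : ℝ} (h : ∀ a b, |A a b| ≤ K) (v : E n) :
    |v ⬝ᵥ (A *ᵥ v)| ≤ n * K * (v ⬝ᵥ v) := by
  have e : v ⬝ᵥ (A *ᵥ v) = ∑ a, ∑ b, v a * A a b * v b := by
    simp only [dotProduct, mulVec, Finset.mul_sum, mul_assoc]
  rw [e]
  calc _ ≤ ∑ a, ∑ b, (K / 2 * (v a * v a) + K / 2 * (v b * v b)) := by
        refine (Finset.abs_sum_le_sum_abs _ _).trans (Finset.sum_le_sum fun a _ =>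
          (Finset.abs_sum_le_sum_abs _ _).trans (Finset.sum_le_sum fun b _ => ?_))
        have hK : 0 ≤ K := (abs_nonneg _).trans (h a b)
        rw [mul_right_comm, abs_mul, abs_mul]
        have k1 := mul_le_mul_of_nonneg_left (h a b) (mul_nonneg (abs_nonneg (v a)) (abs_nonneg (v b)))
        have k2 : 2 * (|v a| * |v b|) ≤ v a * v a + v b * v b := by
          nlinarith [sq_nonneg (|v a| - |v b|), abs_mul_abs_self (v a), abs_mul_abs_self (v b)]
        nlinarith [mul_le_mul_of_nonneg_left k2 hK]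
    _ = _ := by
        simp only [Finset.sum_add_distrib, Finset.sum_const, Finset.card_univ, Fintype.card_fin,
          nsmul_eq_mul, ← Finset.mul_sum, dotProduct]
        ring

theorem abs_quad_le_sum (A : RM n) (v : E n) :
    |v ⬝ᵥ (A *ᵥ v)| ≤ (∑ a, ∑ b, |A a b|) * (v ⬝ᵥ v) := by
  have e : v ⬝ᵥ (A *ᵥ v) = ∑ a, ∑ b, v a * A a b * v b := by
    simp only [dotProduct, mulVec, Finset.mul_sum, mul_assoc]
  have hs : ∀ a, v a * v a ≤ v ⬝ᵥ v := fun a =>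
    Finset.single_le_sum (f := fun a => v a * v a) (fun _ _ => mul_self_nonneg _) (Finset.mem_univ a)
  rw [e, Finset.sum_mul]
  refine (Finset.abs_sum_le_sum_abs _ _).trans (Finset.sum_le_sum fun a _ => ?_)
  rw [Finset.sum_mul]
  refine (Finset.abs_sum_le_sum_abs _ _).trans (Finset.sum_le_sum fun b _ => ?_)
  rw [mul_right_comm, abs_mul, mul_comm]
  refine mul_le_mul_of_nonneg_left (abs_le.2 ⟨?_, ?_⟩) (abs_nonneg _)
  · nlinarith [hs a, hs b, sq_nonneg (v a + v b)]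
  · nlinarith [hs a, hs b, sq_nonneg (v a - v b)]

theorem sq_quad_le {A : RM n} (hA : Aᵀ = A) (v : E n) :
    (v ⬝ᵥ (A *ᵥ v)) ^ 2 ≤ (v ⬝ᵥ v) * ((A *ᵥ v) ⬝ᵥ (A *ᵥ v)) := by
  have _ := hA
  exact alg_cs _ _

/-- All eigenvalues are `≥ c`. -/
theorem det_ge_of_low {A : RM n} (hA : Aᵀ = A) {c : ℝ} (hc : 0 < c)
    (h : ∀ v : E n, c * (v ⬝ᵥ v) ≤ v ⬝ᵥ (A *ᵥ v)) : c ^ n ≤ A.det := by
  have hH := alg_herm hA
  have h1 := hH.det_eq_prod_eigenvalues
  simp only [RCLike.ofReal_real_eq_id, id] at h1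
  rw [h1, ← Fin.prod_const n c]
  refine Finset.prod_le_prod (fun _ _ => hc.le) fun i _ => ?_
  have h2 := h (hH.eigenvectorBasis i).ofLp
  rw [hH.mulVec_eigenvectorBasis, dotProduct_smul, smul_eq_mul] at h2
  refine le_of_mul_le_mul_right h2 (lt_of_le_of_ne (dot_self_nonneg _) fun h0 => ?_)
  have h3 := dotProduct_self_eq_zero.1 h0.symm
  exact hH.eigenvectorBasis.orthonormal.ne_zero i (by ext j; simpa using congrFun h3 j)

theorem alg_logdet {M : RM n} (hM : M.PosDef) : Real.log M.det ≤ M.trace - n := by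
  have h1 := hM.1.det_eq_prod_eigenvalues
  have h2 := hM.1.trace_eq_sum_eigenvalues
  simp only [RCLike.ofReal_real_eq_id, id] at h1 h2
  rw [h1, h2, Real.log_prod fun i _ => (hM.eigenvalues_pos i).ne']
  calc _ ≤ ∑ i, (hM.1.eigenvalues i - 1) :=
        Finset.sum_le_sum fun i _ => Real.log_le_sub_one_of_pos (hM.eigenvalues_pos i)
    _ = _ := by simp [Finset.sum_sub_distrib]

/-- Concavity of `log det`: with `τ = R R`, `R = √τ`, the eigenvalues `λ_i > 0` of `R g' R` satisfy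
`∑ log λ_i ≤ ∑ (λ_i - 1)`. -/
theorem logdet_le {τ g g' : RM n} (hg : g.PosDef) (hg' : g'.PosDef) (h : τ * g = 1) :
    Real.log g'.det - Real.log g.det ≤ (τ * g').trace - n := by
  have hτ := posDef_inv_of_mul hg h
  obtain ⟨R, hR, rfl⟩ := alg_sqrt hτ.posSemidef
  have h1 : (R * g' * R).det = (R * R).det * g'.det := by
    simp only [det_mul]; ring
  have hM : (R * g' * R).PosDef := (alg_conj hg'.posSemidef hR).posDef_iff_det_ne_zero.2
    (by rw [h1]; exact (mul_pos hτ.det_pos hg'.det_pos).ne')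
  have h2 := alg_logdet hM
  have h3 : Real.log (R * R).det + Real.log g.det = 0 := by
    rw [← Real.log_mul hτ.det_pos.ne' hg.det_pos.ne', ← det_mul, h, det_one, Real.log_one]
  rw [h1, Real.log_mul hτ.det_pos.ne' hg'.det_pos.ne', trace_mul_cycle] at h2
  linarith

/-- Second order remainder of `log det`: two applications of `logdet_le` give
`tr((τ' - τ) B) ≤ η ≤ 0`, and `τ' - τ = -τ' B τ`. -/
theorem abs_logdet_remainder {τ τ' g B : RM n} (hg : g.PosDef) (hg' : (g + B).PosDef)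
    (h : τ * g = 1) (h' : τ' * (g + B) = 1) :
    |Real.log (g + B).det - Real.log g.det - (τ * B).trace| ≤ |(τ' * B * τ * B).trace| := by
  have hgτ : g * τ = 1 := mul_eq_one_comm.1 h
  have h1 := logdet_le hg hg' h
  have h2 := logdet_le hg' hg h'
  have e1 : τ' * g = 1 - τ' * B := by rw [← h', Matrix.mul_add]; abel
  have e2 : τ' * B * τ * B = τ * B - τ' * B := by
    have : τ' * B * τ = τ - τ' := by
      calc τ' * B * τ = (1 - τ' * g) * τ := by rw [e1, sub_sub_cancel]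
        _ = τ - τ' := by rw [Matrix.sub_mul, Matrix.one_mul, Matrix.mul_assoc, hgτ, Matrix.mul_one]
    rw [this, Matrix.sub_mul]
  rw [Matrix.mul_add, h, trace_add, trace_one, Fintype.card_fin] at h1
  rw [e1, trace_sub, trace_one, Fintype.card_fin] at h2
  rw [e2, trace_sub, abs_le]
  constructor
  · linarith [le_abs_self ((τ * B).trace - (τ' * B).trace)]
  · linarith [abs_nonneg ((τ * B).trace - (τ' * B).trace)]

end Crest.Agent.R238
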