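import Crest.Agent.R238.Int

/-!
# Row 238: cutoff functions
-/

set_option autoImplicit false
open MeasureTheory Matrix
open scoped ContDiff BigOperators

noncomputable section
namespace Crest.Agent.R238

variable {n : ℕ}

/-- `cut R = 1` for `|x|² ≤ R²` and `= 0` for `|x|² ≥ 2R²`. -/
def cut (R : ℝ) : Sm n :=
  cmp Real.smoothTransition Real.smoothTransition.contDiff (2 - (R ^ 2)⁻¹ • nsq)

theorem cut_nonneg (R : ℝ) (x : E n) : 0 ≤ ev x (cut R) := Real.smoothTransition.nonneg _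
theorem cut_le_one (R : ℝ) (x : E n) : ev x (cut R) ≤ 1 := Real.smoothTransition.le_one _

theorem cutoff_ev (R : ℝ) (x : E n) :
    ev x (cut R) = Real.smoothTransition (2 - (R ^ 2)⁻¹ * ∑ a, x a ^ 2) := by
  simp [cut]

theorem cut_eq_one {R : ℝ} (hR : 0 < R) {x : E n} (h : ∑ a, x a ^ 2 ≤ R ^ 2) : ev x (cut R) = 1 := by
  rw [cutoff_ev]
  refine Real.smoothTransition.one_of_one_le ?_
  have : (R ^ 2)⁻¹ * ∑ a, x a ^ 2 ≤ 1 := by
    rw [inv_mul_le_iff₀ (by positivity)]; linarith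
  linarith

theorem cut_eq_zero {R : ℝ} (hR : 0 < R) {x : E n} (h : 2 * R ^ 2 ≤ ∑ a, x a ^ 2) :
    ev x (cut R) = 0 := by
  rw [cutoff_ev]
  refine Real.smoothTransition.zero_of_nonpos ?_
  have : 2 ≤ (R ^ 2)⁻¹ * ∑ a, x a ^ 2 := by
    rw [le_inv_mul_iff₀ (by positivity)]; linarith
  linarith

theorem isEv_cut (R : ℝ) : IsEv (cut R : Sm n) := by
  rw [isEv_iff]
  intro x
  simp [cutoff_ev]

/-- Derivatives vanish where `cut R` is locally constant. -/
theorem d_cut_eq_zero {R : ℝ} (hR : 0 < R) (k : ℕ) {x : E n}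
    (h : ∑ a, x a ^ 2 < R ^ 2 ∨ 2 * R ^ 2 < ∑ a, x a ^ 2) : d (k + 1) (cut R) x = 0 := by
  have hc : Continuous fun y : E n => ∑ a, y a ^ 2 := by fun_prop
  rcases h with h | h
  · have h1 := d_eq_zero_of_isOpen (isOpen_lt hc continuous_const) (k + 1) (f := cut R - 1)
      (fun y (hy : ∑ a, y a ^ 2 < R ^ 2) => by rw [map_sub, cut_eq_one hR hy.le, map_one, sub_self])
      x h
    simpa only [d_succ, map_sub, pd_one, sub_zero] using h1
  · exact d_eq_zero_of_isOpen (isOpen_lt continuous_const hc) (k + 1)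
      (fun y (hy : 2 * R ^ 2 < ∑ a, y a ^ 2) => cut_eq_zero hR hy.le) x h

/-- `pd_cmp` twice; the derivatives of `smoothTransition` are continuous and vanish outside `[0,1]`. -/
theorem d_cut_le (n : ℕ) : ∃ C, 0 ≤ C ∧ ∀ R : ℝ, 0 < R → ∀ x : E n,
    d 1 (cut R) x ≤ C / R ∧ d 2 (cut R) x ≤ C / R ^ 2 := by
  have hφ : ContDiff ℝ ∞ Real.smoothTransition := Real.smoothTransition.contDiff
  obtain ⟨B₁, hB₁⟩ := (isCompact_Icc (a := (0 : ℝ)) (b := 1)).exists_bound_of_continuousOn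
    (contDiff_deriv hφ).continuous.continuousOn
  obtain ⟨B₂, hB₂⟩ := (isCompact_Icc (a := (0 : ℝ)) (b := 1)).exists_bound_of_continuousOn
    (contDiff_deriv (contDiff_deriv hφ)).continuous.continuousOn
  have hB₁0 : 0 ≤ B₁ := (norm_nonneg _).trans (hB₁ 0 ⟨le_rfl, zero_le_one⟩)
  have hB₂0 : 0 ≤ B₂ := (norm_nonneg _).trans (hB₂ 0 ⟨le_rfl, zero_le_one⟩)
  refine ⟨n * (4 * B₁) + n * (n * (16 * B₂ + 2 * B₁)), by positivity, fun R hR x => ?_⟩
  by_cases h : ∑ a, x a ^ 2 < R ^ 2 ∨ 2 * R ^ 2 < ∑ a, x a ^ 2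
  · rw [d_cut_eq_zero hR 0 h, d_cut_eq_zero hR 1 h]
    exact ⟨by positivity, by positivity⟩
  rw [not_or, not_lt, not_lt] at h
  set g : Sm n := 2 - (R ^ 2)⁻¹ • nsq with hg
  have hgx : ev x g ∈ Set.Icc (0 : ℝ) 1 := by
    have e : ev x g = 2 - (R ^ 2)⁻¹ * ∑ a, x a ^ 2 := by simp [hg]
    have h1 : 1 ≤ (R ^ 2)⁻¹ * ∑ a, x a ^ 2 := by
      rw [le_inv_mul_iff₀ (by positivity)]; linarith [h.1]
    have h2 : (R ^ 2)⁻¹ * ∑ a, x a ^ 2 ≤ 2 := by
      rw [inv_mul_le_iff₀ (by positivity)]; linarith [h.2]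
    rw [e]
    exact ⟨by linarith, by linarith⟩
  have hpg : ∀ a, pd a g = (-2 * (R ^ 2)⁻¹) • X a := by
    intro a
    have h2 : pd a (2 : Sm n) = 0 := by
      rw [show (2 : Sm n) = 1 + 1 by norm_num, map_add, pd_one, add_zero]
    rw [hg, map_sub, h2, Derivation.map_smul, pd_nsq]
    ext y
    simp
    ring
  have h1 : ∀ a, |ev x (pd a g)| ≤ 4 / R := by
    intro a
    have hxa : |x a| ≤ 2 * R := by
      refine abs_le_abs_iff_aux ?_ (by positivity)
      have : x a ^ 2 ≤ ∑ b, x b ^ 2 :=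
        Finset.single_le_sum (f := fun b => x b ^ 2) (fun b _ => sq_nonneg _) (Finset.mem_univ a)
      rw [sq_abs]
      nlinarith [h.2, sq_nonneg R]
    rw [hpg, ev_smul, ev_X, abs_mul, abs_of_nonpos (by simp; positivity)]
    calc -(-2 * (R ^ 2)⁻¹) * |x a| ≤ -(-2 * (R ^ 2)⁻¹) * (2 * R) :=
          mul_le_mul_of_nonneg_left hxa (by simp; positivity)
      _ = 4 / R := by field_simp; norm_num
  have h2 : ∀ a b, |ev x (pd b (pd a g))| ≤ 2 / R ^ 2 := by
    intro a b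
    rw [hpg, Derivation.map_smul, pd_X, ev_smul, abs_mul, abs_of_nonpos (by simp; positivity)]
    split_ifs
    · simp [div_eq_mul_inv]
    · simp; positivity
  have e1 : ∀ a, pd a (cut R : Sm n) = cmp _ (contDiff_deriv hφ) g * pd a g := fun a =>
    pd_cmp a _ hφ g
  have b1 : |ev x (cmp _ (contDiff_deriv hφ) g)| ≤ B₁ := hB₁ _ hgx
  have b2 : |ev x (cmp _ (contDiff_deriv (contDiff_deriv hφ)) g)| ≤ B₂ := hB₂ _ hgx
  constructor
  · have : d 1 (cut R) x ≤ ∑ _a : Fin n, B₁ * (4 / R) := by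
      refine Finset.sum_le_sum fun a _ => ?_
      rw [d_zero_eq, e1, map_mul, abs_mul]
      exact mul_le_mul b1 (h1 a) (abs_nonneg _) hB₁0
    rw [Finset.sum_const, Finset.card_univ, Fintype.card_fin, nsmul_eq_mul] at this
    refine this.trans ?_
    rw [add_div, show n * (B₁ * (4 / R)) = n * (4 * B₁) / R by ring]
    exact le_add_of_nonneg_right (by positivity)
  · have : d 2 (cut R) x ≤
        ∑ _a : Fin n, ∑ _b : Fin n, (B₂ * (4 / R) * (4 / R) + B₁ * (2 / R ^ 2)) := by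
      refine Finset.sum_le_sum fun a _ => Finset.sum_le_sum fun b _ => ?_
      rw [d_zero_eq, e1, pd_mul, pd_cmp, map_add, map_mul, map_mul, map_mul]
      refine (abs_add_le _ _).trans (add_le_add ?_ ?_)
      · rw [abs_mul, abs_mul]
        exact mul_le_mul (mul_le_mul b2 (h1 b) (abs_nonneg _) hB₂0) (h1 a) (abs_nonneg _)
          (by positivity)
      · rw [abs_mul]
        exact mul_le_mul b1 (h2 a b) (abs_nonneg _) hB₁0
    simp only [Finset.sum_const, Finset.card_univ, Fintype.card_fin, nsmul_eq_mul] at this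
    refine this.trans ?_
    rw [add_div, show n * (n * (B₂ * (4 / R) * (4 / R) + B₁ * (2 / R ^ 2))) =
      n * (n * (16 * B₂ + 2 * B₁)) / R ^ 2 by field_simp; ring]
    exact le_add_of_nonneg_left (by positivity)

theorem sym_cut_mul {R : ℝ} (hR : 0 < R) (f : Sm n) (m : ℝ) : Sym m (cut R * f) := by
  refine sym_of_compact_support (R := 2 * R + 1) (fun x hx => ?_) m
  rw [map_mul, cut_eq_zero hR, zero_mul]
  have h1 : (2 * R + 1) ^ 2 ≤ r x ^ 2 := pow_le_pow_left₀ (by positivity) hx 2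
  rw [r_sq] at h1
  nlinarith

theorem cutoff_tm {R : ℝ} (hR : 0 < R) : Tm (cut R : Sm n) := by
  simpa using (sym_cut_mul hR (1 : Sm n) 0).tm

theorem cutoff_tendsto {V h : Sm n} (hV : Sym 0 V) (hh : Tm h) :
    Filter.Tendsto (fun k : ℕ => Iw V ((1 - cut ((k : ℝ) + 1)) * h)) Filter.atTop (nhds 0) := by
  have key := tendsto_integral_of_dominated_convergence (μ := (volume : Measure (E n)))
    (F := fun (k : ℕ) x => ev x ((1 - cut ((k : ℝ) + 1)) * h) * Real.exp (-ev x (Wp V)))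
    (f := fun _ => 0) (fun x => ‖ev x h * Real.exp (-ev x (Wp V))‖)
    (fun k => (int_weight_cont V _).aestronglyMeasurable) (hh.integrable hV).norm
    (fun k => Filter.Eventually.of_forall fun x => ?_)
    (Filter.Eventually.of_forall fun x => ?_)
  · rw [integral_zero] at key
    exact key
  · rw [map_mul, mul_assoc, norm_mul]
    refine mul_le_of_le_one_left (norm_nonneg _) ?_
    rw [map_sub, map_one, Real.norm_eq_abs, abs_le]
    have := cut_nonneg ((k : ℝ) + 1) x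
    have := cut_le_one ((k : ℝ) + 1) x
    constructor <;> linarith
  · refine tendsto_const_nhds.congr' ?_
    obtain ⟨k₀, hk₀⟩ := exists_nat_ge (∑ a, x a ^ 2)
    filter_upwards [Filter.eventually_ge_atTop k₀] with k hk
    have hk' : (k₀ : ℝ) ≤ k := by exact_mod_cast hk
    have hk0 : (0 : ℝ) ≤ k := Nat.cast_nonneg k
    rw [map_mul, map_sub, map_one, cut_eq_one (by positivity) (by nlinarith)]
    simp

/-- `f' = cut R * f - cst (mean)`; dominated convergence as `R → ∞` for `((1 - cut R) f)²` and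
`q 1 ((1 - cut R) f) ≤ 2 (1 - cut R)² q 1 f + 2 (d 1 (cut R))² f²`; the mean tends to `0`. -/
theorem approx_sym {V f : Sm n} (hV : Sym 0 V) (hf : Tm f) (h0 : Iw V f = 0) {η : ℝ} (hη : 0 < η) :
    ∃ f' : Sm n, Sym 0 f' ∧ Iw V f' = 0 ∧ Iw V ((f' - f) ^ 2) ≤ η ∧ Iw V (q 1 (f' - f)) ≤ η := by
  obtain ⟨C, hC, hd⟩ := d_cut_le n
  have hI := Iw_one_pos hV
  have t1 := cutoff_tendsto hV hf
  have t2 := cutoff_tendsto hV (hf.pow 2)
  have t3 := cutoff_tendsto hV (hf.q 1)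
  have t4 : Filter.Tendsto (fun k : ℕ => C / ((k : ℝ) + 1)) Filter.atTop (nhds 0) :=
    tendsto_const_nhds.div_atTop (Filter.tendsto_atTop_add_const_right _ _
      tendsto_natCast_atTop_atTop)
  have t5 := (t2.const_mul 2).add ((((t1.div_const (Iw V 1)).pow 2).mul_const (Iw V 1)).const_mul 2)
  have t6 := (t3.const_mul 2).add (((t4.pow 2).mul_const (Iw V (f ^ 2))).const_mul 2)
  simp only [mul_zero, zero_div, add_zero, ne_eq, OfNat.ofNat_ne_zero, not_false_eq_true, zero_pow,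
    zero_mul] at t5 t6
  obtain ⟨k, hk5, hk6⟩ := ((t5.eventually (gt_mem_nhds hη)).and
    (t6.eventually (gt_mem_nhds hη))).exists
  have hR : (0 : ℝ) < (k : ℝ) + 1 := by positivity
  set R : ℝ := (k : ℝ) + 1
  have hc : Tm (1 - cut R : Sm n) := tm_one.sub (cutoff_tm hR)
  have hc0 : ∀ x : E n, 0 ≤ 1 - ev x (cut R) := fun x => sub_nonneg.2 (cut_le_one R x)
  have hc1 : ∀ x : E n, (1 - ev x (cut R)) ^ 2 ≤ 1 - ev x (cut R) := fun x => by
    nlinarith [hc0 x, cut_nonneg R x]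
  set μ : ℝ := Iw V ((1 - cut R) * f) / Iw V 1 with hμ
  have e : cut R * f + cst μ - f = cst μ - (1 - cut R) * f := by ring
  refine ⟨cut R * f + cst μ, (sym_cut_mul hR f 0).add (sym_cst μ), ?_, ?_, ?_⟩
  · rw [show cut R * f + cst μ = f - (1 - cut R) * f + cst μ * 1 by ring,
      Iw_add hV (hf.sub (hc.mul hf)) ((tm_cst μ).mul tm_one), Iw_sub hV hf (hc.mul hf), Iw_cst_mul,
      h0, hμ]
    field_simp
    ring
  · refine le_trans ?_ hk5.le
    rw [e, ← Iw_cst_mul V (μ ^ 2), ← Iw_two_mul, ← Iw_two_mul,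
      ← Iw_add hV ((tm_ofNat 2).mul (hc.mul (hf.pow 2)))
        ((tm_ofNat 2).mul ((tm_cst _).mul tm_one))]
    refine Iw_mono hV (((tm_cst μ).sub (hc.mul hf)).pow 2)
      (((tm_ofNat 2).mul (hc.mul (hf.pow 2))).add ((tm_ofNat 2).mul ((tm_cst _).mul tm_one)))
      fun x => ?_
    simp only [map_pow, map_sub, map_mul, map_add, map_one, ev_cst, ev_ofNat, mul_one]
    nlinarith [mul_le_mul_of_nonneg_right (hc1 x) (sq_nonneg (ev x f)),
      sq_nonneg (μ + (1 - ev x (cut R)) * ev x f)]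
  · refine le_trans ?_ hk6.le
    rw [e, ← Iw_cst_mul V ((C / R) ^ 2), ← Iw_two_mul, ← Iw_two_mul,
      ← Iw_add hV ((tm_ofNat 2).mul (hc.mul (hf.q 1)))
        ((tm_ofNat 2).mul ((tm_cst _).mul (hf.pow 2)))]
    refine Iw_mono hV (((tm_cst μ).sub (hc.mul hf)).q 1)
      (((tm_ofNat 2).mul (hc.mul (hf.q 1))).add ((tm_ofNat 2).mul ((tm_cst _).mul (hf.pow 2))))
      fun x => ?_
    have h1 : ∑ a, ev x (pd a (cut R)) ^ 2 ≤ (C / R) ^ 2 := by
      rw [← ev_q_one]
      exact (q_le_d_sq 1 _ x).trans (pow_le_pow_left₀ (d_nonneg _ _ _) (hd R hR x).1 2)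
    have h2 : ev x (q 1 (cst μ - (1 - cut R) * f)) ≤
        ∑ a, (2 * ((1 - ev x (cut R)) * ev x (pd a f) ^ 2) +
          2 * (ev x (pd a (cut R)) ^ 2 * ev x f ^ 2)) := by
      rw [ev_q_one]
      refine Finset.sum_le_sum fun a _ => ?_
      simp only [map_sub, pd_mul, pd_cst, pd_one, map_zero, map_add, map_mul, map_one]
      nlinarith [mul_le_mul_of_nonneg_right (hc1 x) (sq_nonneg (ev x (pd a f))),
        sq_nonneg (ev x (pd a (cut R)) * ev x f + (1 - ev x (cut R)) * ev x (pd a f))]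
    refine h2.trans ?_
    simp only [map_pow, map_sub, map_mul, map_add, map_one, ev_cst, ev_ofNat, ev_q_one,
      Finset.sum_add_distrib, ← Finset.mul_sum, ← Finset.sum_mul]
    nlinarith [mul_le_mul_of_nonneg_right h1 (sq_nonneg (ev x f))]

end Crest.Agent.R238
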