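import Crest.Agent.R238.Sym

/-!
# Row 238: integrability, integration by parts, the weighted integral `Iw V`
-/

set_option autoImplicit false
open MeasureTheory Matrix
open scoped ContDiff BigOperators

noncomputable section
namespace Crest.Agent.R238

variable {n : ℕ}

/-- `integrable_rpow_neg_one_add_norm_sq` / `integrable_one_add_norm` with `norm_le_r`
(`1 + ‖x‖ ≤ 2 r x`), `Module.finrank ℝ (Fin n → ℝ) = n`. -/
theorem integrable_r_rpow {s : ℝ} (hs : s < -(n : ℝ)) : Integrable (fun x : E n => r x ^ s) := by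
  have hs0 : s ≤ 0 := by linarith [(Nat.cast_nonneg n : (0 : ℝ) ≤ n)]
  have h1 : Integrable (fun x : E n => (1 + ‖x‖) ^ (-(-s))) volume :=
    integrable_one_add_norm (by simp; linarith)
  refine (h1.div_const (2 ^ s)).mono' (continuous_r_rpow s).aestronglyMeasurable
    (ae_of_all _ fun x => ?_)
  rw [Real.norm_of_nonneg (r_rpow_pos x s).le, neg_neg, ← Real.div_rpow (by positivity) (by norm_num)]
  refine Real.rpow_le_rpow_of_nonpos (by positivity) ?_ hs0
  linarith [norm_le_r x, one_le_r x]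

theorem integrable_of_le_rpow {F : E n → ℝ} (hF : Continuous F) {C s : ℝ} (hs : s < -(n : ℝ))
    (h : ∀ x, |F x| ≤ C * r x ^ s) : Integrable F := by
  exact ((integrable_r_rpow hs).const_mul C).mono' hF.aestronglyMeasurable (ae_of_all _ h)

theorem Sym.integrable {m : ℝ} {f : Sm n} (hf : Sym m f) (hm : m < -(n : ℝ)) :
    Integrable (fun x => ev x f) := by
  obtain ⟨C, -, hC⟩ := hf.abs_le
  exact integrable_of_le_rpow (ev_continuous f) hm hC

/-- A Gaussian beats every power. -/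
theorem exp_le_rpow {c : ℝ} (hc : 0 < c) (s : ℝ) :
    ∃ C, 0 ≤ C ∧ ∀ x : E n, Real.exp (-(c * ∑ a, x a ^ 2)) ≤ C * r x ^ s := by
  obtain ⟨k, hk⟩ := exists_nat_ge (-s / 2)
  refine ⟨Real.exp c * (k.factorial / c ^ k), by positivity, fun x => ?_⟩
  have h0 := one_add_sq_pos x
  have h1 := Real.pow_div_factorial_le_exp (c * (1 + ∑ a, x a ^ 2)) (by positivity) k
  have h2 : ((1 + ∑ a, x a ^ 2) ^ k)⁻¹ ≤ r x ^ s := by
    rw [← r_sq, ← pow_mul, ← Real.rpow_natCast, ← Real.rpow_neg (r_pos x).le]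
    refine r_rpow_mono x ?_
    push_cast; linarith
  have h3 : Real.exp (-(c * ∑ a, x a ^ 2)) =
      Real.exp c * (Real.exp (c * (1 + ∑ a, x a ^ 2)))⁻¹ := by
    rw [← Real.exp_neg, ← Real.exp_add]; congr 1; ring
  have h4 : (Real.exp (c * (1 + ∑ a, x a ^ 2)))⁻¹ ≤
      k.factorial / c ^ k * ((1 + ∑ a, x a ^ 2) ^ k)⁻¹ := by
    refine (inv_anti₀ (by positivity) h1).trans (le_of_eq ?_)
    rw [mul_pow]; field_simp
  rw [h3, mul_assoc]
  exact mul_le_mul_of_nonneg_left (h4.trans (mul_le_mul_of_nonneg_left h2 (by positivity)))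
    (Real.exp_pos c).le

theorem integrable_of_le_gauss {F : E n → ℝ} (hF : Continuous F) {C s c : ℝ} (hc : 0 < c)
    (h : ∀ x, |F x| ≤ C * r x ^ s * Real.exp (-(c * ∑ a, x a ^ 2))) : Integrable F := by
  obtain ⟨D, -, hD⟩ := exp_le_rpow (n := n) hc (-(n : ℝ) - 1 - s)
  refine integrable_of_le_rpow hF (C := |C| * D) (s := -(n : ℝ) - 1) (by linarith) fun x => ?_
  have h1 := r_rpow_pos x s
  calc |F x| ≤ |C| * r x ^ s * Real.exp (-(c * ∑ a, x a ^ 2)) := by
        refine (h x).trans ?_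
        gcongr
        exact le_abs_self C
    _ ≤ |C| * r x ^ s * (D * r x ^ (-(n : ℝ) - 1 - s)) := by gcongr; exact hD x
    _ = |C| * D * r x ^ (-(n : ℝ) - 1) := by
        rw [show -(n : ℝ) - 1 = s + (-(n : ℝ) - 1 - s) by ring, r_rpow_add x s]
        ring_nf

/-- Far out a negative power is small compared with `1`, up to a Gaussian:
`r^{s-b} ≤ η r^s + C e^{-|x|²/2}`. -/
theorem rpow_le_small_add_gauss (s : ℝ) {b η : ℝ} (hb : 0 < b) (hη : 0 < η) :
    ∃ C, 0 ≤ C ∧ ∀ x : E n, r x ^ (s - b) ≤ η * r x ^ s + C * Real.exp (-(∑ a, x a ^ 2) / 2) := by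
  obtain ⟨R, hR⟩ := Filter.eventually_atTop.1 ((tendsto_rpow_neg_atTop hb).eventually_le_const hη)
  have hc : Continuous fun x : E n => r x ^ (s - b) * Real.exp ((∑ a, x a ^ 2) / 2) :=
    (continuous_r_rpow _).mul (by fun_prop)
  obtain ⟨C, hC⟩ := (isCompact_r_le (n := n) R).exists_bound_of_continuousOn hc.continuousOn
  refine ⟨|C|, abs_nonneg C, fun x => ?_⟩
  have h1 := r_rpow_pos x s
  rcases le_total R (r x) with h | h
  · have h2 := mul_le_mul_of_nonneg_left (hR _ h) h1.le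
    rw [sub_eq_add_neg, r_rpow_add]
    have : 0 ≤ |C| * Real.exp (-(∑ a, x a ^ 2) / 2) := by positivity
    linarith
  · have h2 : r x ^ (s - b) * Real.exp ((∑ a, x a ^ 2) / 2) ≤ |C| :=
      ((le_abs_self _).trans (hC x h)).trans (le_abs_self C)
    have h3 := mul_le_mul_of_nonneg_right h2 (Real.exp_pos (-(∑ a, x a ^ 2) / 2)).le
    rw [mul_assoc, ← Real.exp_add, show (∑ a, x a ^ 2) / 2 + -(∑ a, x a ^ 2) / 2 = 0 by ring,
      Real.exp_zero, mul_one] at h3
    have : 0 ≤ η * r x ^ s := by positivity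
    linarith

/-- Integration by parts, general form: `h` smooth with `∂_a h` and `h / r` integrable.
Proof: `h_ε = h · exp(-ε|x|²)` and `∂_a h_ε` are integrable, so `∫ ∂_a h_ε = 0`
(`integral_fderiv_eq_zero`-type lemmas in `Mathlib/Analysis/Calculus/LineDeriv/IntegrationByParts`,
e.g. `integral_bilinear_hasLineDerivAt_right_eq_neg_left_of_integrable`), and
`∂_a h_ε = ∂_a h e^{-ε|x|²} - 2 ε x_a h e^{-ε|x|²}`; let `ε → 0` by dominated convergence
(`ε r² e^{-ε|x|²} ≤ ε + 1`). -/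
theorem integral_pd_eq_zero {h : Sm n} (a : Fin n) {C s : ℝ} (hs : s < -(n : ℝ))
    (h0 : ∀ x, |ev x h| ≤ C * r x ^ (s + 1)) (h1 : ∀ x, |ev x (pd a h)| ≤ C * r x ^ s) :
    ∫ x, ev x (pd a h) = 0 := by
  have hC : 0 ≤ C := nonneg_of_mul_nonneg_left ((abs_nonneg _).trans (h1 0)) (r_rpow_pos 0 s)
  set ε : ℕ → ℝ := fun k => 1 / ((k : ℝ) + 1) with hε
  have e0 : ∀ k, 0 < ε k := fun k => by positivity
  have e1 : ∀ k, ε k ≤ 1 := fun k => by
    rw [hε, div_le_one (by positivity)]; linarith [(Nat.cast_nonneg k : (0 : ℝ) ≤ k)]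
  have eT : Filter.Tendsto ε Filter.atTop (nhds 0) := tendsto_one_div_add_atTop_nhds_zero_nat
  have hg : ∀ k (x : E n), Real.exp (-(ε k * ∑ a, x a ^ 2)) ≤ 1 := fun k x =>
    Real.exp_le_one_iff.2 (neg_nonpos.2 (mul_nonneg (e0 k).le (by positivity)))
  have bA : ∀ k (x : E n), |ev x (pd a h) * Real.exp (-(ε k * ∑ a, x a ^ 2))| ≤ C * r x ^ s := by
    intro k x
    rw [abs_mul, abs_of_pos (Real.exp_pos _)]
    exact (mul_le_of_le_one_right (abs_nonneg _) (hg k x)).trans (h1 x)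
  have bB : ∀ k (x : E n), |ev x h * (Real.exp (-(ε k * ∑ a, x a ^ 2)) * (-(ε k * (2 * x a))))| ≤
      4 * C * r x ^ s := by
    intro k x
    have k1 : ε k * (∑ a, x a ^ 2) * Real.exp (-(ε k * ∑ a, x a ^ 2)) ≤ 1 := by
      have := Real.add_one_le_exp (ε k * ∑ a, x a ^ 2)
      rw [Real.exp_neg, ← div_eq_mul_inv, div_le_one (Real.exp_pos _)]
      linarith
    have k2 : ε k * r x ^ 2 * Real.exp (-(ε k * ∑ a, x a ^ 2)) ≤ 2 := by
      rw [r_sq]
      have := mul_le_one₀ (e1 k) (Real.exp_pos _).le (hg k x)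
      linarith
    have k3 := r_rpow_pos x s
    have k4 := r_pos x
    have k5 := e0 k
    rw [abs_mul, abs_mul, abs_of_pos (Real.exp_pos _), abs_neg, abs_mul, abs_mul, abs_of_pos k5,
      abs_two]
    calc |ev x h| * (Real.exp (-(ε k * ∑ a, x a ^ 2)) * (ε k * (2 * |x a|)))
        ≤ C * r x ^ (s + 1) * (Real.exp (-(ε k * ∑ a, x a ^ 2)) * (ε k * (2 * r x))) := by
          gcongr
          · exact h0 x
          · exact abs_le_r x a
      _ = 2 * C * r x ^ s * (ε k * r x ^ 2 * Real.exp (-(ε k * ∑ a, x a ^ 2))) := by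
          rw [r_rpow_add, Real.rpow_one]; ring
      _ ≤ 2 * C * r x ^ s * 2 := by gcongr
      _ = 4 * C * r x ^ s := by ring
  have cA : ∀ k, Continuous fun x : E n => ev x (pd a h) * Real.exp (-(ε k * ∑ a, x a ^ 2)) :=
    fun k => (ev_continuous _).mul (by fun_prop)
  have cB : ∀ k, Continuous fun x : E n =>
      ev x h * (Real.exp (-(ε k * ∑ a, x a ^ 2)) * (-(ε k * (2 * x a)))) :=
    fun k => (ev_continuous _).mul (by fun_prop)
  have key : ∀ k, ∫ x : E n, ev x h * (Real.exp (-(ε k * ∑ a, x a ^ 2)) * (-(ε k * (2 * x a)))) =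
      -∫ x : E n, ev x (pd a h) * Real.exp (-(ε k * ∑ a, x a ^ 2)) := by
    intro k
    have g0 : ∀ x : E n, ev x (expS (-(ε k • nsq))) = Real.exp (-(ε k * ∑ a, x a ^ 2)) := by
      intro x; simp
    have g1 : ∀ x : E n, fderiv ℝ (fun y => ev y (expS (-(ε k • nsq)))) x (Pi.single a 1) =
        Real.exp (-(ε k * ∑ a, x a ^ 2)) * (-(ε k * (2 * x a))) := by
      intro x
      rw [← ev_pd, pd_expS, map_neg, Derivation.map_smul, pd_nsq]
      simp only [map_mul, map_neg, ev_smul, g0, ev_ofNat, ev_X]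
    have := integral_mul_fderiv_eq_neg_fderiv_mul_of_integrable (μ := (volume : Measure (E n)))
      (f := fun y => ev y h) (g := fun y => ev y (expS (-(ε k • nsq)))) (v := Pi.single a 1)
      (by simpa only [← ev_pd, g0] using integrable_of_le_rpow (cA k) hs (bA k))
      (by simpa only [g1] using integrable_of_le_rpow (cB k) hs (bB k))
      (by
        simp only [g0]
        refine integrable_of_le_gauss (C := C) (s := s + 1) ((ev_continuous _).mul (by fun_prop))
          (e0 k) fun x => ?_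
        rw [abs_mul, abs_of_pos (Real.exp_pos _)]
        exact mul_le_mul_of_nonneg_right (h0 x) (Real.exp_pos _).le)
      (fun x _ => ev_differentiable _ x) (fun x _ => ev_differentiable _ x)
    simp only [g1] at this
    simpa only [← ev_pd, g0] using this
  have gT : ∀ x : E n, Filter.Tendsto (fun k => Real.exp (-(ε k * ∑ a, x a ^ 2))) Filter.atTop
      (nhds 1) := fun x => by
    have := (Real.continuous_exp.tendsto _).comp (eT.mul_const (∑ a, x a ^ 2)).neg
    simpa [Function.comp_def] using this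
  have tA : Filter.Tendsto (fun k => ∫ x : E n, ev x (pd a h) * Real.exp (-(ε k * ∑ a, x a ^ 2)))
      Filter.atTop (nhds (∫ x : E n, ev x (pd a h))) :=
    tendsto_integral_of_dominated_convergence _ (fun k => (cA k).aestronglyMeasurable)
      ((integrable_r_rpow hs).const_mul C) (fun k => ae_of_all _ (bA k))
      (ae_of_all _ fun x => by simpa using (gT x).const_mul (ev x (pd a h)))
  have tB : Filter.Tendsto (fun k => ∫ x : E n,
      ev x h * (Real.exp (-(ε k * ∑ a, x a ^ 2)) * (-(ε k * (2 * x a)))))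
      Filter.atTop (nhds (∫ _x : E n, (0 : ℝ))) :=
    tendsto_integral_of_dominated_convergence _ (fun k => (cB k).aestronglyMeasurable)
      ((integrable_r_rpow hs).const_mul (4 * C)) (fun k => ae_of_all _ (bB k))
      (ae_of_all _ fun x => by
        simpa using ((gT x).mul (eT.mul_const (2 * x a)).neg).const_mul (ev x h))
  simp only [key] at tB
  have := tendsto_nhds_unique tA.neg tB
  simpa using this

theorem Sym.integral_pd {m : ℝ} {h : Sm n} (hh : Sym m h) (hm : m - 1 < -(n : ℝ)) (a : Fin n) :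
    ∫ x, ev x (pd a h) = 0 := by
  obtain ⟨C, hC, h0⟩ := hh.abs_le
  obtain ⟨D, hD, h1⟩ := (hh.pd a).abs_le
  refine integral_pd_eq_zero a (C := C + D) hm (fun x => ?_) fun x => ?_
  · rw [sub_add_cancel]
    have := mul_nonneg hD (r_rpow_pos x m).le
    linarith [h0 x]
  · have := mul_nonneg hC (r_rpow_pos x (m - 1)).le
    linarith [h1 x]

/-! ### The weighted integral -/

theorem int_weight_cont (V f : Sm n) : Continuous fun x => ev x f * Real.exp (-ev x (Wp V)) :=
  (ev_continuous f).mul (Real.continuous_exp.comp (ev_continuous _).neg)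

theorem int_weight_le {V f : Sm n} (hV : Sym 0 V) (hf : Tm f) (t : ℝ) :
    ∃ C, 0 ≤ C ∧ ∀ x, |ev x f * Real.exp (-ev x (Wp V))| ≤ C * r x ^ t := by
  obtain ⟨K, -, hK⟩ := hV.bdd
  obtain ⟨C, s, hC, -, h⟩ := hf.abs_le
  obtain ⟨D, hD, h'⟩ := exp_le_rpow (n := n) (c := 1 / 2) (by norm_num) (t - s)
  refine ⟨C * (Real.exp K * D), by positivity, fun x => ?_⟩
  have h1 : Real.exp (-ev x (Wp V)) ≤ Real.exp K * Real.exp (-(1 / 2 * ∑ a, x a ^ 2)) := by
    rw [← Real.exp_add, ev_Wp]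
    exact Real.exp_le_exp.2 (by linarith [(abs_le.1 (hK x)).1])
  have h2 := r_rpow_pos x s
  rw [abs_mul, abs_of_pos (Real.exp_pos _)]
  calc |ev x f| * Real.exp (-ev x (Wp V)) ≤ C * r x ^ s * (Real.exp K * (D * r x ^ (t - s))) := by
        gcongr
        · exact h x
        · exact h1.trans (mul_le_mul_of_nonneg_left (h' x) (Real.exp_pos K).le)
    _ = C * (Real.exp K * D) * (r x ^ s * r x ^ (t - s)) := by ring
    _ = _ := by rw [← r_rpow_add, add_sub_cancel]

theorem Tm.integrable {V f : Sm n} (hV : Sym 0 V) (hf : Tm f) :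
    Integrable (fun x => ev x f * Real.exp (-ev x (Wp V))) := by
  obtain ⟨C, -, hC⟩ := int_weight_le hV hf (-(n : ℝ) - 1)
  exact integrable_of_le_rpow (int_weight_cont V f) (by linarith) hC

theorem Iw_zero (V : Sm n) : Iw V 0 = 0 := by simp [Iw]

theorem Iw_add {V f g : Sm n} (hV : Sym 0 V) (hf : Tm f) (hg : Tm g) :
    Iw V (f + g) = Iw V f + Iw V g := by
  simp only [Iw, map_add, add_mul]
  exact integral_add (hf.integrable hV) (hg.integrable hV)

theorem Iw_smul (V : Sm n) (c : ℝ) (f : Sm n) : Iw V (c • f) = c * Iw V f := by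
  simp only [Iw, ev_smul, mul_assoc]
  exact integral_const_mul _ _

theorem Iw_cst_mul (V : Sm n) (c : ℝ) (f : Sm n) : Iw V (cst c * f) = c * Iw V f := by
  rw [← Iw_smul, Algebra.smul_def]

theorem Iw_two_mul (V : Sm n) (f : Sm n) : Iw V (2 * f) = 2 * Iw V f := by
  rw [← Iw_smul, two_smul, two_mul]

theorem Iw_neg (V : Sm n) (f : Sm n) : Iw V (-f) = -Iw V f := by
  simp only [Iw, map_neg, neg_mul]
  exact integral_neg _

theorem Iw_sub {V f g : Sm n} (hV : Sym 0 V) (hf : Tm f) (hg : Tm g) :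
    Iw V (f - g) = Iw V f - Iw V g := by
  rw [sub_eq_add_neg, Iw_add hV hf hg.neg, Iw_neg, sub_eq_add_neg]

theorem Iw_sum {ι : Type*} {V : Sm n} (hV : Sym 0 V) (s : Finset ι) {f : ι → Sm n}
    (hf : ∀ i ∈ s, Tm (f i)) : Iw V (∑ i ∈ s, f i) = ∑ i ∈ s, Iw V (f i) := by
  simp only [Iw, map_sum, Finset.sum_mul]
  exact integral_finsetSum _ fun i hi => (hf i hi).integrable hV

theorem Iw_nonneg (V : Sm n) {f : Sm n} (h : ∀ x, 0 ≤ ev x f) : 0 ≤ Iw V f := by
  exact integral_nonneg fun x => mul_nonneg (h x) (Real.exp_pos _).le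

theorem Iw_mono {V f g : Sm n} (hV : Sym 0 V) (hf : Tm f) (hg : Tm g) (h : ∀ x, ev x f ≤ ev x g) :
    Iw V f ≤ Iw V g := by
  exact integral_mono (hf.integrable hV) (hg.integrable hV) fun x =>
    mul_le_mul_of_nonneg_right (h x) (Real.exp_pos _).le

theorem Iw_one_pos {V : Sm n} (hV : Sym 0 V) : 0 < Iw V 1 := by
  refine integral_pos_of_integrable_nonneg_nonzero (x := 0) (int_weight_cont V 1)
    (tm_one.integrable hV) (fun x => ?_) ?_
  · simp only [map_one, one_mul]
    exact (Real.exp_pos _).le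
  · simp only [map_one, one_mul]
    exact (Real.exp_pos _).ne'

/-- Cauchy–Schwarz (discriminant of `t ↦ Iw V ((t f + g)²) ≥ 0`). -/
theorem Iw_mul_sq_le {V f g : Sm n} (hV : Sym 0 V) (hf : Tm f) (hg : Tm g) :
    Iw V (f * g) ^ 2 ≤ Iw V (f ^ 2) * Iw V (g ^ 2) := by
  have h : ∀ t : ℝ, 0 ≤ Iw V (f ^ 2) * (t * t) + 2 * Iw V (f * g) * t + Iw V (g ^ 2) := by
    intro t
    have h1 : 0 ≤ Iw V ((t • f + g) ^ 2) := Iw_nonneg V fun x => by rw [map_pow]; positivity
    have e : (t • f + g) ^ 2 = (t * t) • f ^ 2 + (2 * t) • (f * g) + g ^ 2 := by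
      ext x; simp only [map_pow, map_add, ev_smul, map_mul]; ring
    rw [e, Iw_add hV (((hf.pow 2).smul _).add ((hf.mul hg).smul _)) (hg.pow 2),
      Iw_add hV ((hf.pow 2).smul _) ((hf.mul hg).smul _), Iw_smul, Iw_smul] at h1
    linarith
  have := discrim_le_zero h
  rw [discrim] at this
  nlinarith

/-- Integration by parts against `e^{-W}`: apply `integral_pd_eq_zero` to `f * expS (-Wp V)`. -/
theorem Iw_pd {V f : Sm n} (hV : Sym 0 V) (hf : Tm f) (a : Fin n) :
    Iw V (pd a f) = Iw V ((X a + pd a V) * f) := by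
  have hX : Tm ((X a + pd a V) * f) := ((tm_X a).add (hV.tm.pd a)).mul hf
  have hd : Tm (pd a f - (X a + pd a V) * f) := (hf.pd a).sub hX
  obtain ⟨C, hC, h0⟩ := int_weight_le hV hf (-(n : ℝ) - 1 + 1)
  obtain ⟨D, hD, h1⟩ := int_weight_le hV hd (-(n : ℝ) - 1)
  have e : ∀ x, ev x (pd a (f * expS (-Wp V))) =
      ev x (pd a f - (X a + pd a V) * f) * Real.exp (-ev x (Wp V)) := by
    intro x
    rw [pd_mul, pd_expS, map_neg (pd a), pd_Wp]
    simp only [map_add, map_mul, map_neg, map_sub, ev_expS]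
    ring
  have h := integral_pd_eq_zero (h := f * expS (-Wp V)) a (C := C + D) (s := -(n : ℝ) - 1)
    (by linarith) (fun x => by
      have := mul_nonneg hD (r_rpow_pos x (-(n : ℝ) - 1 + 1)).le
      have h2 := h0 x
      simp only [map_mul, map_neg, ev_expS]
      linarith) (fun x => by
      have := mul_nonneg hC (r_rpow_pos x (-(n : ℝ) - 1)).le
      rw [e]
      linarith [h1 x])
  simp only [e] at h
  have h2 := Iw_sub hV (hf.pd a) hX
  rw [Iw, h] at h2
  linarith

/-- `integral_neg_eq_self`. -/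
theorem Iw_odd {V f : Sm n} (hV : IsEv V) (hf : IsOd f) : Iw V f = 0 := by
  have h := integral_neg_eq_self (fun x : E n => ev x f * Real.exp (-ev x (Wp V))) volume
  simp only [(isOd_iff f).1 hf, ev_Wp, (isEv_iff V).1 hV, Pi.neg_apply, even_two, Even.neg_pow,
    neg_mul, integral_neg] at h
  simp only [Iw, ev_Wp]
  linarith

theorem Gn_nonneg (f : Sm n) : 0 ≤ Gn f := Real.sqrt_nonneg _

theorem Gn_sq_eq (f : Sm n) : Gn f ^ 2 = Iw 0 (f ^ 2) := by
  rw [Gn, Real.sq_sqrt (integral_nonneg fun x => by positivity)]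
  simp only [Iw, map_pow, ev_Wp, map_zero, add_zero, neg_div]

/-- Comparison of the weights `e^{-W}` and `e^{-|x|²/2}`. -/
theorem Iw_le_Iw_zero {V f : Sm n} (hV : Sym 0 V) {K : ℝ} (hK : ∀ x, |ev x V| ≤ K) (hf : Tm f)
    (h : ∀ x, 0 ≤ ev x f) : Iw V f ≤ Real.exp K * Iw 0 f := by
  rw [Iw, Iw, ← integral_const_mul]
  refine integral_mono (hf.integrable hV) ((hf.integrable (sym_zero 0)).const_mul _) fun x => ?_
  show _ ≤ Real.exp K * (ev x f * Real.exp (-ev x (Wp 0)))
  rw [mul_left_comm, ← Real.exp_add]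
  refine mul_le_mul_of_nonneg_left (Real.exp_le_exp.2 ?_) (h x)
  simp only [ev_Wp, map_zero]
  linarith [(abs_le.1 (hK x)).1]

theorem Iw_zero_le_Iw {V f : Sm n} (hV : Sym 0 V) {K : ℝ} (hK : ∀ x, |ev x V| ≤ K) (hf : Tm f)
    (h : ∀ x, 0 ≤ ev x f) : Iw 0 f ≤ Real.exp K * Iw V f := by
  rw [Iw, Iw, ← integral_const_mul]
  refine integral_mono (hf.integrable (sym_zero 0)) ((hf.integrable hV).const_mul _) fun x => ?_
  show _ ≤ Real.exp K * (ev x f * Real.exp (-ev x (Wp V)))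
  rw [mul_left_comm, ← Real.exp_add]
  refine mul_le_mul_of_nonneg_left (Real.exp_le_exp.2 ?_) (h x)
  simp only [ev_Wp, map_zero]
  linarith [(abs_le.1 (hK x)).2]

/-- `Gn` is controlled by any polynomially weighted sup norm. -/
theorem Gn_le_of_le_rpow (n : ℕ) (s : ℝ) : ∃ C, 0 ≤ C ∧ ∀ (f : Sm n) (F : ℝ),
    (∀ x, |ev x f| ≤ F * r x ^ s) → Gn f ≤ C * F := by
  have hi : Integrable fun x : E n => (r x ^ s) ^ 2 * Real.exp (-(∑ a, x a ^ 2) / 2) := by
    refine integrable_of_le_gauss (C := 1) (s := s + s) (c := 1 / 2)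
      (((continuous_r_rpow s).pow 2).mul (by fun_prop)) (by norm_num) fun x => le_of_eq ?_
    rw [abs_of_nonneg (by positivity), r_rpow_add, one_mul, sq]
    congr 2; ring
  refine ⟨Real.sqrt (∫ x : E n, (r x ^ s) ^ 2 * Real.exp (-(∑ a, x a ^ 2) / 2)), Real.sqrt_nonneg _,
    fun f F h => ?_⟩
  have hF : 0 ≤ F := nonneg_of_mul_nonneg_left ((abs_nonneg _).trans (h 0)) (r_rpow_pos 0 s)
  rw [Gn, ← Real.sqrt_sq hF, ← Real.sqrt_mul (integral_nonneg fun x => by positivity)]
  refine Real.sqrt_le_sqrt ?_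
  rw [← integral_mul_const]
  refine integral_mono_of_nonneg (ae_of_all _ fun x => by positivity) (hi.mul_const _)
    (ae_of_all _ fun x => ?_)
  have h1 : ev x f ^ 2 ≤ (F * r x ^ s) ^ 2 := by
    rw [← sq_abs]; exact pow_le_pow_left₀ (abs_nonneg _) (h x) 2
  have h2 := mul_le_mul_of_nonneg_right h1 (Real.exp_pos (-(∑ a, x a ^ 2) / 2)).le
  show _ ≤ (r x ^ s) ^ 2 * Real.exp (-(∑ a, x a ^ 2) / 2) * F ^ 2
  linarith

end Crest.Agent.R238
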