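import Crest.Agent.R238.Inv
import Crest.Agent.R238.Int

/-!
# Row 238: identities satisfied by a solution of the moment equation
-/

set_option autoImplicit false
open MeasureTheory Matrix
open scoped ContDiff BigOperators

noncomputable section
namespace Crest.Agent.R238

variable {n : ℕ}

namespace KE
variable (D : KE n)

theorem g_symm : D.gᵀ = D.g := by rw [g, Matrix.transpose_add, Matrix.transpose_one, hess_transpose]
theorem H_symm : D.Hᵀ = D.H := by rw [H, Matrix.transpose_add, Matrix.transpose_one, hess_transpose]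
theorem τg : D.τ * D.g = 1 := D.inv
theorem gτ : D.g * D.τ = 1 := mul_eq_one_comm.1 D.inv
theorem τ_symm : D.τᵀ = D.τ := inv_symm D.g_symm D.τg
theorem τ_apply_comm (a b : Fin n) : D.τ a b = D.τ b a := congrFun (congrFun D.τ_symm b) a
theorem g_posDef (x : E n) : (evM x D.g).PosDef := D.pos x
theorem τ_posDef (x : E n) : (evM x D.τ).PosDef := posDef_inv_of_mul (D.pos x) (evM_inv D.τg x)
theorem symA : SymM (-7 / 8) (hess D.ζ) := by
  have := D.symζ.hess; norm_num at this ⊢; exact this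
theorem sym0τ : SymM 0 D.τ := by
  have := (D.symτ.mono (m' := 0) (by norm_num)).add symM_one; simpa using this
theorem sym0g : SymM 0 D.g := symM_one.add (D.symA.mono (by norm_num))
theorem sym0H : SymM 0 D.H := symM_one.add (D.symV.hess.mono (by norm_num))
theorem g_isEv (a b : Fin n) : IsEv (D.g a b) := by
  have h1 : IsEv ((1 : Mat n) a b) := by
    rw [Matrix.one_apply]; split_ifs
    exacts [isEv_one, isEv_zero]
  exact h1.add ((D.evζ.pd b).pd a)
theorem τ_isEv (a b : Fin n) : IsEv (D.τ a b) := inv_isEv D.g_isEv D.τg a b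
theorem pdM_g (a : Fin n) : pdM a D.g = hess (pd a D.ζ) := by
  rw [g, pdM_add, pdM_one, zero_add, pdM_hess]
theorem pdM_τ (a : Fin n) : pdM a D.τ = -(D.τ * hess (pd a D.ζ) * D.τ) := by
  rw [pdM_inv a D.τg, pdM_g]

/-- The matrix `Γ_ab = tr(τ g_a τ g_b)`, `g_a = ∂_a g`. -/
def Γ : Mat n := Matrix.of fun a b => (D.τ * hess (pd a D.ζ) * D.τ * hess (pd b D.ζ)).trace

/-- Differentiate `eqn` (`pd_det`, `pd_expS`, `pd_eul`) and cancel the nowhere vanishing `expS`. -/
theorem L_pd (a : Fin n) : Lop D.τ (pd a D.ζ) = -pd a D.V := by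
  have h := pd_det a D.τg
  have e : D.g.det = expS (eul D.ζ - D.ζ - D.V) := D.eqn
  rw [pdM_g, ← con_eq_trace, e, pd_expS, map_sub, map_sub, pd_eul] at h
  have hi := invS_mul (expS (eul D.ζ - D.ζ - D.V)) fun x => (Real.exp_pos _).ne'
  rw [Lop]
  linear_combination -(invS (expS (eul D.ζ - D.ζ - D.V)) fun x => (Real.exp_pos _).ne') * h -
    (con D.τ (pd a D.ζ) - eul (pd a D.ζ) + pd a D.V) * hi

/-- `τ` is a Stein kernel: `∑_a ∂_aτ_ab = -∑_j con τ (ζ_j) τ_jb`, `con τ ζ_j = eul ζ_j - V_j`,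
`eul ζ_j = ∑_k X_k (g - 1)_kj`. -/
theorem div_τ (b : Fin n) : ∑ a, (pd a (D.τ a b) - (X a + pd a D.V) * D.τ a b) = -X b := by
  have h1 : ∑ a, pd a (D.τ a b) = -∑ j, con D.τ (pd j D.ζ) * D.τ j b := by
    have e : ∀ a, pd a (D.τ a b) = -(D.τ * hess (pd a D.ζ) * D.τ) a b := fun a =>
      congrFun (congrFun (D.pdM_τ a) a) b
    simp only [e, Finset.sum_neg_distrib, Matrix.mul_apply, hess_apply, con, Finset.sum_mul]
    rw [Finset.sum_comm]
    refine congrArg _ (Finset.sum_congr rfl fun j _ => Finset.sum_congr rfl fun a _ =>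
      Finset.sum_congr rfl fun i _ => ?_)
    rw [pd_comm j a, pd_comm i a]
  have h2 : ∀ j, con D.τ (pd j D.ζ) = ∑ k, X k * D.g k j - X j - pd j D.V := fun j => by
    have h := D.L_pd j
    have e : ∑ k, X k * D.g k j = X j + eul (pd j D.ζ) := by
      simp [g, eul, mul_add, Finset.sum_add_distrib, Matrix.one_apply]
    rw [Lop] at h
    linear_combination h - e
  have h3 : ∑ j, (∑ k, X k * D.g k j) * D.τ j b = X b := by
    simp only [Finset.sum_mul, mul_assoc]
    rw [Finset.sum_comm]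
    simp only [← Finset.mul_sum, ← Matrix.mul_apply, D.gτ]
    simp [Matrix.one_apply]
  rw [Finset.sum_sub_distrib, h1, ← h3, ← Finset.sum_neg_distrib, ← Finset.sum_neg_distrib,
    ← Finset.sum_sub_distrib]
  exact Finset.sum_congr rfl fun j _ => by rw [h2]; ring

/-- Differentiate `L_pd` (`pd_Lop`, `pdM_τ`, `con_eq_trace`). -/
theorem L_hess (a b : Fin n) :
    Lop D.τ (hess D.ζ a b) = hess D.ζ a b + D.Γ a b - hess D.V a b := by
  have h := pd_Lop a D.τ (pd b D.ζ)
  rw [D.L_pd, con_eq_trace, pdM_τ, Matrix.neg_mul, Matrix.trace_neg, map_neg] at h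
  simp only [hess_apply, Γ, Matrix.of_apply]
  linear_combination -h

/-- `τ^{il} ∂_l τ^{ab} = -τ^{il} τ^{aj} τ^{bm} ζ_{ljm}` is totally symmetric. -/
theorem Phi_symm (i a b : Fin n) :
    ∑ l, D.τ i l * pd l (D.τ a b) = ∑ l, D.τ a l * pd l (D.τ i b) := by
  have e : ∀ l a, pd l (D.τ a b) = -(D.τ * hess (pd l D.ζ) * D.τ) a b := fun l a =>
    congrFun (congrFun (D.pdM_τ l) a) b
  have key : ∀ i a, ∑ l, D.τ i l * pd l (D.τ a b) =
      -∑ m, ∑ l, ∑ j, D.τ i l * D.τ a j * pd j (pd m (pd l D.ζ)) * D.τ m b := fun i a => by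
    simp only [e, mul_neg, Finset.sum_neg_distrib, Matrix.mul_apply, hess_apply, Finset.sum_mul,
      Finset.mul_sum]
    rw [Finset.sum_comm]
    exact congrArg _ (Finset.sum_congr rfl fun m _ => Finset.sum_congr rfl fun l _ =>
      Finset.sum_congr rfl fun j _ => by ring)
  rw [key, key]
  refine congrArg _ (Finset.sum_congr rfl fun m _ => ?_)
  rw [Finset.sum_comm]
  refine Finset.sum_congr rfl fun j _ => Finset.sum_congr rfl fun l _ => ?_
  rw [pd_comm m l, pd_comm j l, pd_comm j m]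
  ring

theorem Γ_eq (a b : Fin n) : D.Γ a b = (pdM a D.τ * D.g * pdM b D.τ * D.g).trace := by
  have e : ∀ a, pdM a D.τ * D.g = -(D.τ * hess (pd a D.ζ)) := fun a => by
    rw [pdM_τ, Matrix.neg_mul, Matrix.mul_assoc, D.τg, Matrix.mul_one]
  rw [Matrix.mul_assoc, e, e, neg_mul_neg, ← Matrix.mul_assoc]
  rfl

theorem Γ_symm : D.Γᵀ = D.Γ := by
  ext a b : 1
  simp only [Γ, Matrix.transpose_apply, Matrix.of_apply]
  rw [Matrix.mul_assoc, Matrix.trace_mul_comm, ← Matrix.mul_assoc]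

theorem keid_Γ_sum :
    D.Γ = ∑ k, ∑ l, D.τ k l • (hess (pd k D.ζ) * D.τ * hess (pd l D.ζ)) := by
  ext a b : 1
  simp only [Γ, Matrix.of_apply, Matrix.trace, Matrix.diag, Matrix.sum_apply, Matrix.smul_apply,
    Matrix.mul_apply, hess_apply, smul_eq_mul, Finset.sum_mul, Finset.mul_sum]
  conv_rhs => rw [Finset.sum_comm]
  refine Finset.sum_congr rfl fun l _ => ?_
  conv_rhs => rw [Finset.sum_comm]
  refine Finset.sum_congr rfl fun j _ => ?_
  conv_rhs => rw [Finset.sum_comm]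
  refine Finset.sum_congr rfl fun i _ => Finset.sum_congr rfl fun k _ => ?_
  rw [D.τ_apply_comm l k, pd_comm l b, pd_comm i a, pd_comm k a, pd_comm k i]
  ring

/-- `∂_l∂_kτ = τ g_l τ g_k τ + τ g_k τ g_l τ - τ g_{kl} τ`, `∑ τ_kl g_k τ g_l = Γ` (total symmetry of
third derivatives), and `L g = g + Γ - H` entrywise. -/
theorem L_τ (a b : Fin n) :
    Lop D.τ (D.τ a b) = (-D.τ + D.τ * D.Γ * D.τ + D.τ * D.H * D.τ) a b := by
  set M : Mat n := Matrix.of fun a b => Lop D.τ (D.τ a b) with hM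
  have hg : ∀ c b, Lop D.τ (D.g c b) = (D.g + D.Γ - D.H) c b := fun c b => by
    have h0 : Lop D.τ ((1 : Mat n) c b) = 0 := by
      rw [Matrix.one_apply]
      split_ifs
      exacts [Lop_one _, Lop_zero _]
    simp only [g, H, Matrix.add_apply, Matrix.sub_apply, Lop_add, h0, D.L_hess]
    ring
  have hQ : ∑ k, ∑ l, D.τ k l • (pdM k D.τ * pdM l D.g) = -(D.τ * D.Γ) := by
    simp only [keid_Γ_sum, pdM_τ, pdM_g, Matrix.mul_sum, Matrix.mul_smul, Matrix.neg_mul, smul_neg,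
      Finset.sum_neg_distrib, Matrix.mul_assoc]
  have h : M * D.g + D.τ * (D.g + D.Γ - D.H) - (D.τ * D.Γ + D.τ * D.Γ) = 0 := by
    ext a b : 1
    have h0 : Lop D.τ ((D.τ * D.g) a b) = 0 := by
      rw [D.τg, Matrix.one_apply]
      split_ifs
      exacts [Lop_one _, Lop_zero _]
    have h1 : ∑ c, gam D.τ (D.τ a c) (D.g c b) = -(D.τ * D.Γ) a b := by
      rw [← Matrix.neg_apply, ← hQ]
      simp only [gam, Matrix.sum_apply, Matrix.smul_apply, Matrix.mul_apply, pdM_apply,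
        smul_eq_mul, Finset.mul_sum, mul_assoc]
      rw [Finset.sum_comm]
      exact Finset.sum_congr rfl fun k _ => Finset.sum_comm
    rw [Matrix.mul_apply, Lop_sum] at h0
    simp only [Lop_mul D.τ_symm, hg, Finset.sum_add_distrib, ← Finset.mul_sum, h1] at h0
    rw [Matrix.sub_apply, Matrix.add_apply, Matrix.add_apply, Matrix.mul_apply, Matrix.mul_apply,
      Matrix.zero_apply]
    simp only [hM, Matrix.of_apply, mul_comm (Lop D.τ _)]
    linear_combination h0
  have e : M = -D.τ + D.τ * D.Γ * D.τ + D.τ * D.H * D.τ := by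
    have h2 := congrArg (· * D.τ) h
    simp only [Matrix.sub_mul, Matrix.add_mul, Matrix.mul_sub, Matrix.mul_add, Matrix.zero_mul,
      D.τg, Matrix.one_mul, Matrix.mul_assoc M, D.gτ, Matrix.mul_one] at h2
    rw [← sub_eq_zero, ← h2]
    abel
  exact congrFun (congrFun e a) b

/-- Differentiate `L_hess` once more. -/
theorem L_third (a b c : Fin n) :
    Lop D.τ (pd a (pd b (pd c D.ζ))) = 2 * pd a (pd b (pd c D.ζ))
      + ((D.τ * hess (pd a D.ζ) * D.τ * hess (pd b (pd c D.ζ))).trace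
        + (D.τ * hess (pd b D.ζ) * D.τ * hess (pd a (pd c D.ζ))).trace
        + (D.τ * hess (pd c D.ζ) * D.τ * hess (pd a (pd b D.ζ))).trace)
      - ((D.τ * hess (pd a D.ζ) * D.τ * hess (pd b D.ζ) * D.τ * hess (pd c D.ζ)).trace
        + (D.τ * hess (pd b D.ζ) * D.τ * hess (pd a D.ζ) * D.τ * hess (pd c D.ζ)).trace)
      - pd a (pd b (pd c D.V)) := by
  have h := pd_Lop a D.τ (pd b (pd c D.ζ))
  have h1 := D.L_hess b c
  simp only [hess_apply, Γ, Matrix.of_apply] at h1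
  rw [h1, con_eq_trace, pdM_τ, map_sub, map_add, pd_trace] at h
  simp only [pdM_mul, pdM_τ, pdM_hess, Matrix.add_mul, Matrix.neg_mul, Matrix.mul_neg,
    Matrix.trace_add, Matrix.trace_neg, ← Matrix.mul_assoc] at h
  have e : (D.τ * hess (pd a (pd b D.ζ)) * D.τ * hess (pd c D.ζ)).trace =
      (D.τ * hess (pd c D.ζ) * D.τ * hess (pd a (pd b D.ζ))).trace := by
    rw [Matrix.mul_assoc, Matrix.trace_mul_comm, ← Matrix.mul_assoc]
  linear_combination e - h

/-- `v Γ v = tr(τ G τ G)`, `G = ∑ v_a g_a`; `trace_conj_nonneg`. -/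
theorem Γ_low : Low 0 D.Γ := by
  intro x v
  have h := trace_conj_nonneg (D.τ_posDef x).posSemidef
    (S := ∑ a, v a • evM x (hess (pd a D.ζ))) (by
      simp only [Matrix.transpose_sum, Matrix.transpose_smul, ← evM_transpose, hess_transpose])
  rw [zero_mul]
  refine h.trans_eq ?_
  simp only [Matrix.mul_sum, Matrix.sum_mul, Matrix.mul_smul, Matrix.smul_mul, Matrix.trace_sum,
    Matrix.trace_smul, smul_eq_mul, dotProduct, Matrix.mulVec, evM_apply, Γ, Matrix.of_apply,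
    ev_trace, evM_mul, Finset.mul_sum]
  rw [Finset.sum_comm]
  exact Finset.sum_congr rfl fun a _ => Finset.sum_congr rfl fun b _ => by ring

theorem keid_div (ψ : Sm n) :
    Lop D.τ ψ = ∑ a, (pd a (∑ b, D.τ a b * pd b ψ) - (X a + pd a D.V) * ∑ b, D.τ a b * pd b ψ) := by
  have e : eul ψ = -∑ b, (∑ a, (pd a (D.τ a b) - (X a + pd a D.V) * D.τ a b)) * pd b ψ := by
    simp only [D.div_τ, eul, neg_mul, Finset.sum_neg_distrib, neg_neg]
  rw [Lop, e, sub_neg_eq_add, con]
  simp only [Finset.sum_mul, map_sum, pd_mul, Finset.mul_sum]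
  rw [Finset.sum_comm (f := fun b a => (pd a (D.τ a b) - (X a + pd a D.V) * D.τ a b) * pd b ψ),
    ← Finset.sum_add_distrib]
  refine Finset.sum_congr rfl fun a _ => ?_
  rw [← Finset.sum_add_distrib, ← Finset.sum_sub_distrib]
  exact Finset.sum_congr rfl fun b _ => by ring

/-- `L` is symmetric in `L²(e^{-W})`: `Iw_pd` for `f τ_ab ∂_b h` and `div_τ`. -/
theorem Iw_mul_Lop {f h : Sm n} (hf : Tm f) (hh : Tm h) :
    Iw D.V (f * Lop D.τ h) = -Iw D.V (gam D.τ f h) := by
  have hτ : TmM D.τ := D.sym0τ.tmM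
  have hw : ∀ a, Tm (f * ∑ b, D.τ a b * pd b h) := fun a =>
    hf.mul (Tm.sum _ fun b _ => (hτ a b).mul (hh.pd b))
  have hX : ∀ a, Tm ((X a + pd a D.V) * (f * ∑ b, D.τ a b * pd b h)) := fun a =>
    ((tm_X a).add (D.symV.tm.pd a)).mul (hw a)
  have e : f * Lop D.τ h = ∑ a, (pd a (f * ∑ b, D.τ a b * pd b h) -
      (X a + pd a D.V) * (f * ∑ b, D.τ a b * pd b h)) - gam D.τ f h := by
    rw [keid_div, gam, Finset.mul_sum, ← Finset.sum_sub_distrib]
    refine Finset.sum_congr rfl fun a _ => ?_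
    have : ∑ b, D.τ a b * pd a f * pd b h = pd a f * ∑ b, D.τ a b * pd b h := by
      rw [Finset.mul_sum]
      exact Finset.sum_congr rfl fun b _ => by ring
    rw [pd_mul, this]
    ring
  rw [e, Iw_sub D.symV (Tm.sum _ fun a _ => ((hw a).pd a).sub (hX a)) (Tm.gam hτ hf hh),
    Iw_sum D.symV _ fun a _ => ((hw a).pd a).sub (hX a), Finset.sum_eq_zero, zero_sub]
  intro a _
  rw [Iw_sub D.symV ((hw a).pd a) (hX a), Iw_pd D.symV (hw a), sub_self]

theorem Iw_Lop {h : Sm n} (hh : Tm h) : Iw D.V (Lop D.τ h) = 0 := by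
  have h1 := D.Iw_mul_Lop tm_one hh
  have e : gam D.τ 1 h = 0 := by simp [gam]
  rwa [one_mul, e, Iw_zero, neg_zero] at h1

/-- `L ψ = div_μ (τ ∇ψ)`. -/
theorem Lop_eq_div (ψ : Sm n) :
    Lop D.τ ψ = ∑ a, (pd a (∑ b, D.τ a b * pd b ψ) - (X a + pd a D.V) * ∑ b, D.τ a b * pd b ψ) := by
  exact D.keid_div ψ

end KE

end Crest.Agent.R238
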