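import Crest.Agent.R238.Int

/-!
# Row 238: a crude Poincaré inequality
-/

set_option autoImplicit false
open MeasureTheory Matrix
open scoped ContDiff BigOperators

noncomputable section
namespace Crest.Agent.R238

variable {n : ℕ}

/-- The rotation `(x, y) ↦ (s x + c y, c x - s y)` (an involution up to sign conventions). -/
def rotL (s c : ℝ) : (E n × E n) →ₗ[ℝ] (E n × E n) :=
  (s • LinearMap.fst ℝ (E n) (E n) + c • LinearMap.snd ℝ (E n) (E n)).prod
    (c • LinearMap.fst ℝ (E n) (E n) - s • LinearMap.snd ℝ (E n) (E n))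

theorem rotL_apply (s c : ℝ) (p : E n × E n) :
    rotL s c p = (s • p.1 + c • p.2, c • p.1 - s • p.2) := rfl

theorem rotL_det {s c : ℝ} (h : s ^ 2 + c ^ 2 = 1) : |LinearMap.det (rotL (n := n) s c)| = 1 := by
  have h1 : (rotL (n := n) s c) ∘ₗ (rotL s c) = LinearMap.id := by
    refine LinearMap.ext fun p => ?_
    simp only [LinearMap.comp_apply, rotL_apply, LinearMap.id_apply]
    ext a
    · simp only [Pi.add_apply, Pi.sub_apply, Pi.smul_apply, smul_eq_mul]
      linear_combination (p.1 a) * h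
    · simp only [Pi.add_apply, Pi.sub_apply, Pi.smul_apply, smul_eq_mul]
      linear_combination (p.2 a) * h
  have h2 := congrArg LinearMap.det h1
  rw [LinearMap.det_comp, LinearMap.det_id] at h2
  rcases mul_self_eq_one_iff.1 h2 with h3 | h3 <;> simp [h3]

theorem rotL_continuous (s c : ℝ) : Continuous (rotL (n := n) s c) :=
  LinearMap.continuous_of_finiteDimensional _

theorem rotL_mp {s c : ℝ} (h : s ^ 2 + c ^ 2 = 1) :
    MeasurePreserving (rotL (n := n) s c) ((volume : Measure (E n)).prod volume)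
      ((volume : Measure (E n)).prod volume) := by
  have hd := rotL_det (n := n) h
  have hne : LinearMap.det (rotL (n := n) s c) ≠ 0 := by
    intro h0; rw [h0] at hd; simp at hd
  refine ⟨(rotL_continuous s c).measurable, ?_⟩
  have : ((volume : Measure (E n)).prod (volume : Measure (E n))).IsAddHaarMeasure :=
    Measure.prod.instIsAddHaarMeasure _ _
  rw [Measure.map_linearMap_addHaar_eq_smul_addHaar _ hne, abs_inv, hd]
  simp

theorem sq_integral_le {g : ℝ → ℝ} (hg : Continuous g) {L : ℝ} (hL : 0 < L) :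
    (∫ t in (0 : ℝ)..L, g t) ^ 2 ≤ L * ∫ t in (0 : ℝ)..L, g t ^ 2 := by
  set I := ∫ t in (0 : ℝ)..L, g t with hI
  have h0 : 0 ≤ ∫ t in (0 : ℝ)..L, (L * g t - I) ^ 2 :=
    intervalIntegral.integral_nonneg hL.le fun t _ => sq_nonneg _
  have e : ∀ t, (L * g t - I) ^ 2 = L ^ 2 * g t ^ 2 - 2 * L * I * g t + I ^ 2 := fun t => by ring
  simp only [e] at h0
  rw [intervalIntegral.integral_add, intervalIntegral.integral_sub, intervalIntegral.integral_const_mul,
    intervalIntegral.integral_const_mul, intervalIntegral.integral_const] at h0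
  · simp only [sub_zero, smul_eq_mul] at h0
    rw [← hI] at h0
    have : 0 ≤ L * (L * (∫ t in (0 : ℝ)..L, g t ^ 2) - I ^ 2) := by nlinarith
    have := nonneg_of_mul_nonneg_right this hL
    linarith
  all_goals exact Continuous.intervalIntegrable (by fun_prop) _ _

theorem sub_sq_le_rot (f : Sm n) (x y : E n) :
    (ev x f - ev y f) ^ 2 ≤ Real.pi / 2 * ∫ t in (0 : ℝ)..(Real.pi / 2),
      ev (Real.sin t • x + Real.cos t • y) (q 1 f) *
        ev (Real.cos t • x - Real.sin t • y) (nsq : Sm n) := by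
  have hL : 0 < Real.pi / 2 := by positivity
  set g : ℝ → ℝ := fun t => ∑ a, (Real.cos t • x - Real.sin t • y) a *
    ev (Real.sin t • x + Real.cos t • y) (pd a f) with hg
  have cg : Continuous g := by
    refine continuous_finsetSum _ fun a _ => Continuous.mul (by fun_prop) ?_
    exact (ev_continuous _).comp (by fun_prop)
  have hd : ∀ t, HasDerivAt (fun t => ev (Real.sin t • x + Real.cos t • y) f) (g t) t := by
    intro t
    have h1 : HasDerivAt (fun t => Real.sin t • x + Real.cos t • y)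
        (Real.cos t • x - Real.sin t • y) t := by
      have := ((Real.hasDerivAt_sin t).smul_const x).add ((Real.hasDerivAt_cos t).smul_const y)
      rw [neg_smul, ← sub_eq_add_neg] at this
      exact this
    have h2 := (ev_differentiable f (Real.sin t • x + Real.cos t • y)).hasFDerivAt.comp_hasDerivAt t h1
    rw [fderiv_ev] at h2
    exact h2
  have h3 := intervalIntegral.integral_eq_sub_of_hasDerivAt (a := 0) (b := Real.pi / 2)
    (fun t _ => hd t) (cg.intervalIntegrable _ _)
  simp only [Real.sin_pi_div_two, Real.cos_pi_div_two, Real.sin_zero, Real.cos_zero, one_smul,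
    zero_smul, add_zero, zero_add] at h3
  rw [← h3]
  refine (sq_integral_le cg hL).trans (mul_le_mul_of_nonneg_left ?_ hL.le)
  refine intervalIntegral.integral_mono_on hL.le ((cg.pow 2).intervalIntegrable _ _)
    (Continuous.intervalIntegrable ?_ _ _) fun t _ => ?_
  · exact ((ev_continuous _).comp (by fun_prop)).mul ((ev_continuous _).comp (by fun_prop))
  · rw [ev_q_one, ev_nsq, mul_comm]
    exact Finset.sum_mul_sq_le_sq_mul_sq _ _ _

theorem poincare_gauss_zero (f : Sm n) (hf : Tm f) (h0 : Iw 0 f = 0) :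
    2 * Iw 0 (1 : Sm n) * Iw 0 (f ^ 2) ≤
      (Real.pi / 2) ^ 2 * Iw 0 (nsq : Sm n) * Iw 0 (q 1 f) := by
  have hL : 0 < Real.pi / 2 := by positivity
  set G : E n → ℝ := fun x => Real.exp (-ev x (Wp 0)) with hG
  have cG : Continuous G := Real.continuous_exp.comp (ev_continuous _).neg
  have G0 : ∀ x, 0 < G x := fun x => Real.exp_pos _
  have s0 : Sym 0 (0 : Sm n) := sym_zero 0
  have iw : ∀ g : Sm n, Iw 0 g = ∫ x, ev x g * G x := fun g => rfl
  have ig : ∀ g : Sm n, Tm g → Integrable (fun x => ev x g * G x) := fun g hg => hg.integrable s0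
  set H : E n × E n → ℝ := fun p => (ev p.1 (q 1 f) * G p.1) * (ev p.2 (nsq : Sm n) * G p.2) with hH
  have cH : Continuous H :=
    (((ev_continuous _).comp continuous_fst).mul (cG.comp continuous_fst)).mul
      (((ev_continuous _).comp continuous_snd).mul (cG.comp continuous_snd))
  have H0 : ∀ p, 0 ≤ H p := fun p =>
    mul_nonneg (mul_nonneg (q_nonneg _ _ _) (G0 _).le)
      (mul_nonneg (by rw [ev_nsq]; positivity) (G0 _).le)
  have iH : Integrable H ((volume : Measure (E n)).prod volume) :=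
    (ig _ (hf.q 1)).mul_prod (ig _ sym_nsq.tm)
  have vH : ∫ p, H p ∂((volume : Measure (E n)).prod volume) = Iw 0 (q 1 f) * Iw 0 (nsq : Sm n) :=
    integral_prod_mul (fun x => ev x (q 1 f) * G x) (fun x => ev x (nsq : Sm n) * G x)
  have mp : ∀ t : ℝ, MeasurePreserving (rotL (n := n) (Real.sin t) (Real.cos t))
      ((volume : Measure (E n)).prod volume) ((volume : Measure (E n)).prod volume) :=
    fun t => rotL_mp (Real.sin_sq_add_cos_sq t)
  have vK : ∀ t : ℝ, ∫ p, H (rotL (Real.sin t) (Real.cos t) p) ∂((volume : Measure (E n)).prod volume)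
      = Iw 0 (q 1 f) * Iw 0 (nsq : Sm n) := by
    intro t
    rw [← vH, ← integral_map (mp t).measurable.aemeasurable cH.aestronglyMeasurable, (mp t).map_eq]
  have cK : Continuous fun z : ℝ × (E n × E n) => H (rotL (Real.sin z.1) (Real.cos z.1) z.2) := by
    refine cH.comp ?_
    simp only [rotL_apply]
    fun_prop
  have iK : Integrable (Function.uncurry fun (t : ℝ) (p : E n × E n) =>
      H (rotL (Real.sin t) (Real.cos t) p))
      ((volume.restrict (Set.uIoc 0 (Real.pi / 2))).prod ((volume : Measure (E n)).prod volume)) := by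
    refine (integrable_prod_iff cK.aestronglyMeasurable).2 ⟨ae_of_all _ fun t => ?_, ?_⟩
    · exact (mp t).integrable_comp_of_integrable iH
    · simp only [Real.norm_of_nonneg (H0 _), vK]
      refine integrable_const_iff.2 (Or.inr ⟨?_⟩)
      simp
  have sw := intervalIntegral_integral_swap iK
  simp only [vK, intervalIntegral.integral_const, sub_zero, smul_eq_mul] at sw
  have GG : ∀ (t : ℝ) (p : E n × E n), G (Real.sin t • p.1 + Real.cos t • p.2) *
      G (Real.cos t • p.1 - Real.sin t • p.2) = G p.1 * G p.2 := by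
    intro t p
    simp only [hG, ← Real.exp_add, ev_Wp, map_zero, add_zero]
    congr 1
    have : ∑ a, (Real.sin t • p.1 + Real.cos t • p.2) a ^ 2 +
        ∑ a, (Real.cos t • p.1 - Real.sin t • p.2) a ^ 2 = ∑ a, p.1 a ^ 2 + ∑ a, p.2 a ^ 2 := by
      rw [← Finset.sum_add_distrib, ← Finset.sum_add_distrib]
      refine Finset.sum_congr rfl fun a _ => ?_
      simp only [Pi.add_apply, Pi.sub_apply, Pi.smul_apply, smul_eq_mul]
      linear_combination (p.1 a ^ 2 + p.2 a ^ 2) * Real.sin_sq_add_cos_sq t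
    linarith
  have pt : ∀ p : E n × E n, (ev p.1 f - ev p.2 f) ^ 2 * (G p.1 * G p.2) ≤
      Real.pi / 2 * ∫ t in (0 : ℝ)..(Real.pi / 2), H (rotL (Real.sin t) (Real.cos t) p) := by
    intro p
    have h1 := mul_le_mul_of_nonneg_right (sub_sq_le_rot f p.1 p.2) (mul_pos (G0 p.1) (G0 p.2)).le
    refine h1.trans (le_of_eq ?_)
    rw [mul_assoc, ← intervalIntegral.integral_mul_const]
    congr 1
    refine intervalIntegral.integral_congr fun t _ => ?_
    simp only [hH, rotL_apply]
    rw [← GG t p]; ring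
  have i1 := (ig _ (hf.pow 2)).mul_prod (ig _ tm_one)
  have i2 := (ig _ tm_one).mul_prod (ig _ (hf.pow 2))
  have i3 := ((ig _ hf).mul_prod (ig _ hf)).const_mul 2
  have e : ∀ p : E n × E n, (ev p.1 f - ev p.2 f) ^ 2 * (G p.1 * G p.2) =
      (ev p.1 (f ^ 2) * G p.1) * (ev p.2 (1 : Sm n) * G p.2) +
        (ev p.1 (1 : Sm n) * G p.1) * (ev p.2 (f ^ 2) * G p.2) -
        2 * ((ev p.1 f * G p.1) * (ev p.2 f * G p.2)) := by
    intro p
    simp only [map_pow, map_one]; ring
  have iL : Integrable (fun p : E n × E n => (ev p.1 f - ev p.2 f) ^ 2 * (G p.1 * G p.2))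
      ((volume : Measure (E n)).prod volume) := by
    simp only [e]
    exact (i1.add i2).sub i3
  have vL : ∫ p : E n × E n, (ev p.1 f - ev p.2 f) ^ 2 * (G p.1 * G p.2)
      ∂((volume : Measure (E n)).prod volume) = 2 * Iw 0 (1 : Sm n) * Iw 0 (f ^ 2) := by
    simp only [e]
    have i12 : Integrable (fun p : E n × E n =>
        (ev p.1 (f ^ 2) * G p.1) * (ev p.2 (1 : Sm n) * G p.2) +
        (ev p.1 (1 : Sm n) * G p.1) * (ev p.2 (f ^ 2) * G p.2))
        ((volume : Measure (E n)).prod volume) := i1.add i2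
    rw [integral_sub i12 i3, integral_add i1 i2, integral_const_mul,
      integral_prod_mul (fun x => ev x (f ^ 2) * G x) (fun x => ev x (1 : Sm n) * G x),
      integral_prod_mul (fun x => ev x (1 : Sm n) * G x) (fun x => ev x (f ^ 2) * G x),
      integral_prod_mul (fun x => ev x f * G x) (fun x => ev x f * G x), ← iw, ← iw, ← iw, h0]
    ring
  have iR : Integrable (fun p : E n × E n =>
      ∫ t in (0 : ℝ)..(Real.pi / 2), H (rotL (Real.sin t) (Real.cos t) p))
      ((volume : Measure (E n)).prod volume) := by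
    have := iK.integral_prod_right
    simp only [intervalIntegral.integral_of_le hL.le]
    rw [Set.uIoc_of_le hL.le] at this
    exact this
  have fin := integral_mono iL (iR.const_mul (Real.pi / 2)) pt
  rw [vL, integral_const_mul, ← sw] at fin
  refine fin.trans (le_of_eq ?_)
  ring

theorem q_one_sub_cst (f : Sm n) (m : ℝ) : q 1 (f - cst m) = q 1 f := by
  simp only [q_succ, q_zero_eq, map_sub, pd_cst, sub_zero]

/-- Gaussian Poincaré inequality with some constant (Maurey–Pisier rotation trick).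
With `G(x) = e^{-|x|²/2}`, `Z = Iw 0 1`, `m = Iw 0 f / Z`:
`2 Z Iw 0 ((f - m)²) = ∬ (f x - f y)² G(x) G(y)`, and `f x - f y = ∫₀^{π/2} ∇f(x_θ) · y_θ dθ` with
`x_θ = sin θ • x + cos θ • y`, `y_θ = cos θ • x - sin θ • y`; so
`(f x - f y)² ≤ (π/2) ∫ |∇f(x_θ)|² |y_θ|² dθ`. The map `(x,y) ↦ (x_θ, y_θ)` preserves Lebesgue measure on
`E n × E n` (linear with `|det| = 1`, or a composition of shears / coordinatewise rotations of `ℝ × ℝ`;
alternatively Mathlib's `IsGaussian.map_rotation_eq_self`) and `G(x) G(y)`; Tonelli (use `lintegral`).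
Any other proof (e.g. one-dimensional Poincaré + tensorisation) is welcome. -/
theorem poincare_gauss (n : ℕ) : ∃ C, 0 ≤ C ∧ ∀ f : Sm n, Tm f →
    ∃ m : ℝ, Iw 0 ((f - cst m) ^ 2) ≤ C * Iw 0 (q 1 f) := by
  have s0 : Sym 0 (0 : Sm n) := sym_zero 0
  have hZ := Iw_one_pos s0
  have hN : 0 ≤ Iw 0 (nsq : Sm n) := Iw_nonneg _ fun x => by rw [ev_nsq]; positivity
  refine ⟨(Real.pi / 2) ^ 2 * Iw 0 (nsq : Sm n) / (2 * Iw 0 (1 : Sm n)), by positivity,
    fun f hf => ⟨Iw 0 f / Iw 0 (1 : Sm n), ?_⟩⟩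
  have h0 : Iw 0 (f - cst (Iw 0 f / Iw 0 (1 : Sm n))) = 0 := by
    rw [Iw_sub s0 hf (tm_cst _), ← mul_one (cst _), Iw_cst_mul]
    field_simp
    ring
  have h := poincare_gauss_zero _ (hf.sub (tm_cst _)) h0
  rw [q_one_sub_cst] at h
  rw [div_mul_eq_mul_div, le_div_iff₀ (by positivity)]
  linarith

/-- Holley–Stroock: `Iw V (f²) ≤ Iw V ((f - m)²)` when `Iw V f = 0`, and `Iw_le_Iw_zero`, `Iw_zero_le_Iw`. -/
theorem poincare (n : ℕ) (K : ℝ) : ∃ C, 0 ≤ C ∧ ∀ V f : Sm n, Sym 0 V → (∀ x, |ev x V| ≤ K) → Tm f →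
    Iw V f = 0 → Iw V (f ^ 2) ≤ C * Iw V (q 1 f) := by
  obtain ⟨C, hC, h⟩ := poincare_gauss n
  refine ⟨Real.exp K * (C * Real.exp K), by positivity, fun V f hV hK hf h0 => ?_⟩
  obtain ⟨m, hm⟩ := h f hf
  have t1 : Tm ((f - cst m) ^ 2) := (hf.sub (tm_cst m)).pow 2
  have h1 : Iw V (f ^ 2) ≤ Iw V ((f - cst m) ^ 2) := by
    have e : (f - cst m) ^ 2 = f ^ 2 + (-2 * m) • f + (m ^ 2) • (1 : Sm n) := by
      ext x; simp only [map_pow, map_add, map_sub, ev_smul, ev_cst, map_one]; ring
    rw [e, Iw_add hV ((hf.pow 2).add (hf.smul _)) (tm_one.smul _), Iw_add hV (hf.pow 2) (hf.smul _),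
      Iw_smul, Iw_smul, h0]
    have := mul_nonneg (sq_nonneg m) (Iw_one_pos hV).le
    linarith
  have h2 := Iw_le_Iw_zero hV hK t1 fun x => by rw [map_pow]; positivity
  have h3 := Iw_zero_le_Iw hV hK (hf.q 1) (q_nonneg 1 f)
  calc Iw V (f ^ 2) ≤ Real.exp K * Iw 0 ((f - cst m) ^ 2) := h1.trans h2
    _ ≤ Real.exp K * (C * (Real.exp K * Iw V (q 1 f))) :=
        mul_le_mul_of_nonneg_left (hm.trans (mul_le_mul_of_nonneg_left h3 hC)) (Real.exp_pos K).le
    _ = _ := by ring

end Crest.Agent.R238
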