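import Crest.Agent.R238.Solv
import Crest.Agent.R238.Cutoff
import Crest.Agent.R238.Poinc
import Crest.Agent.R238.KEid

/-!
# Row 238: approximate solvability of `L ψ = f` in `H¹(e^{-W})`
-/

set_option autoImplicit false
open MeasureTheory Matrix
open scoped ContDiff BigOperators

noncomputable section
namespace Crest.Agent.R238

variable {n : ℕ}

theorem approx_q_sub_cst (ψ : Sm n) (m : ℝ) : q 1 (ψ - cst m) = q 1 ψ := by
  simp only [q_succ, q_zero_eq, map_sub, pd_cst, sub_zero]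

theorem approx_gam_sub_cst (τ : Mat n) (ψ h : Sm n) (m : ℝ) : gam τ (ψ - cst m) h = gam τ ψ h := by
  simp only [gam, map_sub, pd_cst, sub_zero]

theorem approx_Iw_cst (V : Sm n) (m : ℝ) : Iw V (cst m) = m * Iw V 1 := by
  rw [← Iw_cst_mul, mul_one]

theorem approx_Iw_le {V u : Sm n} (hV : Sym 0 V) (hu : Tm u) {e : ℝ} (h : ∀ x, ev x u ≤ e) :
    Iw V u ≤ e * Iw V 1 := by
  rw [← approx_Iw_cst]
  exact Iw_mono hV hu (tm_cst e) fun x => by rw [ev_cst]; exact h x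

theorem approx_three {V a b c : Sm n} (hV : Sym 0 V) (ha : Tm a) (hb : Tm b) (hc : Tm c) (δ : ℝ) :
    Iw V ((δ • a + b + c) ^ 2) ≤ 3 * (δ ^ 2 * Iw V (a ^ 2) + Iw V (b ^ 2) + Iw V (c ^ 2)) ∧
    Iw V (q 1 (δ • a + b + c)) ≤ 3 * (δ ^ 2 * Iw V (q 1 a) + Iw V (q 1 b) + Iw V (q 1 c)) := by
  have ht := ((ha.smul δ).add hb).add hc
  constructor
  · rw [← Iw_smul, ← Iw_add hV ((ha.pow 2).smul _) (hb.pow 2),
      ← Iw_add hV (((ha.pow 2).smul _).add (hb.pow 2)) (hc.pow 2), ← Iw_smul]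
    refine Iw_mono hV (ht.pow 2) (((((ha.pow 2).smul _).add (hb.pow 2)).add (hc.pow 2)).smul _)
      fun x => ?_
    simp only [map_pow, map_add, ev_smul]
    nlinarith [sq_nonneg (δ * ev x a - ev x b), sq_nonneg (δ * ev x a - ev x c),
      sq_nonneg (ev x b - ev x c)]
  · rw [← Iw_smul, ← Iw_add hV ((ha.q 1).smul _) (hb.q 1),
      ← Iw_add hV (((ha.q 1).smul _).add (hb.q 1)) (hc.q 1), ← Iw_smul]
    refine Iw_mono hV (ht.q 1) (((((ha.q 1).smul _).add (hb.q 1)).add (hc.q 1)).smul _)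
      fun x => ?_
    simp only [map_add, ev_smul, ev_q_one, Derivation.map_smul, Finset.mul_sum,
      ← Finset.sum_add_distrib]
    refine Finset.sum_le_sum fun i _ => ?_
    nlinarith [sq_nonneg (δ * ev x (pd i a) - ev x (pd i b)),
      sq_nonneg (δ * ev x (pd i a) - ev x (pd i c)), sq_nonneg (ev x (pd i b) - ev x (pd i c))]

/-- Energy estimate for `h = (L - δ) ψ`, `0 < δ`. With `m = I(ψ)/I(1)`, `ψ₀ = ψ - m`: `I(h) = -δ m I(1)`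
(`Iw_Lop`), `I(gam τ ψ ψ) + δ I(ψ₀²) = -I(ψ₀ h)`, so `c I(q 1 ψ) ≤ ‖ψ₀‖ ‖h‖ ≤ √(C_P I(q 1 ψ)) ‖h‖`. -/
theorem KE.resolvent_energy (D : KE n) {c : ℝ} (hc : 0 < c) (hl : Low c D.τ) :
    ∃ C, 0 ≤ C ∧ ∀ (δ : ℝ) (ψ : Sm n), 0 < δ → Tm ψ →
      Iw D.V (q 1 ψ) ≤ C * Iw D.V (Top D.τ (-δ) ψ ^ 2) ∧
      δ ^ 2 * Iw D.V (ψ ^ 2) ≤
        C * (δ ^ 2 * Iw D.V (Top D.τ (-δ) ψ ^ 2) + Iw D.V (Top D.τ (-δ) ψ) ^ 2) := by
  have hV := D.symV
  have hτ : TmM D.τ := D.sym0τ.tmM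
  obtain ⟨K, -, hK⟩ := hV.bdd
  obtain ⟨P, hP0, hP⟩ := poincare n K
  have hZ := Iw_one_pos hV
  refine ⟨P / c ^ 2 + P * (P / c ^ 2) + 1 / Iw D.V 1, by positivity, fun δ ψ hδ hψ => ?_⟩
  set Z := Iw D.V 1 with hZdef
  set m := Iw D.V ψ / Z with hm
  set h := Top D.τ (-δ) ψ with hh
  have hmZ : Iw D.V ψ = m * Z := by rw [hm]; field_simp
  have t0 : Tm (ψ - cst m) := hψ.sub (tm_cst m)
  have th : Tm h := hψ.Top hτ _
  have i0 : Iw D.V (ψ - cst m) = 0 := by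
    rw [Iw_sub hV hψ (tm_cst m), approx_Iw_cst, hmZ, sub_self]
  have i1 : Iw D.V h = -δ * (m * Z) := by
    rw [hh, Top, Iw_add hV (hψ.Lop hτ) (hψ.smul _), D.Iw_Lop hψ, Iw_smul, hmZ, zero_add]
  have i2 : Iw D.V ((ψ - cst m) * ψ) = Iw D.V ((ψ - cst m) ^ 2) := by
    have e : (ψ - cst m) * ψ = (ψ - cst m) ^ 2 + cst m * (ψ - cst m) := by ring
    rw [e, Iw_add hV (t0.pow 2) ((tm_cst m).mul t0), Iw_cst_mul, i0, mul_zero, add_zero]
  have i3 : Iw D.V ((ψ - cst m) * h) =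
      -Iw D.V (gam D.τ ψ ψ) - δ * Iw D.V ((ψ - cst m) ^ 2) := by
    have e : (ψ - cst m) * h = (ψ - cst m) * Lop D.τ ψ + (-δ) • ((ψ - cst m) * ψ) := by
      rw [hh, Top, mul_add, mul_smul_comm]
    rw [e, Iw_add hV (t0.mul (hψ.Lop hτ)) ((t0.mul hψ).smul _), D.Iw_mul_Lop t0 hψ, Iw_smul, i2,
      approx_gam_sub_cst]
    ring
  have i4 : Iw D.V (ψ ^ 2) = Iw D.V ((ψ - cst m) ^ 2) + m ^ 2 * Z := by
    have e : ψ ^ 2 = (ψ - cst m) * ψ + cst m * ψ := by ring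
    rw [e, Iw_add hV (t0.mul hψ) ((tm_cst m).mul hψ), Iw_cst_mul, i2, hmZ]
    ring
  have i5 : c * Iw D.V (q 1 ψ) ≤ Iw D.V (gam D.τ ψ ψ) := by
    rw [← Iw_smul]
    refine Iw_mono hV ((hψ.q 1).smul c) (hψ.gam hτ hψ) fun x => ?_
    rw [ev_smul, ev_q_one]
    exact hl.gam ψ x
  have i6 := hP D.V _ hV hK t0 i0
  rw [approx_q_sub_cst] at i6
  have i7 := Iw_mul_sq_le hV t0 th
  have hQ : 0 ≤ Iw D.V (q 1 ψ) := Iw_nonneg _ (q_nonneg 1 ψ)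
  have hA : 0 ≤ Iw D.V ((ψ - cst m) ^ 2) := Iw_nonneg _ fun x => by rw [map_pow]; positivity
  have hH : 0 ≤ Iw D.V (h ^ 2) := Iw_nonneg _ fun x => by rw [map_pow]; positivity
  set Q := Iw D.V (q 1 ψ)
  set A := Iw D.V ((ψ - cst m) ^ 2)
  set H := Iw D.V (h ^ 2)
  have k1 : Q ≤ P / c ^ 2 * H := by
    rcases hQ.eq_or_lt with e | hQ'
    · rw [← e]; positivity
    have a1 : c * Q ≤ -Iw D.V ((ψ - cst m) * h) := by
      rw [i3]; nlinarith [mul_nonneg hδ.le hA]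
    have a2 : (c * Q) ^ 2 ≤ Iw D.V ((ψ - cst m) * h) ^ 2 := by
      rw [← neg_sq (Iw D.V _)]
      exact pow_le_pow_left₀ (by positivity) a1 2
    have a3 : A * H ≤ P * Q * H := by gcongr
    have a4 : Q * (c ^ 2 * Q) ≤ Q * (P * H) := by nlinarith
    have a5 := le_of_mul_le_mul_left a4 hQ'
    rw [div_mul_eq_mul_div, le_div_iff₀ (by positivity)]
    linarith
  have p1 : 0 ≤ P / c ^ 2 := by positivity
  have p2 : 0 ≤ P * (P / c ^ 2) := by positivity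
  have p3 : 0 ≤ 1 / Z := by positivity
  constructor
  · nlinarith [mul_nonneg p2 hH, mul_nonneg p3 hH]
  · rw [i4, i1]
    have a1 : A ≤ P * (P / c ^ 2) * H := by
      calc A ≤ P * Q := i6
        _ ≤ P * (P / c ^ 2 * H) := by gcongr
        _ = _ := by ring
    have a2 : δ ^ 2 * (m ^ 2 * Z) = 1 / Z * (-δ * (m * Z)) ^ 2 := by field_simp
    have a3 : δ ^ 2 * A ≤ δ ^ 2 * (P * (P / c ^ 2) * H) := by gcongr
    have a4 : 0 ≤ δ ^ 2 * H := by positivity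
    have a5 : 0 ≤ (-δ * (m * Z)) ^ 2 := sq_nonneg _
    nlinarith [mul_nonneg p1 a4, mul_nonneg p3 a4, mul_nonneg p1 a5, mul_nonneg p2 a5]

/-- `approx_sym` gives `f'`; `solv_neg` gives `ψ` with `Y (h - f') ≤ e`, `h = (L - δ)ψ`, hence
`|h - f'|, d 1 (h - f') ≤ e` pointwise (`J_le_Y`); `Lψ - f = δ ψ + (h - f') + (f' - f)` and
`resolvent_energy`; choose `e, δ` small. -/
theorem KE.approx_solve (D : KE n) {c : ℝ} (hc : 0 < c) (hl : Low c D.τ) {f : Sm n} (hf : Tm f)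
    (h0 : Iw D.V f = 0) {η : ℝ} (hη : 0 < η) :
    ∃ ψ : Sm n, Tm ψ ∧ Iw D.V ((Lop D.τ ψ - f) ^ 2) ≤ η ∧ Iw D.V (q 1 (Lop D.τ ψ - f)) ≤ η := by
  have hV := D.symV
  have hτ : TmM D.τ := D.sym0τ.tmM
  obtain ⟨C, hC0, hC⟩ := D.resolvent_energy hc hl
  obtain ⟨f', s', i', n1, n2⟩ := approx_sym hV hf h0 (η := η / 6) (by positivity)
  have hZ := Iw_one_pos hV
  have hF : 0 ≤ Iw D.V (f' ^ 2) := Iw_nonneg _ fun x => by rw [map_pow]; positivity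
  set Z := Iw D.V 1 with hZdef
  set F := Iw D.V (f' ^ 2) with hFdef
  set M := C * (3 * F + 3 * Z + Z ^ 2) + Z with hM
  have hM0 : 0 < M := by positivity
  set ε := min 1 (η / (6 * M)) with hε
  have hε0 : 0 < ε := lt_min one_pos (by positivity)
  have hε1 : ε ≤ 1 := min_le_left _ _
  have hε2 : ε * M ≤ η / 6 := by
    have : ε ≤ η / (6 * M) := min_le_right _ _
    rw [le_div_iff₀ (by positivity)] at this
    linarith
  obtain ⟨ψ, sψ, -, sh, hY⟩ := solv_neg hc hε0 D.τ_symm hl D.sym0τ f' s' False.elim ε hε0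
  have tψ := sψ.tm
  obtain ⟨r1, r2⟩ := hC ε ψ hε0 tψ
  set h := Top D.τ (-ε) ψ with hh
  have su := sh.sub s'
  have tu := su.tm
  have u0 : Iw D.V ((h - f') ^ 2) ≤ ε ^ 2 * Z := by
    refine approx_Iw_le hV (tu.pow 2) fun x => ?_
    rw [map_pow, ← sq_abs]
    exact pow_le_pow_left₀ (abs_nonneg _) ((abs_le_Y su x).trans hY) 2
  have u1 : Iw D.V (q 1 (h - f')) ≤ ε ^ 2 * Z := by
    refine approx_Iw_le hV (tu.q 1) fun x => (q_le_d_sq 1 _ x).trans ?_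
    exact pow_le_pow_left₀ (d_nonneg _ _ _)
      (((d_le_J' (by omega) _ x).trans (J_le_Y su x)).trans hY) 2
  have u2 : Iw D.V h ^ 2 ≤ ε ^ 2 * Z ^ 2 := by
    have e : Iw D.V h = Iw D.V ((h - f') * 1) := by
      rw [mul_one, Iw_sub hV sh.tm s'.tm, i', sub_zero]
    have := Iw_mul_sq_le hV tu tm_one
    rw [one_pow] at this
    rw [e]
    nlinarith
  have hε3 : ε ^ 2 ≤ ε := by nlinarith
  have u3 : Iw D.V (h ^ 2) ≤ 3 * F + 3 * Z := by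
    have := (approx_three hV s'.tm tu tm_zero 1).1
    have e : (1 : ℝ) • f' + (h - f') + 0 = h := by simp
    rw [e, zero_pow two_ne_zero, Iw_zero] at this
    nlinarith
  have e : Lop D.τ ψ - f = ε • ψ + (h - f') + (f' - f) := by
    rw [hh, Top, neg_smul]; abel
  obtain ⟨w1, w2⟩ := approx_three hV tψ tu (s'.tm.sub hf) ε
  have v1 : C * (ε ^ 2 * Iw D.V (h ^ 2) + Iw D.V h ^ 2) ≤
      C * (ε ^ 2 * (3 * F + 3 * Z) + ε ^ 2 * Z ^ 2) := by gcongr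
  have v2 : ε ^ 2 * Iw D.V (q 1 ψ) ≤ ε ^ 2 * (C * (3 * F + 3 * Z)) := by
    gcongr
    exact r1.trans (by gcongr)
  have v3 : ε ^ 2 * M ≤ ε * M := by gcongr
  have v4 : 0 ≤ ε ^ 2 * (C * Z ^ 2) := by positivity
  refine ⟨ψ, tψ, ?_, ?_⟩
  · rw [e]; nlinarith
  · rw [e]; nlinarith

end Crest.Agent.R238
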