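import Crest.Agent.R238.Defs

/-!
# Row 238: calculus in `Sm n` (derivation rules, `r`, `rho`, reflection, matrices, the operator `L`)
-/

set_option autoImplicit false
open MeasureTheory Matrix
open scoped ContDiff BigOperators

noncomputable section
namespace Crest.Agent.R238

variable {n : ℕ}

@[simp] theorem ev_ofNat (x : E n) (k : ℕ) [k.AtLeastTwo] :
    ev x (ofNat(k) : Sm n) = ofNat(k) := map_ofNat (ev x) k

/-! ### Derivation rules -/

theorem pd_mul (a : Fin n) (f g : Sm n) : pd a (f * g) = pd a f * g + f * pd a g := by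
  rw [Derivation.leibniz]; simp only [smul_eq_mul]; ring

theorem pd_prod {ι : Type*} [DecidableEq ι] (a : Fin n) (s : Finset ι) (f : ι → Sm n) :
    pd a (∏ i ∈ s, f i) = ∑ i ∈ s, (∏ j ∈ s.erase i, f j) * pd a (f i) := by
  induction s using Finset.induction_on with
  | empty => simp
  | insert b s hb ih =>
    rw [Finset.prod_insert hb, pd_mul, ih, Finset.sum_insert hb, Finset.erase_insert hb,
      Finset.mul_sum, mul_comm]
    congr 1
    refine Finset.sum_congr rfl fun i hi => ?_
    have hne : b ≠ i := fun h => hb (h ▸ hi)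
    rw [Finset.erase_insert_of_ne hne, Finset.prod_insert (fun h => hb (Finset.mem_of_mem_erase h))]
    ring

theorem pd_cst (a : Fin n) (c : ℝ) : pd a (cst c : Sm n) = 0 := Derivation.map_algebraMap _ _

theorem pd_one (a : Fin n) : pd a (1 : Sm n) = 0 := Derivation.map_one_eq_zero _

theorem pd_sq (a : Fin n) (f : Sm n) : pd a (f ^ 2) = 2 * f * pd a f := by
  rw [sq, pd_mul]; ring

theorem fderiv_ev (f : Sm n) (x v : E n) :
    fderiv ℝ (fun y => ev y f) x v = ∑ a, v a * ev x (pd a f) := by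
  conv_lhs => rw [pi_eq_sum_univ' v]
  simp only [map_sum, map_smul, smul_eq_mul, ev_pd]

theorem hasFDerivAt_ev (f : Sm n) (x : E n) :
    HasFDerivAt (fun y => ev y f)
      (∑ a, ev x (pd a f) • (ContinuousLinearMap.proj a : E n →L[ℝ] ℝ)) x := by
  have h := (ev_differentiable f x).hasFDerivAt
  have e : fderiv ℝ (fun y => ev y f) x =
      ∑ a, ev x (pd a f) • (ContinuousLinearMap.proj a : E n →L[ℝ] ℝ) := by
    ext1 v
    rw [fderiv_ev]
    simp [mul_comm]
  rwa [e] at h

/-- A smooth function whose Fréchet derivative is given by smooth functions has these as partial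
derivatives. -/
theorem pd_eq_of_hasFDerivAt (f : Sm n) (x : E n) (w : E n)
    (h : HasFDerivAt (fun y => ev y f)
      (∑ a, w a • (ContinuousLinearMap.proj a : E n →L[ℝ] ℝ)) x) (a : Fin n) :
    ev x (pd a f) = w a := by
  rw [ev_pd, h.fderiv]
  simp [Pi.single_apply]

theorem hasDerivAt_line (f : Sm n) (x v : E n) (t : ℝ) :
    HasDerivAt (fun s : ℝ => ev (x + s • v) f) (∑ a, v a * ev (x + t • v) (pd a f)) t := by
  have h1 : HasDerivAt (fun s : ℝ => x + s • v) v t := by
    simpa using ((hasDerivAt_id t).smul_const v).const_add x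
  have h2 := (ev_differentiable f (x + t • v)).hasFDerivAt.comp_hasDerivAt t h1
  rw [fderiv_ev] at h2
  exact h2

theorem hasDerivAt_ev_update (f : Sm n) (x : E n) (a : Fin n) (t : ℝ) :
    HasDerivAt (fun s : ℝ => ev (Function.update x a s) f) (ev (Function.update x a t) (pd a f)) t := by
  have h1 : HasDerivAt (fun s : ℝ => Function.update x a s) (Pi.single a (1 : ℝ)) t :=
    hasDerivAt_update x a t
  exact (ev_differentiable f (Function.update x a t)).hasFDerivAt.comp_hasDerivAt t h1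

theorem pd_comm (a b : Fin n) (f : Sm n) : pd a (pd b f) = pd b (pd a f) := by
  ext x
  have hf := ev_contDiff f
  have hd : DifferentiableAt ℝ (fderiv ℝ (fun y => ev y f)) x :=
    ((hf.fderiv_right (m := ∞) (by simp)).differentiable (by simp)) x
  have hs : IsSymmSndFDerivAt ℝ (fun y => ev y f) x :=
    hf.contDiffAt.isSymmSndFDerivAt (by simp; exact WithTop.coe_le_coe.2 le_top)
  have key : ∀ c e : Fin n, ev x (pd c (pd e f)) =
      fderiv ℝ (fderiv ℝ (fun y => ev y f)) x (Pi.single c 1) (Pi.single e 1) := by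
    intro c e
    rw [ev_pd]
    simp only [ev_pd]
    rw [fderiv_clm_apply hd (differentiableAt_const _)]
    simp
  rw [key, key, hs.eq]

theorem pd_X (a b : Fin n) : pd a (X b : Sm n) = if a = b then 1 else 0 := by
  ext x
  rw [ev_pd]
  have : (fun y : E n => ev y (X b)) = fun y => y b := rfl
  rw [this, (hasFDerivAt_apply b x).fderiv]
  by_cases h : a = b
  · subst h; simp
  · simp [h, Ne.symm h]

theorem contDiff_deriv {φ : ℝ → ℝ} (hφ : ContDiff ℝ ∞ φ) : ContDiff ℝ ∞ (deriv φ) :=
  (contDiff_infty_iff_deriv.1 hφ).2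

theorem pd_cmp (a : Fin n) (φ : ℝ → ℝ) (hφ : ContDiff ℝ ∞ φ) (f : Sm n) :
    pd a (cmp φ hφ f) = cmp (deriv φ) (contDiff_deriv hφ) f * pd a f := by
  ext x
  have h1 : HasDerivAt φ (deriv φ (ev x f)) (ev x f) :=
    ((hφ.differentiable (by simp)) _).hasDerivAt
  have h2 : HasFDerivAt (fun y => ev y (cmp φ hφ f))
      (deriv φ (ev x f) • fderiv ℝ (fun y => ev y f) x) x :=
    h1.comp_hasFDerivAt x (ev_differentiable f x).hasFDerivAt
  rw [ev_pd, h2.fderiv]
  simp [ev_pd]

theorem pd_expS (a : Fin n) (f : Sm n) : pd a (expS f) = expS f * pd a f := by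
  rw [expS, pd_cmp]; ext x; simp

theorem invS_mul (f : Sm n) (hf : ∀ x, ev x f ≠ 0) : invS f hf * f = 1 := by
  ext x; simp [inv_mul_cancel₀ (hf x)]

theorem pd_invS (a : Fin n) (f : Sm n) (hf : ∀ x, ev x f ≠ 0) :
    pd a (invS f hf) = -(invS f hf ^ 2 * pd a f) := by
  have h := congrArg (pd a) (invS_mul f hf)
  rw [pd_mul, pd_one] at h
  have h1 := invS_mul f hf
  linear_combination (invS f hf) * h - (pd a (invS f hf)) * h1

theorem pd_logS (a : Fin n) (f : Sm n) (hf : ∀ x, ev x f ≠ 0) :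
    pd a (logS f hf) = invS f hf * pd a f := by
  ext x
  have h2 := (ev_differentiable f x).hasFDerivAt.log (hf x)
  rw [ev_pd]
  have : (fun y => ev y (logS f hf)) = fun y => Real.log (ev y f) := rfl
  rw [this, h2.fderiv]
  simp [ev_pd]

@[simp] theorem ev_nsq (x : E n) : ev x (nsq : Sm n) = ∑ a, x a ^ 2 := by simp [nsq]

theorem pd_nsq (a : Fin n) : pd a (nsq : Sm n) = 2 * X a := by
  simp only [nsq, map_sum, pd_sq, pd_X]
  simp

theorem pd_Wp (a : Fin n) (V : Sm n) : pd a (Wp V) = X a + pd a V := by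
  simp only [Wp, map_add, Derivation.map_smul, pd_nsq]
  ext x; simp

@[simp] theorem ev_Wp (x : E n) (V : Sm n) : ev x (Wp V) = (∑ a, x a ^ 2) / 2 + ev x V := by
  simp [Wp]; ring

/-! ### The bracket `r` -/

theorem r_sq (x : E n) : r x ^ 2 = 1 + ∑ a, x a ^ 2 := Real.sq_sqrt (one_add_sq_pos x).le

theorem one_le_r (x : E n) : 1 ≤ r x := by
  rw [r, Real.one_le_sqrt]
  have : 0 ≤ ∑ a, x a ^ 2 := by positivity
  linarith

theorem r_pos (x : E n) : 0 < r x := lt_of_lt_of_le one_pos (one_le_r x)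

theorem abs_le_r (x : E n) (a : Fin n) : |x a| ≤ r x := by
  apply Real.abs_le_sqrt
  have : x a ^ 2 ≤ ∑ b, x b ^ 2 :=
    Finset.single_le_sum (f := fun b => x b ^ 2) (fun b _ => sq_nonneg _) (Finset.mem_univ a)
  linarith

theorem r_neg (x : E n) : r (-x) = r x := by simp [r]

theorem r_zero : r (0 : E n) = 1 := by simp [r]

theorem continuous_r : Continuous (r : E n → ℝ) := by unfold r; fun_prop

theorem continuous_r_rpow (s : ℝ) : Continuous (fun x : E n => r x ^ s) :=
  continuous_r.rpow_const (fun x => Or.inl (r_pos x).ne')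

theorem norm_le_r (x : E n) : ‖x‖ ≤ r x :=
  (pi_norm_le_iff_of_nonneg (r_pos x).le).2 fun a => abs_le_r x a

theorem tendsto_r_cocompact : Filter.Tendsto (r : E n → ℝ) (Filter.cocompact (E n)) Filter.atTop :=
  Filter.tendsto_atTop_mono norm_le_r (tendsto_norm_cocompact_atTop (E := E n))

theorem isCompact_r_le (R : ℝ) : IsCompact {x : E n | r x ≤ R} :=
  (isCompact_closedBall (0 : E n) R).of_isClosed_subset (isClosed_le continuous_r continuous_const)
    fun x hx => by simpa using (norm_le_r x).trans hx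

theorem r_rpow_mono (x : E n) {s t : ℝ} (h : s ≤ t) : r x ^ s ≤ r x ^ t :=
  Real.rpow_le_rpow_of_exponent_le (one_le_r x) h

theorem r_rpow_pos (x : E n) (s : ℝ) : 0 < r x ^ s := Real.rpow_pos_of_pos (r_pos x) s

theorem r_rpow_add (x : E n) (s t : ℝ) : r x ^ (s + t) = r x ^ s * r x ^ t :=
  Real.rpow_add (r_pos x) s t

theorem r_rpow_le_one (x : E n) {s : ℝ} (h : s ≤ 0) : r x ^ s ≤ 1 := by
  simpa using r_rpow_mono x h

theorem abs_le_abs_iff_aux {a b : ℝ} (h : a ^ 2 ≤ b ^ 2) (hb : 0 ≤ b) : a ≤ b :=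
  (le_abs_self a).trans (abs_le_of_sq_le_sq' h hb |> fun h => abs_le.2 h)

/-- Peetre's inequality. -/
theorem r_add_le (x y : E n) : r (x + y) ≤ 2 * r x * r y := by
  have hx := r_pos x
  have hy := r_pos y
  refine abs_le_abs_iff_aux ?_ (by positivity)
  rw [mul_pow, mul_pow, r_sq, r_sq, r_sq]
  have h1 : ∑ a, (x + y) a ^ 2 ≤ 2 * ∑ a, x a ^ 2 + 2 * ∑ a, y a ^ 2 := by
    rw [Finset.mul_sum, Finset.mul_sum, ← Finset.sum_add_distrib]
    refine Finset.sum_le_sum fun a _ => ?_
    simp only [Pi.add_apply]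
    nlinarith [sq_nonneg (x a - y a)]
  have h2 : 0 ≤ ∑ a, x a ^ 2 := by positivity
  have h3 : 0 ≤ ∑ a, y a ^ 2 := by positivity
  nlinarith [mul_nonneg h2 h3]

theorem r_smul_sq (c : ℝ) (x : E n) : r (c • x) ^ 2 = 1 + c ^ 2 * ∑ a, x a ^ 2 := by
  rw [r_sq, Finset.mul_sum]; simp [mul_pow]

theorem r_smul_le {c : ℝ} (hc : |c| ≤ 1) (x : E n) : r (c • x) ≤ r x := by
  refine abs_le_abs_iff_aux ?_ (r_pos x).le
  rw [r_smul_sq, r_sq]
  have : c ^ 2 ≤ 1 := by rw [← sq_abs]; nlinarith [abs_nonneg c]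
  have h2 : 0 ≤ ∑ a, x a ^ 2 := by positivity
  nlinarith

theorem mul_r_le_r_smul {c : ℝ} (hc : |c| ≤ 1) (x : E n) : |c| * r x ≤ r (c • x) := by
  refine abs_le_abs_iff_aux ?_ (r_pos _).le
  rw [r_smul_sq, mul_pow, r_sq, sq_abs]
  have : c ^ 2 ≤ 1 := by rw [← sq_abs]; nlinarith [abs_nonneg c]
  nlinarith

theorem ev_rho (s : ℝ) (x : E n) : ev x (rho s : Sm n) = r x ^ s := by
  rw [r, Real.sqrt_eq_rpow, ← Real.rpow_mul (one_add_sq_pos x).le]
  simp only [rho, ev_of]; congr 1; ring

theorem rho_add (s t : ℝ) : (rho (s + t) : Sm n) = rho s * rho t := by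
  ext x; simp [ev_rho, r_rpow_add]

theorem rho_zero : (rho 0 : Sm n) = 1 := by ext x; simp [ev_rho]

theorem rho_two : (rho 2 : Sm n) = 1 + nsq := by ext x; simp [ev_rho, r_sq]

theorem pd_rho (a : Fin n) (s : ℝ) : pd a (rho s : Sm n) = s • (X a * rho (s - 2)) := by
  ext x
  have h0 : HasFDerivAt (fun y : E n => ev y (1 + nsq : Sm n))
      (fderiv ℝ (fun y : E n => ev y (1 + nsq : Sm n)) x) x := (ev_differentiable _ x).hasFDerivAt
  have hp : ev x (1 + nsq : Sm n) ≠ 0 := by simpa using (one_add_sq_pos x).ne'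
  have h1 := h0.rpow_const (p := s / 2) (Or.inl hp)
  have e : (fun y : E n => ev y (rho s : Sm n)) = fun y => ev y (1 + nsq : Sm n) ^ (s / 2) := by
    funext y; simp [rho]
  rw [ev_pd, e, h1.fderiv]
  have h2 : fderiv ℝ (fun y : E n => ev y (1 + nsq : Sm n)) x (Pi.single a 1) = 2 * x a := by
    rw [← ev_pd, map_add, pd_one, pd_nsq]; simp
  rw [_root_.smul_apply, h2]
  simp only [rho, map_add, map_one, ev_nsq, smul_eq_mul, map_smul, map_mul, ev_X, ev_of]
  rw [show (s - 2) / 2 = s / 2 - 1 by ring]; ring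

/-! ### Reflection and parity -/

theorem refl_refl (f : Sm n) : refl (refl f) = f := by ext x; simp

theorem refl_X (a : Fin n) : refl (X a : Sm n) = -X a := by ext x; simp

theorem pd_refl (a : Fin n) (f : Sm n) : pd a (refl f) = -refl (pd a f) := by
  ext x
  have h : HasFDerivAt (fun y => ev y (refl f))
      ((fderiv ℝ (fun y => ev y f) (-x)).comp (-ContinuousLinearMap.id ℝ (E n))) x :=
    (ev_differentiable f (-x)).hasFDerivAt.comp x (hasFDerivAt_id x).neg
  rw [ev_pd, h.fderiv]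
  simp [ev_pd]

theorem isEv_iff (f : Sm n) : IsEv f ↔ ∀ x, ev (-x) f = ev x f :=
  ⟨fun h x => by rw [← ev_refl, h], fun h => Sm.ext fun x => by simpa using h x⟩

theorem isOd_iff (f : Sm n) : IsOd f ↔ ∀ x, ev (-x) f = -ev x f :=
  ⟨fun h x => by rw [← ev_refl, h, map_neg], fun h => Sm.ext fun x => by simpa using h x⟩

protected theorem IsEv.pd {f : Sm n} (h : IsEv f) (a : Fin n) : IsOd (pd a f) := by
  have := pd_refl a f
  rw [h] at this
  unfold IsOd; rw [this, map_neg, refl_refl, ← this]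

protected theorem IsOd.pd {f : Sm n} (h : IsOd f) (a : Fin n) : IsEv (pd a f) := by
  have := pd_refl a f
  rw [h, map_neg] at this
  exact (neg_injective this).symm

theorem IsEv.add {f g : Sm n} (hf : IsEv f) (hg : IsEv g) : IsEv (f + g) := by
  unfold IsEv at *; rw [map_add, hf, hg]
theorem IsEv.sub {f g : Sm n} (hf : IsEv f) (hg : IsEv g) : IsEv (f - g) := by
  unfold IsEv at *; rw [map_sub, hf, hg]
theorem IsEv.neg {f : Sm n} (hf : IsEv f) : IsEv (-f) := by
  unfold IsEv at *; rw [map_neg, hf]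
theorem IsEv.smul {f : Sm n} (hf : IsEv f) (c : ℝ) : IsEv (c • f) := by
  unfold IsEv at *; rw [map_smul, hf]
theorem IsEv.mul {f g : Sm n} (hf : IsEv f) (hg : IsEv g) : IsEv (f * g) := by
  unfold IsEv at *; rw [map_mul, hf, hg]
theorem IsEv.mul_od {f g : Sm n} (hf : IsEv f) (hg : IsOd g) : IsOd (f * g) := by
  unfold IsEv IsOd at *; rw [map_mul, hf, hg]; ring
theorem IsOd.mul_ev {f g : Sm n} (hf : IsOd f) (hg : IsEv g) : IsOd (f * g) := by
  unfold IsEv IsOd at *; rw [map_mul, hf, hg]; ring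
theorem IsOd.mul {f g : Sm n} (hf : IsOd f) (hg : IsOd g) : IsEv (f * g) := by
  unfold IsEv IsOd at *; rw [map_mul, hf, hg]; ring
theorem IsOd.add {f g : Sm n} (hf : IsOd f) (hg : IsOd g) : IsOd (f + g) := by
  unfold IsOd at *; rw [map_add, hf, hg]; ring
theorem IsOd.smul {f : Sm n} (hf : IsOd f) (c : ℝ) : IsOd (c • f) := by
  unfold IsOd at *; rw [map_smul, hf, smul_neg]
theorem IsEv.sum {ι : Type*} (s : Finset ι) {f : ι → Sm n} (hf : ∀ i ∈ s, IsEv (f i)) :
    IsEv (∑ i ∈ s, f i) := by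
  unfold IsEv at *; rw [map_sum]; exact Finset.sum_congr rfl hf
theorem IsOd.sum {ι : Type*} (s : Finset ι) {f : ι → Sm n} (hf : ∀ i ∈ s, IsOd (f i)) :
    IsOd (∑ i ∈ s, f i) := by
  unfold IsOd at *; rw [map_sum, ← Finset.sum_neg_distrib]; exact Finset.sum_congr rfl hf
theorem isEv_cst (c : ℝ) : IsEv (cst c : Sm n) := AlgHom.commutes _ _
theorem isEv_zero : IsEv (0 : Sm n) := map_zero _
theorem isEv_one : IsEv (1 : Sm n) := map_one _
theorem isOd_X (a : Fin n) : IsOd (X a : Sm n) := refl_X a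
theorem IsOd.ev_zero {f : Sm n} (hf : IsOd f) : ev 0 f = 0 := by
  have := (isOd_iff f).1 hf 0
  rw [neg_zero] at this; linarith

protected theorem IsEv.eul {f : Sm n} (hf : IsEv f) : IsEv (eul f) :=
  IsEv.sum _ fun a _ => (isOd_X a).mul (hf.pd a)

protected theorem IsEv.con {M : Mat n} (hM : ∀ a b, IsEv (M a b)) {f : Sm n} (hf : IsEv f) : IsEv (con M f) :=
  IsEv.sum _ fun a _ => IsEv.sum _ fun b _ => (hM a b).mul ((hf.pd b).pd a)

protected theorem IsEv.Top {τ : Mat n} (hτ : ∀ a b, IsEv (τ a b)) (l : ℝ) {f : Sm n} (hf : IsEv f) :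
    IsEv (Top τ l f) :=
  ((IsEv.con hτ hf).sub hf.eul).add (hf.smul l)

/-! ### Matrices -/

theorem evM_mul (x : E n) (M P : Mat n) : evM x (M * P) = evM x M * evM x P := Matrix.map_mul
theorem evM_add (x : E n) (M P : Mat n) : evM x (M + P) = evM x M + evM x P := by
  ext a b; simp
theorem evM_sub (x : E n) (M P : Mat n) : evM x (M - P) = evM x M - evM x P := by
  ext a b; simp
theorem evM_neg (x : E n) (M : Mat n) : evM x (-M) = -evM x M := by ext a b; simp
theorem evM_smul (x : E n) (c : ℝ) (M : Mat n) : evM x (c • M) = c • evM x M := by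
  ext a b; simp
theorem evM_one (x : E n) : evM x (1 : Mat n) = 1 := Matrix.map_one _ (map_zero _) (map_one _)
theorem evM_transpose (x : E n) (M : Mat n) : evM x Mᵀ = (evM x M)ᵀ := rfl
theorem ev_det (x : E n) (M : Mat n) : ev x M.det = (evM x M).det := AlgHom.map_det (ev x) M
theorem ev_trace (x : E n) (M : Mat n) : ev x M.trace = (evM x M).trace := by
  simp [Matrix.trace]

theorem hess_transpose (f : Sm n) : (hess f)ᵀ = hess f := by
  ext a b : 2; simp [pd_comm]

theorem hess_add (f g : Sm n) : hess (f + g) = hess f + hess g := by ext a b : 2; simp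
theorem hess_sub (f g : Sm n) : hess (f - g) = hess f - hess g := by ext a b : 2; simp
theorem hess_smul (c : ℝ) (f : Sm n) : hess (c • f) = c • hess f := by ext a b : 2; simp
theorem hess_zero : hess (0 : Sm n) = 0 := by ext a b : 2; simp

theorem pdM_mul (a : Fin n) (M P : Mat n) : pdM a (M * P) = pdM a M * P + M * pdM a P := by
  ext i j : 1
  simp only [pdM_apply, Matrix.mul_apply, Matrix.add_apply, map_sum, pd_mul,
    Finset.sum_add_distrib]

theorem pdM_add (a : Fin n) (M P : Mat n) : pdM a (M + P) = pdM a M + pdM a P := by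
  ext i j : 2; simp
theorem pdM_sub (a : Fin n) (M P : Mat n) : pdM a (M - P) = pdM a M - pdM a P := by
  ext i j : 2; simp
theorem pdM_neg (a : Fin n) (M : Mat n) : pdM a (-M) = -pdM a M := by ext i j : 2; simp
theorem pdM_one (a : Fin n) : pdM a (1 : Mat n) = 0 := by
  ext i j : 2; by_cases h : i = j <;> simp [h]
theorem pdM_transpose (a : Fin n) (M : Mat n) : pdM a Mᵀ = (pdM a M)ᵀ := rfl
theorem pdM_comm (a b : Fin n) (M : Mat n) : pdM a (pdM b M) = pdM b (pdM a M) := by
  ext i j : 2; simp [pd_comm a b]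
theorem pdM_hess (a : Fin n) (f : Sm n) : pdM a (hess f) = hess (pd a f) := by
  ext i j : 2; simp only [pdM_apply, hess_apply]; rw [pd_comm a i, pd_comm a j]
theorem pd_trace (a : Fin n) (M : Mat n) : pd a M.trace = (pdM a M).trace := by
  simp [Matrix.trace]

theorem pdM_inv (a : Fin n) {τ g : Mat n} (h : τ * g = 1) : pdM a τ = -(τ * pdM a g * τ) := by
  have h' : g * τ = 1 := mul_eq_one_comm.1 h
  have h1 := congrArg (pdM a) h
  rw [pdM_mul, pdM_one] at h1
  have h2 : pdM a τ * g = -(τ * pdM a g) := eq_neg_of_add_eq_zero_left h1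
  calc pdM a τ = pdM a τ * g * τ := by rw [Matrix.mul_assoc, h', Matrix.mul_one]
    _ = _ := by rw [h2, Matrix.neg_mul]

/-- Jacobi's formula. -/
theorem pd_det (a : Fin n) {τ g : Mat n} (h : τ * g = 1) :
    pd a g.det = g.det * (τ * pdM a g).trace := by
  have key : ∀ M : Mat n, pd a M.det = (M.adjugate * pdM a M).trace := by
    intro M
    have h1 : pd a M.det = ∑ i, (M.updateRow i (fun j => pd a (M i j))).det := by
      simp only [Matrix.det_apply', map_sum]
      rw [Finset.sum_comm]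
      refine Finset.sum_congr rfl fun σ _ => ?_
      rw [pd_mul, Derivation.map_intCast, zero_mul, zero_add, pd_prod,
        Finset.mul_sum]
      conv_rhs => rw [← Equiv.sum_comp σ]
      refine Finset.sum_congr rfl fun i _ => ?_
      congr 1
      rw [← Finset.mul_prod_erase Finset.univ _ (Finset.mem_univ i), mul_comm]
      congr 1
      · rw [Matrix.updateRow_self]
      · refine Finset.prod_congr rfl fun j hj => ?_
        rw [Matrix.updateRow_ne (σ.injective.ne (Finset.ne_of_mem_erase hj))]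
    rw [h1, Matrix.trace_mul_comm]
    simp only [Matrix.trace, Matrix.diag, Matrix.mul_apply, pdM_apply]
    refine Finset.sum_congr rfl fun i _ => ?_
    rw [← Matrix.cramer_transpose_apply, Matrix.cramer_eq_adjugate_mulVec]
    simp only [Matrix.mulVec, dotProduct, ← Matrix.adjugate_transpose, Matrix.transpose_apply]
    exact Finset.sum_congr rfl fun j _ => mul_comm _ _
  have h' : g * τ = 1 := mul_eq_one_comm.1 h
  have hadj : g.adjugate = g.det • τ := by
    calc g.adjugate = g.adjugate * (g * τ) := by rw [h', Matrix.mul_one]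
      _ = g.det • τ := by rw [← Matrix.mul_assoc, Matrix.adjugate_mul, Matrix.smul_mul, Matrix.one_mul]
  rw [key, hadj, Matrix.smul_mul, Matrix.trace_smul, smul_eq_mul]

theorem con_eq_trace (M : Mat n) (f : Sm n) : con M f = (M * hess f).trace := by
  simp only [con, Matrix.trace, Matrix.diag, Matrix.mul_apply, hess_apply]
  exact Finset.sum_congr rfl fun a _ => Finset.sum_congr rfl fun b _ => by rw [pd_comm]

/-! ### The operators `eul`, `con`, `gam`, `Lop`, `Top` -/

theorem con_add (M : Mat n) (f g : Sm n) : con M (f + g) = con M f + con M g := by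
  simp [con, mul_add, Finset.sum_add_distrib]
theorem con_smul (M : Mat n) (c : ℝ) (f : Sm n) : con M (c • f) = c • con M f := by
  simp [con, Finset.smul_sum]
theorem con_add_left (M P : Mat n) (f : Sm n) : con (M + P) f = con M f + con P f := by
  simp [con, add_mul, Finset.sum_add_distrib]
theorem con_sub_left (M P : Mat n) (f : Sm n) : con (M - P) f = con M f - con P f := by
  simp [con, sub_mul, Finset.sum_sub_distrib]
theorem con_smul_left (c : ℝ) (M : Mat n) (f : Sm n) : con (c • M) f = c • con M f := by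
  simp [con, Finset.smul_sum]
theorem con_one (f : Sm n) : con 1 f = ∑ a, pd a (pd a f) := by
  simp [con, Matrix.one_apply]
theorem eul_add (f g : Sm n) : eul (f + g) = eul f + eul g := by
  simp [eul, mul_add, Finset.sum_add_distrib]
theorem eul_smul (c : ℝ) (f : Sm n) : eul (c • f) = c • eul f := by simp [eul, Finset.smul_sum]

theorem Lop_add (τ : Mat n) (f g : Sm n) : Lop τ (f + g) = Lop τ f + Lop τ g := by
  simp only [Lop, con_add, eul_add]; ring
theorem Lop_smul (τ : Mat n) (c : ℝ) (f : Sm n) : Lop τ (c • f) = c • Lop τ f := by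
  simp only [Lop, con_smul, eul_smul, smul_sub]

/-- `L` as a linear map. -/
def LopL (τ : Mat n) : Sm n →ₗ[ℝ] Sm n where
  toFun := Lop τ
  map_add' := Lop_add τ
  map_smul' := Lop_smul τ

theorem Lop_zero (τ : Mat n) : Lop τ 0 = 0 := (LopL τ).map_zero
theorem Lop_neg (τ : Mat n) (f : Sm n) : Lop τ (-f) = -Lop τ f := (LopL τ).map_neg f
theorem Lop_sub (τ : Mat n) (f g : Sm n) : Lop τ (f - g) = Lop τ f - Lop τ g := (LopL τ).map_sub f g
theorem Lop_sum {ι : Type*} (τ : Mat n) (s : Finset ι) (f : ι → Sm n) :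
    Lop τ (∑ i ∈ s, f i) = ∑ i ∈ s, Lop τ (f i) := map_sum (LopL τ) f s
theorem Lop_cst (τ : Mat n) (c : ℝ) : Lop τ (cst c) = 0 := by simp [Lop, con, eul]
theorem Lop_one (τ : Mat n) : Lop τ 1 = 0 := by simp [Lop, con, eul]
theorem Lop_X (τ : Mat n) (a : Fin n) : Lop τ (X a) = -X a := by
  simp only [Lop, con, eul, pd_X]
  simp [apply_ite (pd _)]

theorem Top_add (τ : Mat n) (l : ℝ) (f g : Sm n) : Top τ l (f + g) = Top τ l f + Top τ l g := by
  simp only [Top, Lop_add, smul_add]; ring
theorem Top_smul (τ : Mat n) (l c : ℝ) (f : Sm n) : Top τ l (c • f) = c • Top τ l f := by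
  simp only [Top, Lop_smul, smul_add, smul_comm l c]
theorem Top_zero (τ : Mat n) (l : ℝ) : Top τ l 0 = 0 := by simp [Top, Lop_zero]
theorem Top_zero_eq (τ : Mat n) (f : Sm n) : Top τ 0 f = Lop τ f := by simp [Top]
theorem Top_sub_Top (τ τ' : Mat n) (l : ℝ) (f : Sm n) :
    Top τ' l f - Top τ l f = con (τ' - τ) f := by
  simp only [Top, Lop, con_sub_left]; ring

theorem gam_comm {τ : Mat n} (hτ : τᵀ = τ) (f h : Sm n) : gam τ f h = gam τ h f := by
  unfold gam
  rw [Finset.sum_comm]
  refine Finset.sum_congr rfl fun a _ => Finset.sum_congr rfl fun b _ => ?_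
  have : τ b a = τ a b := congrFun (congrFun hτ a) b
  rw [this]; ring

theorem Lop_mul' (τ : Mat n) (f h : Sm n) :
    Lop τ (f * h) = f * Lop τ h + h * Lop τ f + gam τ f h + gam τ h f := by
  have h1 : con τ (f * h) = f * con τ h + h * con τ f + gam τ f h + gam τ h f := by
    simp only [con, gam, pd_mul, map_add, Finset.mul_sum, ← Finset.sum_add_distrib]
    exact Finset.sum_congr rfl fun a _ => Finset.sum_congr rfl fun b _ => by ring
  have h2 : eul (f * h) = f * eul h + h * eul f := by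
    simp only [eul, pd_mul, Finset.mul_sum, ← Finset.sum_add_distrib]
    exact Finset.sum_congr rfl fun a _ => by ring
  simp only [Lop, h1, h2]; ring

theorem Lop_mul {τ : Mat n} (hτ : τᵀ = τ) (f h : Sm n) :
    Lop τ (f * h) = f * Lop τ h + h * Lop τ f + 2 * gam τ f h := by
  rw [Lop_mul', gam_comm hτ h f]; ring

theorem pd_eul (a : Fin n) (f : Sm n) : pd a (eul f) = eul (pd a f) + pd a f := by
  simp only [eul, map_sum, pd_mul, pd_X, Finset.sum_add_distrib, pd_comm a]
  simp [add_comm]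

theorem pd_con (a : Fin n) (M : Mat n) (f : Sm n) :
    pd a (con M f) = con M (pd a f) + con (pdM a M) f := by
  simp only [con, map_sum, pd_mul, pdM_apply, ← Finset.sum_add_distrib]
  refine Finset.sum_congr rfl fun b _ => Finset.sum_congr rfl fun c _ => ?_
  rw [pd_comm a b, pd_comm a c]; ring

theorem pd_Lop (a : Fin n) (τ : Mat n) (f : Sm n) :
    pd a (Lop τ f) = Lop τ (pd a f) - pd a f + con (pdM a τ) f := by
  simp only [Lop, map_sub, pd_con, pd_eul]; ring

theorem pd_Top (a : Fin n) (τ : Mat n) (l : ℝ) (f : Sm n) :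
    pd a (Top τ l f) = Top τ (l - 1) (pd a f) + con (pdM a τ) f := by
  simp only [Top, map_add, pd_Lop, Derivation.map_smul, sub_smul, one_smul]; ring

theorem ev_gam (x : E n) (τ : Mat n) (f h : Sm n) :
    ev x (gam τ f h) = (fun a => ev x (pd a f)) ⬝ᵥ (evM x τ *ᵥ fun b => ev x (pd b h)) := by
  simp only [gam, map_sum, map_mul, dotProduct, Matrix.mulVec, evM_apply, Finset.mul_sum]
  exact Finset.sum_congr rfl fun a _ => Finset.sum_congr rfl fun b _ => by ring

theorem Low.mono {c c' : ℝ} {M : Mat n} (h : Low c M) (hc : c' ≤ c) : Low c' M := fun x v =>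
  (mul_le_mul_of_nonneg_right hc (by
    simp only [dotProduct]; exact Finset.sum_nonneg fun a _ => mul_self_nonneg _)).trans (h x v)

theorem low_one : Low 1 (1 : Mat n) := fun x v => by simp [evM_one]

protected theorem Low.gam {c : ℝ} {τ : Mat n} (h : Low c τ) (f : Sm n) (x : E n) :
    c * ∑ a, ev x (pd a f) ^ 2 ≤ ev x (gam τ f f) := by
  rw [ev_gam]
  have := h x fun a => ev x (pd a f)
  simpa [dotProduct, sq] using this

end Crest.Agent.R238
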