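import Crest.Agent.R238.BernF

/-!
# Row 238: decay of the third derivatives
-/

set_option autoImplicit false
open MeasureTheory Matrix
open scoped ContDiff BigOperators

noncomputable section
namespace Crest.Agent.R238

variable {n : ℕ}

/-- The pointwise inequality for `L p`. -/
theorem bern1_p {c K C0 C1 N s a0 a1 b0 F p v L : ℝ} (hK : 0 ≤ K) (hC0 : 0 ≤ C0) (hC1 : 0 ≤ C1)
    (hs : 0 ≤ s) (ha0 : 0 ≤ a0) (ha0' : a0 ≤ K * s) (hb0 : b0 ≤ K * s) (hp : 0 ≤ p) (hv : 0 ≤ v)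
    (hF : F ≤ C1 * a1 ^ 2) (ha1 : a1 ^ 2 ≤ N * v) (hN : 0 ≤ N) (hsm : C0 * K * C1 * N * s ≤ c)
    (hL : 2 * c * v + 2 * p - C0 * (a0 * (b0 + F)) ≤ L) :
    c * v - C0 * K ^ 2 * s ^ 2 ≤ L := by
  have h1 : b0 + F ≤ K * s + C1 * (N * v) :=
    add_le_add hb0 (hF.trans (mul_le_mul_of_nonneg_left ha1 hC1))
  have h2 : a0 * (b0 + F) ≤ K * s * (K * s + C1 * (N * v)) :=
    (mul_le_mul_of_nonneg_left h1 ha0).trans (mul_le_mul_of_nonneg_right ha0' (by positivity))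
  have h3 := mul_le_mul_of_nonneg_left h2 hC0
  have h4 := mul_le_mul_of_nonneg_right hsm hv
  nlinarith

/-- The pointwise inequality for `L v`. -/
theorem bern1_v {c K C2 C3 N N' t a1 a2 b1 F v z L : ℝ} (hc : 0 < c) (hC2 : 0 ≤ C2) (hC3 : 0 ≤ C3)
    (ha1 : 0 ≤ a1) (hb1 : b1 ≤ K * t) (hv : 0 ≤ v) (hz : 0 ≤ z)
    (hF : F ≤ C3 * (a1 * a2 + a1 ^ 3)) (ha1' : a1 ^ 2 ≤ N * v) (ha2' : a2 ^ 2 ≤ N' * z)
    (hN : 0 ≤ N) (hN' : 0 ≤ N')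
    (hL : 2 * c * z + 4 * v - C2 * (a1 * (b1 + F)) ≤ L) :
    15 / 4 * v - N * (C2 * C3 + (C2 * C3) ^ 2 * (N' + 1) / (8 * c)) * a1 ^ 2 * v
      - (N + 1) * C2 ^ 2 * K ^ 2 * t ^ 2 ≤ L := by
  have h1 : C2 * (a1 * (b1 + F)) ≤ C2 * (a1 * (K * t + C3 * (a1 * a2 + a1 ^ 3))) :=
    mul_le_mul_of_nonneg_left (mul_le_mul_of_nonneg_left (add_le_add hb1 hF) ha1) hC2
  have h2 : C2 * a1 * (K * t) ≤ v / 4 + (N + 1) * C2 ^ 2 * K ^ 2 * t ^ 2 := by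
    have h3 : (N + 1) * (C2 * a1 * (K * t)) ≤
        (N + 1) * (v / 4 + (N + 1) * C2 ^ 2 * K ^ 2 * t ^ 2) := by
      nlinarith [sq_nonneg (a1 / 2 - (N + 1) * (C2 * (K * t)))]
    exact le_of_mul_le_mul_left h3 (by linarith)
  have h4 : C2 * C3 * a1 ^ 2 * a2 ≤ 2 * c * z + (C2 * C3) ^ 2 * (N' + 1) / (8 * c) * a1 ^ 4 := by
    have h5 : (8 * c * (N' + 1)) * (C2 * C3 * a1 ^ 2 * a2) ≤ (8 * c * (N' + 1)) *
        (2 * c * z + (C2 * C3) ^ 2 * (N' + 1) / (8 * c) * a1 ^ 4) := by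
      have e : (8 * c * (N' + 1)) * (2 * c * z + (C2 * C3) ^ 2 * (N' + 1) / (8 * c) * a1 ^ 4) =
          16 * c ^ 2 * ((N' + 1) * z) + ((N' + 1) * (C2 * C3 * a1 ^ 2)) ^ 2 := by
        field_simp
        ring
      have h6 : 16 * c ^ 2 * a2 ^ 2 ≤ 16 * c ^ 2 * ((N' + 1) * z) :=
        mul_le_mul_of_nonneg_left (by nlinarith) (by positivity)
      rw [e]
      nlinarith [sq_nonneg (4 * c * a2 - (N' + 1) * (C2 * C3 * a1 ^ 2))]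
    exact le_of_mul_le_mul_left h5 (by positivity)
  have h7 : a1 ^ 4 ≤ a1 ^ 2 * (N * v) := by
    rw [show a1 ^ 4 = a1 ^ 2 * a1 ^ 2 by ring]
    exact mul_le_mul_of_nonneg_left ha1' (by positivity)
  have h8 := mul_le_mul_of_nonneg_left h7
    (show 0 ≤ C2 * C3 + (C2 * C3) ^ 2 * (N' + 1) / (8 * c) by positivity)
  nlinarith

theorem bern1_aux (n : ℕ) {c : ℝ} (hc : 0 < c) {K : ℝ} (hK : 0 ≤ K) :
    ∃ C, 0 ≤ C ∧ ∀ D : KE n, Ell c K D.τ →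
    (∀ x, d 2 D.ζ x ≤ K * r x ^ (-1 / 2 : ℝ)) → (∀ x, d 3 D.ζ x ≤ K) →
    (∀ x, d 2 D.V x ≤ K * r x ^ (-1 / 2 : ℝ)) → (∀ x, d 3 D.V x ≤ K * r x ^ (-3 / 2 : ℝ)) →
    ∀ x, d 3 D.ζ x ≤ C * r x ^ (-3 / 2 : ℝ) := by
  obtain ⟨C0, hC0, H0⟩ := Lq_KE 0
  obtain ⟨C2, hC2, H2⟩ := Lq_KE 1
  obtain ⟨C1, hC1, H1⟩ := F_zero_le ((n : ℝ) ^ 2 * K)
  obtain ⟨C3, hC3, H3⟩ := F_one_le ((n : ℝ) ^ 2 * K)
  set N : ℝ := (n : ℝ) ^ 3 with hNdef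
  set N' : ℝ := (n : ℝ) ^ 4 with hN'def
  have hN : 0 ≤ N := by positivity
  have hN' : 0 ≤ N' := by positivity
  set C4 : ℝ := N * (C2 * C3 + (C2 * C3) ^ 2 * (N' + 1) / (8 * c)) with hC4def
  set C5 : ℝ := (N + 1) * C2 ^ 2 * K ^ 2 with hC5def
  have hC4 : 0 ≤ C4 := by positivity
  have hC5 : 0 ≤ C5 := by positivity
  obtain ⟨R, hR⟩ := maxP_rpow (p := 1 / 2) (by norm_num) (C0 * K * C1 * N / c)
  obtain ⟨CA, hCA, HA⟩ := bern_A n hc (K + K ^ 2 + C0 * K ^ 2 + C4 * K ^ 2 + C5) R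
    (α := 1) one_pos
  obtain ⟨CB, hCB, HB⟩ := bern_B n (K + K ^ 2 + C4 * (N * CA) + C5) (α := 3) (β := 1)
    (κ := 15 / 4) (by norm_num) one_pos (by norm_num)
  refine ⟨Real.sqrt (N * CB), Real.sqrt_nonneg _, fun D hE h2 h3 hV2 hV3 => ?_⟩
  have e1 : ∀ x : E n, r x ^ (-(1 : ℝ)) = (r x ^ (-1 / 2 : ℝ)) ^ 2 := fun x => by
    rw [sq, ← r_rpow_add]; norm_num
  have e3 : ∀ x : E n, r x ^ (-(3 : ℝ)) = (r x ^ (-3 / 2 : ℝ)) ^ 2 := fun x => by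
    rw [sq, ← r_rpow_add]; norm_num
  have hK2 : 0 ≤ K ^ 2 := by positivity
  have hC0K : 0 ≤ C0 * K ^ 2 := by positivity
  have hC4K : 0 ≤ C4 * K ^ 2 := by positivity
  have hC4A : 0 ≤ C4 * (N * CA) := by positivity
  have hsp : Sym (-7 / 4) (q 2 D.ζ) := (D.symζ.q 2).mono (by norm_num)
  have hsv : Sym (-7 / 4) (q 3 D.ζ) := (D.symζ.q 3).mono (by norm_num)
  have ha1K : ∀ x, d 3 D.ζ x ^ 2 ≤ K ^ 2 := fun x => pow_le_pow_left₀ (d_nonneg _ _ _) (h3 x) 2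
  have hvK : ∀ x, ev x (q 3 D.ζ) ≤ K ^ 2 := fun x => (q_le_d_sq 3 _ x).trans (ha1K x)
  have hLv : ∀ x, 15 / 4 * ev x (q 3 D.ζ) - C4 * d 3 D.ζ x ^ 2 * ev x (q 3 D.ζ)
      - C5 * r x ^ (-(3 : ℝ)) ≤ ev x (Lop D.τ (q 3 D.ζ)) := fun x => by
    have hL := H2 D c x hE.low
    rw [e3]
    refine bern1_v hc hC2 hC3 (d_nonneg _ _ _) (hV3 x) (q_nonneg _ _ _) (q_nonneg 4 D.ζ x)
      (H3 D x (hE.dM_zero_le x)) (d_sq_le_q 3 _ x) (d_sq_le_q 4 _ x) hN hN' ?_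
    refine le_of_eq_of_le ?_ hL
    norm_num
  have hA : ∀ x, ev x (q 3 D.ζ) ≤ CA * r x ^ (-(1 : ℝ)) := by
    refine HA D.τ (q 2 D.ζ) (q 3 D.ζ) (-7 / 4) (hE.mono hc.le (by linarith)) hsp hsv (by norm_num)
      (q_nonneg _ _) (fun x => ?_) (q_nonneg _ _) (fun x => (hvK x).trans (by linarith))
      (fun x hx => ?_) (fun x => ?_)
    · refine (q_le_d_sq 2 _ x).trans ((pow_le_pow_left₀ (d_nonneg _ _ _) (h2 x) 2).trans ?_)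
      rw [mul_pow, e1]
      exact mul_le_mul_of_nonneg_right (by linarith) (sq_nonneg _)
    · have hL := H0 D c x hE.low
      have hsm : C0 * K * C1 * N * r x ^ (-1 / 2 : ℝ) ≤ c := by
        have h5 := (div_le_iff₀ hc).1 (hR _ hx)
        have h6 : r x ^ (1 / 2 : ℝ) * r x ^ (-1 / 2 : ℝ) = 1 := by
          rw [← r_rpow_add]; norm_num
        calc C0 * K * C1 * N * r x ^ (-1 / 2 : ℝ) ≤ r x ^ (1 / 2 : ℝ) * c * r x ^ (-1 / 2 : ℝ) :=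
              mul_le_mul_of_nonneg_right h5 (r_rpow_pos x _).le
          _ = c := by rw [mul_right_comm, h6, one_mul]
      have h7 := bern1_p (L := ev x (Lop D.τ (q 2 D.ζ))) hK hC0 hC1 (r_rpow_pos x _).le
        (d_nonneg 2 D.ζ x) (h2 x) (hV2 x)
        (q_nonneg 2 D.ζ x) (q_nonneg 3 D.ζ x) (H1 D x (hE.dM_zero_le x)) (d_sq_le_q 3 _ x) hN hsm
        (le_of_eq_of_le (by norm_num) hL)
      rw [← e1] at h7
      refine le_trans ?_ h7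
      have := mul_le_mul_of_nonneg_right
        (show C0 * K ^ 2 ≤ K + K ^ 2 + C0 * K ^ 2 + C4 * K ^ 2 + C5 by linarith)
        (r_rpow_pos x (-(1 : ℝ))).le
      linarith
    · refine le_trans ?_ (hLv x)
      have hv := q_nonneg 3 D.ζ x
      have h5 : C4 * d 3 D.ζ x ^ 2 * ev x (q 3 D.ζ) ≤
          (K + K ^ 2 + C0 * K ^ 2 + C4 * K ^ 2 + C5) * ev x (q 3 D.ζ) :=
        mul_le_mul_of_nonneg_right
          ((mul_le_mul_of_nonneg_left (ha1K x) hC4).trans (by linarith)) hv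
      have h6 : C5 * r x ^ (-(3 : ℝ)) ≤
          (K + K ^ 2 + C0 * K ^ 2 + C4 * K ^ 2 + C5) * r x ^ (-(1 : ℝ)) :=
        mul_le_mul (by linarith) (r_rpow_mono x (by norm_num)) (r_rpow_pos x _).le (by linarith)
      linarith
  have hB : ∀ x, ev x (q 3 D.ζ) ≤ CB * r x ^ (-(3 : ℝ)) := by
    refine HB D.τ (q 3 D.ζ) (-7 / 4) (hE.mono hc.le (by linarith)) hsv (by norm_num)
      (q_nonneg _ _) (fun x => (hvK x).trans (by linarith)) (fun x => ?_)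
    refine le_trans ?_ (hLv x)
    have hv := q_nonneg 3 D.ζ x
    have h4 : d 3 D.ζ x ^ 2 ≤ N * CA * r x ^ (-(1 : ℝ)) := by
      rw [mul_assoc]
      exact (d_sq_le_q 3 _ x).trans (mul_le_mul_of_nonneg_left (hA x) hN)
    have h5 : C4 * d 3 D.ζ x ^ 2 * ev x (q 3 D.ζ) ≤
        (K + K ^ 2 + C4 * (N * CA) + C5) * r x ^ (-(1 : ℝ)) * ev x (q 3 D.ζ) := by
      refine mul_le_mul_of_nonneg_right ((mul_le_mul_of_nonneg_left h4 hC4).trans ?_) hv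
      rw [← mul_assoc]
      exact mul_le_mul_of_nonneg_right (by linarith) (r_rpow_pos x _).le
    have h6 : C5 * r x ^ (-(3 : ℝ)) ≤ (K + K ^ 2 + C4 * (N * CA) + C5) * r x ^ (-(3 : ℝ)) :=
      mul_le_mul_of_nonneg_right (by linarith) (r_rpow_pos x _).le
    linarith
  intro x
  refine (pow_le_pow_iff_left₀ (d_nonneg _ _ _)
    (mul_nonneg (Real.sqrt_nonneg _) (r_rpow_pos x _).le) two_ne_zero).1 ?_
  rw [mul_pow, Real.sq_sqrt (by positivity), ← e3, mul_assoc]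
  exact (d_sq_le_q 3 _ x).trans (mul_le_mul_of_nonneg_left (hB x) hN)

/-- `p = q 2 ζ`, `v = q 3 ζ`, `z = q 4 ζ` (symbols of order `-7/4`), `q ≤ d² ≤ n^k q`.
`Lq_KE 0`, `F_zero_le`: `L p ≥ 2c v - C r^{-1} - C r^{-1/2} v ≥ c v - C r^{-1}` for `r ≥ R`.
`Lq_KE 1`, `F_one_le`: `L v ≥ 2c z + 4 v - C a₁(d₃V + a₁a₂ + a₁³) ≥ (15/4) v - C a₁² v - C r^{-3}`.
`bern_A` (`α = 1`, `a₁ ≤ K`) gives `a₁² ≤ C r^{-1}`; then `bern_B` (`α = 3`, `β = 1`, `κ = 15/4`). -/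
theorem bern_one (n : ℕ) {c : ℝ} (hc : 0 < c) (K : ℝ) : ∃ C, 0 ≤ C ∧ ∀ D : KE n, Ell c K D.τ →
    (∀ x, d 2 D.ζ x ≤ K * r x ^ (-1 / 2 : ℝ)) → (∀ x, d 3 D.ζ x ≤ K) →
    (∀ x, d 2 D.V x ≤ K * r x ^ (-1 / 2 : ℝ)) → (∀ x, d 3 D.V x ≤ K * r x ^ (-3 / 2 : ℝ)) →
    ∀ x, d 3 D.ζ x ≤ C * r x ^ (-3 / 2 : ℝ) := by
  obtain ⟨C, hC, H⟩ := bern1_aux n hc (abs_nonneg K)
  have hK := le_abs_self K
  refine ⟨C, hC, fun D hE h2 h3 hV2 hV3 => H D (hE.mono le_rfl hK) (fun x => (h2 x).trans ?_)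
    (fun x => (h3 x).trans hK) (fun x => (hV2 x).trans ?_) (fun x => (hV3 x).trans ?_)⟩ <;>
  exact mul_le_mul_of_nonneg_right hK (r_rpow_pos x _).le

end Crest.Agent.R238
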