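import Crest.Agent.R238.BernF

/-!
# Row 238: decay of the higher derivatives
-/

set_option autoImplicit false
open MeasureTheory Matrix
open scoped ContDiff BigOperators

noncomputable section
namespace Crest.Agent.R238

variable {n : ℕ}

theorem bs_young {X a b : ℝ} (ha : 0 ≤ a) (hb : 0 ≤ b) (h : X ^ 2 ≤ a * b) : X ≤ a + b :=
  abs_le_abs_iff_aux (h.trans (by nlinarith [mul_nonneg ha hb, sq_nonneg a, sq_nonneg b]))
    (add_nonneg ha hb)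

theorem bs_young' {E s A N v c : ℝ} (hc : 0 < c) (hN : 0 ≤ N) (hv : 0 ≤ v)
    (hA : A ^ 2 ≤ N * v) : E * s * A ≤ c * v + E ^ 2 * N / c * s ^ 2 := by
  refine bs_young (by positivity) (by positivity) ?_
  have h1 : c * v * (E ^ 2 * N / c * s ^ 2) = (E * s) ^ 2 * (N * v) := by
    field_simp
  rw [h1, mul_pow (E * s)]
  exact mul_le_mul_of_nonneg_left hA (sq_nonneg _)

theorem bs_p {c K C1 C3 N v p A0 A V F s s' L m : ℝ} (hc : 0 < c) (hK : 0 ≤ K) (hC1 : 0 ≤ C1)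
    (hC3 : 0 ≤ C3) (hN : 0 ≤ N) (hv : 0 ≤ v) (hp : 0 ≤ p) (hm : 0 ≤ m) (hA0 : 0 ≤ A0)
    (hA' : 0 ≤ A) (hs' : 0 ≤ s') (hss : s ≤ s') (hA : A ^ 2 ≤ N * v) (h0 : A0 ≤ K * s')
    (hV : V ≤ K * s') (hF : F ≤ C3 * (A + s))
    (hL : 2 * c * v + m * p - C1 * (A0 * (V + F)) ≤ L) :
    c * v - (C1 * K * (K + C3) + (C1 * K * C3) ^ 2 * N / c) * s' ^ 2 ≤ L := by
  have h1 : V + F ≤ K * s' + C3 * (A + s') := by
    have := mul_le_mul_of_nonneg_left hss hC3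
    linarith
  have h2 : A0 * (V + F) ≤ K * s' * (K * s' + C3 * (A + s')) :=
    (mul_le_mul_of_nonneg_left h1 hA0).trans (mul_le_mul_of_nonneg_right h0 (by positivity))
  have h3 := mul_le_mul_of_nonneg_left h2 hC1
  have h4 := bs_young' (E := C1 * K * C3) (s := s') hc hN hv hA
  have h5 := mul_nonneg hm hp
  have h6 : C1 * (K * s' * (K * s' + C3 * (A + s')))
      = C1 * K * (K + C3) * s' ^ 2 + C1 * K * C3 * s' * A := by ring
  linarith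

theorem bs_v {c K C2 C3 N z A B V F s w L T : ℝ} (hc : 0 < c) (hK : 0 ≤ K) (hC2 : 0 ≤ C2)
    (hC3 : 0 ≤ C3) (hN : 0 ≤ N) (hz : 0 ≤ z) (hA : 0 ≤ A) (hs : 0 ≤ s) (hw : 0 ≤ w) (hw1 : w ≤ 1)
    (hB : B ^ 2 ≤ N * z) (hV : V ≤ K * s) (hF : F ≤ C3 * (w * B + A ^ 2 + w * A + s))
    (hL : 2 * c * z + T - C2 * (A * (V + F)) ≤ L) :
    c * z + T - ((C2 * C3) ^ 2 * N / c + C2 * C3 + C2 * K) * (w * A ^ 2 + A ^ 3 + A * s) ≤ L := by
  have h1 : A * (V + F) ≤ A * (K * s + C3 * (w * B + A ^ 2 + w * A + s)) :=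
    mul_le_mul_of_nonneg_left (add_le_add hV hF) hA
  have h3 := mul_le_mul_of_nonneg_left h1 hC2
  have h4 := bs_young' (E := C2 * C3) (s := w * A) hc hN hz hB
  have h5 : (w * A) ^ 2 ≤ w * A ^ 2 := by
    rw [mul_pow]; exact mul_le_mul_of_nonneg_right (by nlinarith) (sq_nonneg _)
  have hG : 0 ≤ (C2 * C3) ^ 2 * N / c := by positivity
  set G := (C2 * C3) ^ 2 * N / c
  have h6 := mul_le_mul_of_nonneg_left h5 hG
  have h7 : 0 ≤ G * (A ^ 3 + A * s) := by positivity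
  have h8 : 0 ≤ C2 * K * (w * A ^ 2 + A ^ 3) := by positivity
  have h9 : C2 * (A * (K * s + C3 * (w * B + A ^ 2 + w * A + s)))
      = C2 * C3 * (w * A) * B + C2 * C3 * (w * A ^ 2 + A ^ 3 + A * s) + C2 * K * (A * s) := by ring
  have h10 : (G + C2 * C3 + C2 * K) * (w * A ^ 2 + A ^ 3 + A * s)
      = G * (w * A ^ 2) + G * (A ^ 3 + A * s) + C2 * C3 * (w * A ^ 2 + A ^ 3 + A * s)
        + C2 * K * (w * A ^ 2 + A ^ 3) + C2 * K * (A * s) := by ring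
  linarith

theorem bs_pt (n : ℕ) {c : ℝ} (hc : 0 < c) {K : ℝ} (hK : 0 ≤ K) {k : ℕ} (hk : 1 ≤ k) :
    ∃ P G : ℝ, 0 ≤ P ∧ 0 ≤ G ∧ ∀ (D : KE n) (x : E n), Low c D.τ → dM 0 D.τ x ≤ K →
    (∀ i < k + 1, d (i + 2) D.ζ x ≤ K * r x ^ (-1 / 2 - (i : ℝ))) →
    (∀ i ≤ k + 1, d (i + 2) D.V x ≤ K * r x ^ (-1 / 2 - (i : ℝ))) →
    c * ev x (q (k + 3) D.ζ) - P * (r x ^ (-1 / 2 - (k : ℝ))) ^ 2
        ≤ ev x (Lop D.τ (q (k + 2) D.ζ)) ∧
      c * ev x (q (k + 4) D.ζ) + 2 * ((k : ℝ) + 2) * ev x (q (k + 3) D.ζ)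
        - G * (r x ^ (-1 : ℝ) * d (k + 3) D.ζ x ^ 2 + d (k + 3) D.ζ x ^ 3
          + d (k + 3) D.ζ x * r x ^ (-3 / 2 - (k : ℝ))) ≤ ev x (Lop D.τ (q (k + 3) D.ζ)) := by
  obtain ⟨C1, hC1, h1⟩ := Lq_KE k
  obtain ⟨C2, hC2, h2⟩ := Lq_KE (k + 1)
  obtain ⟨C3, hC3, h3⟩ := F_le K (l := k + 1) (by omega)
  refine ⟨C1 * K * (K + C3) + (C1 * K * C3) ^ 2 * (n : ℝ) ^ (k + 3) / c,
    (C2 * C3) ^ 2 * (n : ℝ) ^ (k + 4) / c + C2 * C3 + C2 * K, by positivity, by positivity,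
    fun D x hlow hτ hζ hV => ?_⟩
  obtain ⟨hF1, hF0⟩ := h3 D x hτ hζ
  have he : (-1 / 2 - ((k + 1 : ℕ) : ℝ)) = -3 / 2 - (k : ℝ) := by push_cast; ring
  have hV1 := hV (k + 1) le_rfl
  rw [he] at hF1 hF0 hV1
  rw [Nat.add_sub_cancel] at hF0
  constructor
  · exact bs_p (m := 2 * ((k : ℝ) + 1)) hc hK hC1 hC3 (by positivity) (q_nonneg _ _ _)
      (q_nonneg _ _ _) (by positivity) (d_nonneg _ _ _) (d_nonneg _ _ _) (r_rpow_pos _ _).le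
      (r_rpow_mono x (by linarith)) (d_sq_le_q (k + 3) D.ζ x) (hζ k (by omega)) (hV k (by omega))
      hF0 (h1 D c x hlow)
  · have h4 := h2 D c x hlow
    have he2 : (((k + 1 : ℕ) : ℝ) + 1) = (k : ℝ) + 2 := by push_cast; ring
    rw [he2] at h4
    exact bs_v hc hK hC2 hC3 (by positivity) (q_nonneg _ _ _) (d_nonneg _ _ _) (r_rpow_pos _ _).le
      (r_rpow_pos _ _).le (r_rpow_le_one x (by norm_num)) (d_sq_le_q (k + 4) D.ζ x) hV1 hF1 h4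

theorem bs_le_sqrt {A N v : ℝ} (hN : 0 ≤ N) (hv : 0 ≤ v) (h : A ^ 2 ≤ N * v) :
    A ≤ Real.sqrt N * Real.sqrt v := by
  rw [← Real.sqrt_mul hN]
  exact Real.le_sqrt_of_sq_le h

theorem bs_U {N v A w s : ℝ} (hN : 0 ≤ N) (hv : 0 ≤ v) (hA : 0 ≤ A) (hw1 : w ≤ 1)
    (hs1 : s ≤ 1) (h : A ^ 2 ≤ N * v) :
    w * A ^ 2 + A ^ 3 + A * s ≤ 3 * (1 + Real.sqrt N ^ 3) * (1 + v * Real.sqrt v) := by
  have h1 := bs_le_sqrt hN hv h
  have hu := Real.sqrt_nonneg v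
  have hM := Real.sqrt_nonneg N
  have h2 : v * Real.sqrt v = Real.sqrt v ^ 3 := by
    conv_lhs => rw [← Real.sq_sqrt hv]
    rw [Real.sqrt_sq hu]; ring
  rw [h2]
  set u := Real.sqrt v
  set M := Real.sqrt N
  have h3 : A ^ 3 ≤ (M * u) ^ 3 := pow_le_pow_left₀ hA h1 3
  have h4 : w * A ^ 2 ≤ A ^ 2 := by nlinarith [sq_nonneg A]
  have h5 : A * s ≤ A := by nlinarith
  have h6 : A ^ 2 ≤ 1 + A ^ 3 := by nlinarith [sq_nonneg (A - 1), mul_nonneg hA (sq_nonneg (A - 1))]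
  have h7 : A ≤ 1 + A ^ 3 := by nlinarith [sq_nonneg (A - 1), mul_nonneg hA (sq_nonneg (A - 1))]
  have h8 : 0 ≤ M ^ 3 := by positivity
  have h9 : 0 ≤ u ^ 3 := by positivity
  have h10 : 3 * (1 + M ^ 3) * (1 + u ^ 3) = 3 + 3 * M ^ 3 + 3 * u ^ 3 + 3 * (M * u) ^ 3 := by ring
  linarith

theorem bs_A {N v A w s T ρ : ℝ} (hN : 0 ≤ N) (hv : 0 ≤ v) (hA : 0 ≤ A) (hw1 : w ≤ 1)
    (hT : A ≤ T) (hρ : s ^ 2 ≤ ρ) (h : A ^ 2 ≤ N * v) :
    w * A ^ 2 + A ^ 3 + A * s ≤ (2 + T) * N * v + ρ := by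
  have h4 : w * A ^ 2 ≤ A ^ 2 := by nlinarith [sq_nonneg A]
  have h5 : A * s ≤ A ^ 2 + s ^ 2 := by nlinarith [sq_nonneg (A - s), sq_nonneg A, sq_nonneg s]
  have h6 : A ^ 3 ≤ T * A ^ 2 := by nlinarith [sq_nonneg A]
  have h7 := mul_le_mul_of_nonneg_left h (hA.trans hT)
  nlinarith

theorem bs_B {G N v A w s T : ℝ} (hG : 0 ≤ G) (hN : 0 ≤ N) (hv : 0 ≤ v) (hA : 0 ≤ A) (hw : 0 ≤ w)
    (hT0 : 0 ≤ T) (hT : A ≤ T * w) (h : A ^ 2 ≤ N * v) :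
    G * (w * A ^ 2 + A ^ 3 + A * s) ≤
      1 / 4 * v + G * (1 + T) * N * w * v + G ^ 2 * N / (1 / 4) * s ^ 2 := by
  have h1 := bs_young' (E := G) (s := s) (c := 1 / 4) (by norm_num) hN hv h
  have h6 : A ^ 3 ≤ T * w * A ^ 2 := by nlinarith [sq_nonneg A]
  have h7 := mul_le_mul_of_nonneg_left h (show 0 ≤ (1 + T) * w by positivity)
  have h8 : w * A ^ 2 + A ^ 3 ≤ (1 + T) * w * (N * v) := by nlinarith
  have h9 := mul_le_mul_of_nonneg_left h8 hG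
  have h10 : G * (w * A ^ 2 + A ^ 3 + A * s) = G * (w * A ^ 2 + A ^ 3) + G * s * A := by ring
  have h11 : G * ((1 + T) * w * (N * v)) = G * (1 + T) * N * w * v := by ring
  linarith

theorem bs_rsq (x : E n) (s : ℝ) : (r x ^ s) ^ 2 = r x ^ (2 * s) := by
  rw [sq, ← r_rpow_add]; congr 1; ring

theorem bs_main (n : ℕ) {c : ℝ} (hc : 0 < c) {K : ℝ} (hK : 0 ≤ K) {k : ℕ} (hk : 1 ≤ k) :
    ∃ C, 0 ≤ C ∧ ∀ D : KE n, Ell c K D.τ → (∀ x, dM 0 D.τ x ≤ K) →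
    (∀ i < k + 1, ∀ x, d (i + 2) D.ζ x ≤ K * r x ^ (-1 / 2 - (i : ℝ))) →
    (∀ i ≤ k + 1, ∀ x, d (i + 2) D.V x ≤ K * r x ^ (-1 / 2 - (i : ℝ))) →
    ∀ x, d (k + 3) D.ζ x ≤ C * r x ^ (-3 / 2 - (k : ℝ)) := by
  obtain ⟨P, G, hP, hG, hpt⟩ := bs_pt n hc hK hk
  have hk' : (1 : ℝ) ≤ k := by exact_mod_cast hk
  obtain ⟨N, hN⟩ : ∃ N : ℝ, N = (n : ℝ) ^ (k + 3) := ⟨_, rfl⟩
  obtain ⟨N', hN'⟩ : ∃ N : ℝ, N = (n : ℝ) ^ (k + 4) := ⟨_, rfl⟩
  have hN0 : 0 ≤ N := by rw [hN]; positivity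
  have hN0' : 0 ≤ N' := by rw [hN']; positivity
  obtain ⟨a1, ha1⟩ : ∃ a : ℝ, a = G * (3 * (1 + Real.sqrt N ^ 3)) := ⟨_, rfl⟩
  obtain ⟨a2, ha2⟩ : ∃ a : ℝ, a = 4 * (n : ℝ) ^ 2 * K * (K * N * Real.sqrt N') := ⟨_, rfl⟩
  have ha10 : 0 ≤ a1 := by rw [ha1]; positivity
  have ha20 : 0 ≤ a2 := by rw [ha2]; positivity
  have hK2 : 0 ≤ K ^ 2 := sq_nonneg K
  obtain ⟨CU, hCU, hU⟩ := bern_U hc (K + K ^ 2 + P + a1 + a2)
  obtain ⟨a3, ha3⟩ : ∃ a : ℝ, a = G * ((2 + Real.sqrt N * Real.sqrt CU) * N) := ⟨_, rfl⟩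
  have ha30 : 0 ≤ a3 := by rw [ha3]; positivity
  obtain ⟨CA, hCA, hA⟩ := bern_A n hc (K + K ^ 2 + P + CU + G + a3) 0 (α := 2 * k + 1)
    (by positivity)
  obtain ⟨a4, ha4⟩ : ∃ a : ℝ, a = G * (1 + Real.sqrt (N * CA)) * N := ⟨_, rfl⟩
  obtain ⟨a5, ha5⟩ : ∃ a : ℝ, a = G ^ 2 * N / (1 / 4) := ⟨_, rfl⟩
  have ha40 : 0 ≤ a4 := by rw [ha4]; positivity
  have ha50 : 0 ≤ a5 := by rw [ha5]; positivity
  obtain ⟨CB, hCB, hB⟩ := bern_B n (K + CU + a4 + a5) (α := 2 * k + 3) (β := 1)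
    (κ := 2 * k + 15 / 4) (by positivity) one_pos (by linarith)
  refine ⟨Real.sqrt (N * CB), Real.sqrt_nonneg _, fun D hτ hτ0 hζ hV => ?_⟩
  have hL := fun x => hpt D x hτ.low (hτ0 x) (fun i hi => hζ i hi x) (fun i hi => hV i hi x)
  have hsp : Sym (-1) (q (k + 2) D.ζ) := (D.symζ.q (k + 2)).mono (by push_cast; linarith)
  have hsv : Sym (-1) (q (k + 3) D.ζ) := (D.symζ.q (k + 3)).mono (by push_cast; linarith)
  have hAv : ∀ x, d (k + 3) D.ζ x ^ 2 ≤ N * ev x (q (k + 3) D.ζ) := fun x => by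
    rw [hN]; exact d_sq_le_q _ _ _
  have hBz : ∀ x, d (k + 4) D.ζ x ^ 2 ≤ N' * ev x (q (k + 4) D.ζ) := fun x => by
    rw [hN']; exact d_sq_le_q _ _ _
  have hs' : ∀ x : E n, (r x ^ (-1 / 2 - (k : ℝ))) ^ 2 = r x ^ (-(2 * (k : ℝ) + 1)) := fun x => by
    rw [bs_rsq]; congr 1; ring
  have hs : ∀ x : E n, (r x ^ (-3 / 2 - (k : ℝ))) ^ 2 = r x ^ (-(2 * (k : ℝ) + 3)) := fun x => by
    rw [bs_rsq]; congr 1; ring
  have hρ1 : ∀ x : E n, r x ^ (-(2 * (k : ℝ) + 1)) ≤ 1 := fun x => r_rpow_le_one x (by linarith)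
  have hp : ∀ x, ev x (q (k + 2) D.ζ) ≤ K ^ 2 * r x ^ (-(2 * (k : ℝ) + 1)) := fun x => by
    refine (q_le_d_sq _ _ _).trans ?_
    rw [← hs', ← mul_pow]
    exact pow_le_pow_left₀ (d_nonneg _ _ _) (hζ k (by omega) x) 2
  have hT : ∀ x, 0 ≤ 2 * ((k : ℝ) + 2) * ev x (q (k + 3) D.ζ) := fun x =>
    mul_nonneg (by positivity) (q_nonneg _ _ _)
  have hz : ∀ x, 0 ≤ c * ev x (q (k + 4) D.ζ) := fun x => mul_nonneg hc.le (q_nonneg _ _ _)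
  -- (U)
  have hvU : ∀ x, ev x (q (k + 3) D.ζ) ≤ CU := by
    refine hU D.τ (q (k + 2) D.ζ) (q (k + 3) D.ζ) (fun x => ev x (q (k + 4) D.ζ)) (-1)
      (hτ.mono hc.le (by linarith)) hsp hsv (by norm_num) (fun x => q_nonneg _ _ _)
      (fun x => ?_) (fun x => q_nonneg _ _ _) (fun x => q_nonneg _ _ _) (fun x => ?_)
      (fun x => ?_) (fun x => ?_)
    · have h1 := mul_le_mul_of_nonneg_left (hρ1 x) hK2
      have h2 := hp x
      linarith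
    · have h1 := (hL x).1
      rw [hs'] at h1
      have h2 := mul_le_mul_of_nonneg_left (hρ1 x) hP
      linarith
    · have h1 := (hL x).2
      have h2 := bs_U hN0 (q_nonneg _ _ _) (d_nonneg _ _ _)
        (r_rpow_le_one x (show (-1 : ℝ) ≤ 0 by norm_num))
        (r_rpow_le_one x (show -3 / 2 - (k : ℝ) ≤ 0 by linarith)) (hAv x)
      have h3 := mul_le_mul_of_nonneg_left h2 hG
      rw [← mul_assoc, ← ha1] at h3
      have h4 : 0 ≤ 1 + ev x (q (k + 3) D.ζ) * Real.sqrt (ev x (q (k + 3) D.ζ)) := by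
        have := q_nonneg (k + 3) D.ζ x
        positivity
      have h5 := mul_le_mul_of_nonneg_right
        (show a1 ≤ K + K ^ 2 + P + a1 + a2 by linarith) h4
      have h6 := hT x
      linarith
    · have h1 := (abs_le.1 (abs_gam_q_le hτ (k + 2) (k + 3) D.ζ D.ζ x)).1
      have h2 : d (k + 2) D.ζ x ≤ K := by
        have h := hζ k (by omega) x
        have h' := mul_le_mul_of_nonneg_left
          (r_rpow_le_one x (show -1 / 2 - (k : ℝ) ≤ 0 by linarith)) hK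
        linarith
      have h3 := bs_le_sqrt hN0' (q_nonneg _ _ _) (hBz x)
      have hv0 := q_nonneg (k + 3) D.ζ x
      have h4 : d (k + 2) D.ζ x * d (k + 2 + 1) D.ζ x * (d (k + 3) D.ζ x * d (k + 3 + 1) D.ζ x)
          ≤ K * N * Real.sqrt N' *
            (ev x (q (k + 3) D.ζ) * Real.sqrt (ev x (q (k + 4) D.ζ))) := by
        calc d (k + 2) D.ζ x * d (k + 2 + 1) D.ζ x * (d (k + 3) D.ζ x * d (k + 3 + 1) D.ζ x)
            = d (k + 2) D.ζ x * d (k + 3) D.ζ x ^ 2 * d (k + 4) D.ζ x := by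
              show d (k + 2) D.ζ x * d (k + 3) D.ζ x * (d (k + 3) D.ζ x * d (k + 4) D.ζ x) = _
              ring
          _ ≤ K * (N * ev x (q (k + 3) D.ζ)) *
              (Real.sqrt N' * Real.sqrt (ev x (q (k + 4) D.ζ))) :=
              mul_le_mul (mul_le_mul h2 (hAv x) (sq_nonneg _) hK) h3 (d_nonneg _ _ _)
                (by positivity)
          _ = _ := by ring
      have h5 := mul_le_mul_of_nonneg_left h4 (show 0 ≤ 4 * (n : ℝ) ^ 2 * K by positivity)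
      rw [← mul_assoc (4 * (n : ℝ) ^ 2 * K) (K * N * Real.sqrt N'), ← ha2] at h5
      have h6 : 0 ≤ ev x (q (k + 3) D.ζ) * Real.sqrt (ev x (q (k + 4) D.ζ)) := by positivity
      have h7 := mul_le_mul_of_nonneg_right
        (show a2 ≤ K + K ^ 2 + P + a1 + a2 by linarith) h6
      linarith
  -- (A)
  have hvA : ∀ x, ev x (q (k + 3) D.ζ) ≤ CA * r x ^ (-(2 * (k : ℝ) + 1)) := by
    refine hA D.τ (q (k + 2) D.ζ) (q (k + 3) D.ζ) (-1)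
      (hτ.mono hc.le (by linarith)) hsp hsv (by norm_num) (fun x => q_nonneg _ _ _)
      (fun x => ?_) (fun x => q_nonneg _ _ _) (fun x => ?_) (fun x _ => ?_) (fun x => ?_)
    · exact (hp x).trans (mul_le_mul_of_nonneg_right (by linarith) (r_rpow_pos _ _).le)
    · have := hvU x
      linarith
    · have h1 := (hL x).1
      rw [hs'] at h1
      have h2 := mul_le_mul_of_nonneg_right
        (show P ≤ K + K ^ 2 + P + CU + G + a3 by linarith)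
        (r_rpow_pos x (-(2 * (k : ℝ) + 1))).le
      linarith
    · have h1 := (hL x).2
      have hv0 := q_nonneg (k + 3) D.ζ x
      have h0 : d (k + 3) D.ζ x ≤ Real.sqrt N * Real.sqrt CU :=
        bs_le_sqrt hN0 hCU ((hAv x).trans (mul_le_mul_of_nonneg_left (hvU x) hN0))
      have h2 := bs_A (s := r x ^ (-3 / 2 - (k : ℝ))) (ρ := r x ^ (-(2 * (k : ℝ) + 1))) hN0 hv0
        (d_nonneg _ _ _) (r_rpow_le_one x (show (-1 : ℝ) ≤ 0 by norm_num)) h0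
        (by rw [hs]; exact r_rpow_mono x (by linarith)) (hAv x)
      have h3 := mul_le_mul_of_nonneg_left h2 hG
      rw [mul_add G (_ * ev x _), ← mul_assoc G _ (ev x _), ← ha3] at h3
      have h4 := mul_le_mul_of_nonneg_right
        (show G ≤ K + K ^ 2 + P + CU + G + a3 by linarith)
        (r_rpow_pos x (-(2 * (k : ℝ) + 1))).le
      have h5 := mul_le_mul_of_nonneg_right
        (show a3 ≤ K + K ^ 2 + P + CU + G + a3 by linarith) hv0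
      have h6 := hT x
      have h7 := hz x
      linarith
  -- (B)
  have hvB : ∀ x, ev x (q (k + 3) D.ζ) ≤ CB * r x ^ (-(2 * (k : ℝ) + 3)) := by
    refine hB D.τ (q (k + 3) D.ζ) (-1) (hτ.mono hc.le (by linarith)) hsv (by norm_num)
      (fun x => q_nonneg _ _ _) (fun x => ?_) (fun x => ?_)
    · have := hvU x
      linarith
    · have h1 := (hL x).2
      have hv0 := q_nonneg (k + 3) D.ζ x
      have hw0 := (r_rpow_pos x (-1 : ℝ)).le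
      have h0 : d (k + 3) D.ζ x ≤ Real.sqrt (N * CA) * r x ^ (-1 : ℝ) := by
        refine abs_le_abs_iff_aux ?_ (by positivity)
        rw [mul_pow, Real.sq_sqrt (by positivity), bs_rsq, mul_assoc]
        refine (hAv x).trans (mul_le_mul_of_nonneg_left ((hvA x).trans ?_) hN0)
        exact mul_le_mul_of_nonneg_left (r_rpow_mono x (by linarith)) hCA
      have h2 := bs_B (s := r x ^ (-3 / 2 - (k : ℝ))) hG hN0 hv0 (d_nonneg _ _ _) hw0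
        (Real.sqrt_nonneg _) h0 (hAv x)
      rw [← ha4, ← ha5, hs] at h2
      have h4 := mul_le_mul_of_nonneg_right
        (show a5 ≤ K + CU + a4 + a5 by linarith) (r_rpow_pos x (-(2 * (k : ℝ) + 3))).le
      have h5 := mul_le_mul_of_nonneg_right (mul_le_mul_of_nonneg_right
        (show a4 ≤ K + CU + a4 + a5 by linarith) hw0) hv0
      have h7 := hz x
      linarith
  intro x
  refine abs_le_abs_iff_aux ?_ (mul_nonneg (Real.sqrt_nonneg _) (r_rpow_pos _ _).le)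
  rw [mul_pow, Real.sq_sqrt (by positivity), hs, mul_assoc]
  exact (hAv x).trans (mul_le_mul_of_nonneg_left (hvB x) hN0)

/-- `p = q (l+1) ζ`, `v = q (l+2) ζ`, `z = q (l+3) ζ`, `α' = 2l - 1`, `α = 2l + 1`.
`Lq_KE (l-1)`, `F_le`: `L p ≥ 2c v - C r^{1/2-l} (a_l + r^{1/2-l}) ≥ c v - C r^{-α'}`, `p ≤ K² r^{-α'}`.
`Lq_KE l`, `F_le`: `L v ≥ 2c z + 2(l+1) v - C a_l (r⁻¹ a_{l+1} + a_l² + r⁻¹ a_l + r^{-1/2-l})`.
(U) `bern_U` with `abs_gam_q_le` gives `v ≤ C`; (A) `bern_A` gives `v ≤ C r^{-α'}`, so `a_l ≤ C r⁻¹`;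
(B) `L v ≥ (2l + 7/4) v - C r⁻¹ v - C r^{-α}`, `bern_B`. -/
theorem bern_step (n : ℕ) {c : ℝ} (hc : 0 < c) (K : ℝ) {l : ℕ} (hl : 2 ≤ l) :
    ∃ C, 0 ≤ C ∧ ∀ D : KE n, Ell c K D.τ →
    (∀ i < l, ∀ x, d (i + 2) D.ζ x ≤ K * r x ^ (-1 / 2 - (i : ℝ))) →
    (∀ i ≤ l, ∀ x, d (i + 2) D.V x ≤ K * r x ^ (-1 / 2 - (i : ℝ))) →
    ∀ x, d (l + 2) D.ζ x ≤ C * r x ^ (-1 / 2 - (l : ℝ)) := by
  obtain ⟨k, rfl⟩ : ∃ k, l = k + 1 := ⟨l - 1, by omega⟩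
  have hK0 : 0 ≤ |K| := abs_nonneg K
  have hK1 : 0 ≤ (n : ℝ) ^ 2 * |K| := by positivity
  have hK2 : K ≤ |K| + (n : ℝ) ^ 2 * |K| := by linarith [le_abs_self K]
  obtain ⟨C, hC, h⟩ := bs_main n hc (K := |K| + (n : ℝ) ^ 2 * |K|) (by positivity)
    (k := k) (by omega)
  refine ⟨C, hC, fun D hτ hζ hV x => ?_⟩
  have he : (-1 / 2 - ((k + 1 : ℕ) : ℝ)) = -3 / 2 - (k : ℝ) := by push_cast; ring
  rw [he]
  refine h D (hτ.mono le_rfl hK2) (fun y => (hτ.dM_zero_le y).trans ?_)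
    (fun i hi y => (hζ i hi y).trans (mul_le_mul_of_nonneg_right hK2 (r_rpow_pos _ _).le))
    (fun i hi y => (hV i hi y).trans (mul_le_mul_of_nonneg_right hK2 (r_rpow_pos _ _).le)) x
  have := mul_le_mul_of_nonneg_left (le_abs_self K) (sq_nonneg (n : ℝ))
  linarith

end Crest.Agent.R238
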