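import Crest.Agent.R238.MaxP

/-!
# Row 238: the Bernstein method, abstract lemmas
-/

set_option autoImplicit false
open MeasureTheory Matrix
open scoped ContDiff BigOperators

noncomputable section
namespace Crest.Agent.R238

variable {n : ℕ}

/-- Bochner-type inequality for `q k ψ`. Induction on `k` generalizing `l, ψ`; `k = 0`: `Lop_mul`,
`Low.gam`; step: sum the hypothesis for `∂_aψ` with `l - 1`, `pd_Top`, `d_con_le`, `dM_succ`. -/
theorem Lop_q_ge (k : ℕ) : ∃ C, 0 ≤ C ∧ ∀ {n : ℕ} (c l : ℝ) (τ : Mat n) (ψ : Sm n) (x : E n),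
    τᵀ = τ → Low c τ →
    2 * c * ev x (q (k + 1) ψ) + 2 * (k - l) * ev x (q k ψ)
      - C * (d k ψ x * (d k (Top τ l ψ) x
        + ∑ i ∈ Finset.range k, dM (i + 1) τ x * d (k + 1 - i) ψ x))
      ≤ ev x (Lop τ (q k ψ)) := by
  induction k with
  | zero =>
    refine ⟨2, by norm_num, fun {n} c l τ ψ x hτ hc => ?_⟩
    have h1 := hc.gam ψ x
    have h2 : ev x (Top τ l ψ) = ev x (Lop τ ψ) + l * ev x ψ := by
      rw [Top, map_add, ev_smul]
    have h3 := neg_abs_le (ev x ψ * ev x (Top τ l ψ))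
    rw [abs_mul] at h3
    rw [zero_add, ev_q_one, q_zero_eq, sq ψ, Lop_mul hτ, d_zero_eq, d_zero_eq]
    simp only [map_add, map_mul, ev_ofNat, Finset.range_zero, Finset.sum_empty, add_zero,
      Nat.cast_zero]
    have h4 : ev x (Lop τ ψ) = ev x (Top τ l ψ) - l * ev x ψ := by linarith
    rw [h4]
    nlinarith
  | succ k ih =>
    obtain ⟨C, hC, ih⟩ := ih
    refine ⟨C * (2 ^ k + 1), by positivity, fun {n} c l τ ψ x hτ hc => ?_⟩
    set D := d (k + 1) ψ x with hD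
    set S := ∑ i ∈ Finset.range (k + 1), dM (i + 1) τ x * d (k + 1 + 1 - i) ψ x with hS
    set G : Fin n → ℝ := fun a => d k (pd a (Top τ l ψ)) x +
      2 ^ k * ∑ i ∈ Finset.range (k + 1), dM i (pdM a τ) x * d (k - i + 2) ψ x +
      ∑ i ∈ Finset.range k, dM (i + 1) τ x * d (k + 1 - i) (pd a ψ) x with hG
    have hD0 : 0 ≤ D := d_nonneg _ _ _
    have hS0 : 0 ≤ S :=
      Finset.sum_nonneg fun i _ => mul_nonneg (dM_nonneg _ _ _) (d_nonneg _ _ _)
    have hT0 : 0 ≤ d (k + 1) (Top τ l ψ) x := d_nonneg _ _ _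
    have step : ∀ a, 2 * c * ev x (q (k + 1) (pd a ψ)) + 2 * ((k : ℝ) + 1 - l) * ev x (q k (pd a ψ))
        - C * D * G a ≤ ev x (Lop τ (q k (pd a ψ))) := by
      intro a
      have h1 := ih c (l - 1) τ (pd a ψ) x hτ hc
      have h2 : Top τ (l - 1) (pd a ψ) = pd a (Top τ l ψ) - con (pdM a τ) ψ := by
        rw [pd_Top]; ring
      have h3 : d k (Top τ (l - 1) (pd a ψ)) x +
          ∑ i ∈ Finset.range k, dM (i + 1) τ x * d (k + 1 - i) (pd a ψ) x ≤ G a := by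
        rw [h2]
        have := d_sub_le k (pd a (Top τ l ψ)) (con (pdM a τ) ψ) x
        have := d_con_le k (pdM a τ) ψ x
        simp only [hG]
        linarith
      have h4 : 0 ≤ d k (Top τ (l - 1) (pd a ψ)) x +
          ∑ i ∈ Finset.range k, dM (i + 1) τ x * d (k + 1 - i) (pd a ψ) x :=
        add_nonneg (d_nonneg _ _ _)
          (Finset.sum_nonneg fun i _ => mul_nonneg (dM_nonneg _ _ _) (d_nonneg _ _ _))
      have h5 := mul_le_mul_of_nonneg_left (mul_le_mul (d_pd_le k a ψ x) h3 h4 hD0) hC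
      have e : (k : ℝ) - (l - 1) = (k : ℝ) + 1 - l := by ring
      rw [e] at h1
      linarith
    have hsum : ∑ a, G a ≤ (2 ^ k + 1) * (d (k + 1) (Top τ l ψ) x + S) := by
      have e1 : ∑ a, ∑ i ∈ Finset.range (k + 1), dM i (pdM a τ) x * d (k - i + 2) ψ x = S := by
        rw [Finset.sum_comm]
        refine Finset.sum_congr rfl fun i hi => ?_
        rw [← Finset.sum_mul, ← dM_succ,
          show k - i + 2 = k + 1 + 1 - i by have := Finset.mem_range.1 hi; omega]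
      have e2 : ∑ a, ∑ i ∈ Finset.range k, dM (i + 1) τ x * d (k + 1 - i) (pd a ψ) x ≤ S := by
        rw [Finset.sum_comm, hS, Finset.sum_range_succ]
        refine le_add_of_le_of_nonneg (le_of_eq (Finset.sum_congr rfl fun i hi => ?_))
          (mul_nonneg (dM_nonneg _ _ _) (d_nonneg _ _ _))
        rw [← Finset.mul_sum, ← d_succ,
          show k + 1 - i + 1 = k + 1 + 1 - i by have := Finset.mem_range.1 hi; omega]
      simp only [hG]
      rw [Finset.sum_add_distrib, Finset.sum_add_distrib, ← Finset.mul_sum, e1, ← d_succ]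
      have : 0 ≤ 2 ^ k * d (k + 1) (Top τ l ψ) x := by positivity
      nlinarith
    have h6 := Finset.sum_le_sum fun a (_ : a ∈ Finset.univ) => step a
    rw [Finset.sum_sub_distrib, Finset.sum_add_distrib, ← Finset.mul_sum, ← Finset.mul_sum,
      ← Finset.mul_sum, ← map_sum, ← map_sum, ← map_sum, ← Lop_sum, ← q_succ, ← q_succ] at h6
    have h7 := mul_le_mul_of_nonneg_left hsum (mul_nonneg hC hD0)
    push_cast
    linarith

theorem abs_gam_q_le {c K : ℝ} {τ : Mat n} (hτ : Ell c K τ) (j k : ℕ) (f h : Sm n) (x : E n) :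
    |ev x (gam τ (q j f) (q k h))| ≤
      4 * (n : ℝ) ^ 2 * K * (d j f x * d (j + 1) f x * (d k h x * d (k + 1) h x)) := by
  have h1 : ∀ a b, |ev x (τ a b * pd a (q j f) * pd b (q k h))| ≤
      K * (2 * d j f x * d (j + 1) f x) * (2 * d k h x * d (k + 1) h x) := by
    intro a b
    rw [map_mul, map_mul, abs_mul, abs_mul]
    have hK : 0 ≤ K := (abs_nonneg _).trans (hτ.bd x a b)
    have := d_nonneg j f x
    have := d_nonneg (j + 1) f x
    exact mul_le_mul (mul_le_mul (hτ.bd x a b) (abs_pd_q_le j a f x) (abs_nonneg _) hK)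
      (abs_pd_q_le k b h x) (abs_nonneg _) (by positivity)
  rw [gam, map_sum]
  refine (Finset.abs_sum_le_sum_abs _ _).trans ?_
  calc ∑ a, |ev x (∑ b, τ a b * pd a (q j f) * pd b (q k h))|
      ≤ ∑ _a : Fin n, ∑ _b : Fin n,
          K * (2 * d j f x * d (j + 1) f x) * (2 * d k h x * d (k + 1) h x) := by
        refine Finset.sum_le_sum fun a _ => ?_
        rw [map_sum]
        exact (Finset.abs_sum_le_sum_abs _ _).trans (Finset.sum_le_sum fun b _ => h1 a b)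
    _ = _ := by
        simp only [Finset.sum_const, Finset.card_univ, Fintype.card_fin, nsmul_eq_mul]
        ring

theorem bernAbs_poly {c A B D : ℝ} (hc : 0 < c) (hA : 0 ≤ A) (hB : 0 ≤ B) (hD : 0 ≤ D) :
    ∃ C, 0 ≤ C ∧ ∀ s, 0 ≤ s → A + B * s ^ 2 + D * s ^ 3 ≤ c * s ^ 4 + C := by
  set s₀ := 1 + (B + D) / c with hs₀
  have h0 : 0 ≤ (B + D) / c := by positivity
  refine ⟨A + B * s₀ ^ 2 + D * s₀ ^ 3, by positivity, fun s hs => ?_⟩
  rcases le_total s s₀ with h | h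
  · have h1 : B * s ^ 2 ≤ B * s₀ ^ 2 := by gcongr
    have h2 : D * s ^ 3 ≤ D * s₀ ^ 3 := by gcongr
    have h3 : 0 ≤ c * s ^ 4 := by positivity
    linarith
  · have h1 : 1 ≤ s := by linarith
    have h2 : B + D ≤ s * c := (div_le_iff₀ hc).1 (by linarith)
    have h3 : B * s ^ 2 ≤ B * s ^ 3 := by gcongr; norm_num
    have h4 : (B + D) * s ^ 3 ≤ (s * c) * s ^ 3 := by gcongr
    have h5 : 0 ≤ B * s₀ ^ 2 + D * s₀ ^ 3 := by positivity
    nlinarith

/-- Unweighted bound with a cubic nonlinearity. `F = (cst M + p) * v`, `M = 2K²/c² + 1`: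
`L F ≥ (M+p)(c z - K - K v√v) + c v² - K v - 2 K v √z ≥ (c/2) v² - C (1 + v √v + v) ≥ F - C'`; `mp0`. -/
theorem bern_U {c : ℝ} (hc : 0 < c) (K : ℝ) : ∃ C, 0 ≤ C ∧ ∀ {n : ℕ} (τ : Mat n) (p v : Sm n)
    (z : E n → ℝ) (m : ℝ), Ell 0 K τ → Sym m p → Sym m v → m < 0 →
    (∀ x, 0 ≤ ev x p) → (∀ x, ev x p ≤ K) → (∀ x, 0 ≤ ev x v) → (∀ x, 0 ≤ z x) →
    (∀ x, c * ev x v - K ≤ ev x (Lop τ p)) →
    (∀ x, c * z x - K * (1 + ev x v * Real.sqrt (ev x v)) ≤ ev x (Lop τ v)) →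
    (∀ x, -(K * (ev x v * Real.sqrt (z x))) ≤ ev x (gam τ p v)) →
    ∀ x, ev x v ≤ C := by
  rcases lt_or_ge K 0 with hK | hK
  · exact ⟨0, le_rfl, fun τ p v z m _ _ _ _ h0 h1 => absurd ((h0 0).trans (h1 0)) (not_le.2 hK)⟩
  obtain ⟨M, hM⟩ : ∃ M, M = 2 * K ^ 2 / c ^ 2 + 1 := ⟨_, rfl⟩
  have hM1 : 1 ≤ M := by
    have : 0 ≤ 2 * K ^ 2 / c ^ 2 := by positivity
    linarith
  have hMc : 2 * K ^ 2 ≤ M * c ^ 2 := by
    rw [hM, add_mul, div_mul_cancel₀ _ (by positivity)]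
    nlinarith
  obtain ⟨C, hC, hpoly⟩ := bernAbs_poly (c := c / 2) (A := (M + K) * K) (B := M + K + K)
    (D := (M + K) * K) (by positivity) (by positivity) (by positivity) (by positivity)
  refine ⟨C, hC, fun τ p v z m hτ hp hv hm p0 pK v0 z0 hLp hLv hg x => ?_⟩
  have hF : Sym m (M • v + p * v) := (hv.smul M).add ((hp.mul hv).mono (by linarith))
  have key := mp0 (hτ.psd le_rfl) hm hF hC (fun y => by
    rw [Lop_add, Lop_smul, Lop_mul hτ.symm]
    simp only [map_add, map_mul, ev_smul, ev_ofNat]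
    have a1 := hLp y
    have a2 := hLv y
    have a3 := hg y
    have a4 := p0 y
    have a5 := pK y
    obtain ⟨s, hs⟩ : ∃ s, Real.sqrt (ev y v) = s := ⟨_, rfl⟩
    obtain ⟨w, hw⟩ : ∃ w, Real.sqrt (z y) = w := ⟨_, rfl⟩
    have hs0 : 0 ≤ s := hs ▸ Real.sqrt_nonneg _
    have hs2 : ev y v = s ^ 2 := hs ▸ (Real.sq_sqrt (v0 y)).symm
    have hw2 : z y = w ^ 2 := hw ▸ (Real.sq_sqrt (z0 y)).symm
    rw [hs, hw2] at a2
    rw [hw] at a3
    rw [hs2] at a1 a2 a3 ⊢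
    have b0 := hpoly s hs0
    generalize ev y p = P at *
    generalize ev y (Lop τ p) = Lp at *
    generalize ev y (Lop τ v) = Lv at *
    generalize ev y (gam τ p v) = g at *
    have b1 : (M + P) * (c * w ^ 2 - K * (1 + s ^ 2 * s)) ≤ (M + P) * Lv :=
      mul_le_mul_of_nonneg_left a2 (by linarith)
    have b2 : s ^ 2 * (c * s ^ 2 - K) ≤ s ^ 2 * Lp := mul_le_mul_of_nonneg_left a1 (sq_nonneg s)
    have b3 : 2 * (K * (s ^ 2 * w)) ≤ c / 2 * s ^ 4 + M * c * w ^ 2 := by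
      refine le_of_mul_le_mul_left ?_ hc
      have := mul_le_mul_of_nonneg_right hMc (sq_nonneg w)
      nlinarith [sq_nonneg (c * s ^ 2 - 2 * K * w)]
    have b4 : 0 ≤ P * (c * w ^ 2) := by positivity
    have b5 : P * (K * (1 + s ^ 2 * s)) ≤ K * (K * (1 + s ^ 2 * s)) := by gcongr
    have b6 : P * s ^ 2 ≤ K * s ^ 2 := by gcongr
    nlinarith) x
  rw [map_add, map_mul, ev_smul] at key
  have c1 := mul_nonneg (p0 x) (v0 x)
  have c2 := mul_le_mul_of_nonneg_right hM1 (v0 x)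
  linarith

/-- First weighted stage. `F = v + M • p`, `κ = α + 1/2`, `M = (κ + |K|)/c`; `wmp`. -/
theorem bern_A (n : ℕ) {c : ℝ} (hc : 0 < c) (K R : ℝ) {α : ℝ} (hα : 0 < α) :
    ∃ C, 0 ≤ C ∧ ∀ (τ : Mat n) (p v : Sm n) (m : ℝ), Ell 0 K τ → Sym m p → Sym m v → m < 0 →
    (∀ x, 0 ≤ ev x p) → (∀ x, ev x p ≤ K * r x ^ (-α)) → (∀ x, 0 ≤ ev x v) → (∀ x, ev x v ≤ K) →
    (∀ x, R ≤ r x → c * ev x v - K * r x ^ (-α) ≤ ev x (Lop τ p)) →
    (∀ x, -(K * ev x v) - K * r x ^ (-α) ≤ ev x (Lop τ v)) →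
    ∀ x, ev x v ≤ C * r x ^ (-α) := by
  rcases lt_or_ge K 0 with hK | hK
  · exact ⟨0, le_rfl, fun τ p v m _ _ _ _ _ _ h0 h1 =>
      absurd ((h0 0).trans (h1 0)) (not_le.2 hK)⟩
  obtain ⟨M, hM⟩ : ∃ M, M = (α + 1 / 2 + K) / c := ⟨_, rfl⟩
  have hM0 : 0 ≤ M := by rw [hM]; positivity
  have hMc : M * c = α + 1 / 2 + K := by rw [hM, div_mul_cancel₀ _ hc.ne']
  have h1 : 0 ≤ M * K := by positivity
  have h2 : 0 ≤ (α + 1 / 2) * (M * K) := by positivity
  obtain ⟨C, hC, H⟩ := wmp n (K + M * K + (α + 1 / 2) * (M * K)) R hα (le_refl (α + 1 / 2))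
  refine ⟨C, hC, fun τ p v m hτ hp hv hm p0 pK v0 vK hLp hLv x => ?_⟩
  have key := H τ (v + M • p) m (hτ.mono le_rfl (by linarith)) (hv.add (hp.smul M)) hm
    (fun y => by
      rw [map_add, ev_smul]
      have a1 : r y ^ (-α) ≤ 1 := r_rpow_le_one y (by linarith)
      have a2 : ev y p ≤ K := (pK y).trans (mul_le_of_le_one_right hK a1)
      have a3 := mul_le_mul_of_nonneg_left a2 hM0
      linarith [vK y])
    (fun y hy => by
      rw [Lop_add, Lop_smul]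
      simp only [map_add, ev_smul]
      have a1 := mul_le_mul_of_nonneg_left (hLp y hy) hM0
      have a2 := hLv y
      have a3 := mul_le_mul_of_nonneg_left (pK y)
        (show 0 ≤ (α + 1 / 2) * M by positivity)
      have a4 : M * (c * ev y v) = (α + 1 / 2 + K) * ev y v := by rw [← hMc]; ring
      nlinarith) x
  rw [map_add, ev_smul] at key
  have := mul_nonneg hM0 (p0 x)
  linarith

/-- Second weighted stage: `wmp` with `κ - 1/4` and `R` such that `K R^{-β} ≤ 1/4`. -/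
theorem bern_B (n : ℕ) (K : ℝ) {α β κ : ℝ} (hα : 0 < α) (hβ : 0 < β) (hκ : α + 3 / 4 ≤ κ) :
    ∃ C, 0 ≤ C ∧ ∀ (τ : Mat n) (v : Sm n) (m : ℝ), Ell 0 K τ → Sym m v → m < 0 →
    (∀ x, 0 ≤ ev x v) → (∀ x, ev x v ≤ K) →
    (∀ x, κ * ev x v - K * r x ^ (-β) * ev x v - K * r x ^ (-α) ≤ ev x (Lop τ v)) →
    ∀ x, ev x v ≤ C * r x ^ (-α) := by
  obtain ⟨R, hR⟩ := maxP_rpow hβ (4 * K)
  obtain ⟨C, hC, H⟩ := wmp n K R hα (show α + 1 / 2 ≤ κ - 1 / 4 by linarith)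
  refine ⟨C, hC, fun τ v m hτ hv hm v0 vK hL => H τ v m hτ hv hm vK fun y hy => ?_⟩
  have h1 : K * r y ^ (-β) ≤ 1 / 4 := by
    rw [Real.rpow_neg (r_pos y).le, ← div_eq_mul_inv, div_le_iff₀ (r_rpow_pos y β)]
    linarith [hR _ hy]
  have h2 := mul_le_mul_of_nonneg_right h1 (v0 y)
  linarith [hL y]

end Crest.Agent.R238
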