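import Crest.Agent.R238.BernAbs
import Crest.Agent.R238.KEid

/-!
# Row 238: the nonlinear terms in the Bernstein method

Notation: `a l = d (l+2) ζ = dM l (hess ζ)` (`dM_hess`), `t l = dM l τ`; for `l ≥ 1`, `dM l g = a l`
(`dM_succ_one_add`).
-/

set_option autoImplicit false
open MeasureTheory Matrix
open scoped ContDiff BigOperators

noncomputable section
namespace Crest.Agent.R238

variable {n : ℕ}

/-- The nonlinear term `F_l = ∑_{i ≤ l} t_{i+1} a_{l+1-i}`. -/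
def KE.F (D : KE n) (l : ℕ) (x : E n) : ℝ :=
  ∑ i ∈ Finset.range (l + 1), dM (i + 1) D.τ x * d (l + 3 - i) D.ζ x

/-- Sum `Lop_q_ge (l+1)` over `ψ = ∂_eζ` with `l = 0` there, `Top τ 0 (∂_eζ) = -∂_eV` (`L_pd`). -/
theorem Lq_KE (l : ℕ) : ∃ C, 0 ≤ C ∧ ∀ {n : ℕ} (D : KE n) (c : ℝ) (x : E n), Low c D.τ →
    2 * c * ev x (q (l + 3) D.ζ) + 2 * (l + 1) * ev x (q (l + 2) D.ζ)
      - C * (d (l + 2) D.ζ x * (d (l + 2) D.V x + D.F l x)) ≤ ev x (Lop D.τ (q (l + 2) D.ζ)) := by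
  obtain ⟨C, hC, h⟩ := Lop_q_ge (l + 1)
  refine ⟨C, hC, fun D c x hc => ?_⟩
  have h1 : ∀ e, 2 * c * ev x (q (l + 2) (pd e D.ζ)) + 2 * (l + 1) * ev x (q (l + 1) (pd e D.ζ))
      - C * (d (l + 1) (pd e D.ζ) x * (d (l + 2) D.V x + D.F l x)) ≤
      ev x (Lop D.τ (q (l + 1) (pd e D.ζ))) := by
    intro e
    have h2 := h c 0 D.τ (pd e D.ζ) x D.τ_symm hc
    rw [Top_zero_eq, D.L_pd, d_neg] at h2
    have h3 : ∑ i ∈ Finset.range (l + 1), dM (i + 1) D.τ x * d (l + 1 + 1 - i) (pd e D.ζ) x ≤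
        D.F l x := by
      refine Finset.sum_le_sum fun i hi => mul_le_mul_of_nonneg_left ?_ (dM_nonneg _ _ _)
      have hi' := Finset.mem_range.1 hi
      rw [show l + 3 - i = l + 1 + 1 - i + 1 by omega]
      exact d_pd_le _ _ _ _
    have h4 := mul_le_mul_of_nonneg_left (mul_le_mul_of_nonneg_left
      (add_le_add (d_pd_le (l + 1) e D.V x) h3) (d_nonneg (l + 1) (pd e D.ζ) x)) hC
    push_cast at h2
    linarith
  have h5 := Finset.sum_le_sum fun e (_ : e ∈ Finset.univ) => h1 e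
  rw [q_succ (l + 2), q_succ (l + 1), d_succ (l + 1) D.ζ, Lop_sum]
  simp only [Finset.sum_sub_distrib, Finset.sum_add_distrib, ← Finset.mul_sum, ← Finset.sum_mul]
    at h5
  simpa only [map_sum] using h5

theorem BernF_dM_g (D : KE n) (j : ℕ) (x : E n) : dM (j + 1) D.g x = d (j + 3) D.ζ x := by
  rw [KE.g, dM_succ_one_add, dM_hess]

theorem BernF_t_one {K : ℝ} (D : KE n) (x : E n) (h : dM 0 D.τ x ≤ K) :
    dM 1 D.τ x ≤ K ^ 2 * d 3 D.ζ x := by
  have h1 := dM_inv_succ D.τg 0 x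
  simp only [Finset.sum_range_one, zero_add, pow_zero, one_mul, Nat.sub_zero] at h1
  rw [BernF_dM_g D 0] at h1
  have h0 := dM_nonneg 0 D.τ x
  have h2 := d_nonneg 3 D.ζ x
  calc dM 1 D.τ x ≤ dM 0 D.τ x ^ 2 * d 3 D.ζ x := by linarith
    _ ≤ K ^ 2 * d 3 D.ζ x := by gcongr

/-- `dM_inv_succ` with `j = 0`. -/
theorem F_zero_le (K : ℝ) : ∃ C, 0 ≤ C ∧ ∀ {n : ℕ} (D : KE n) (x : E n), dM 0 D.τ x ≤ K →
    D.F 0 x ≤ C * d 3 D.ζ x ^ 2 := by
  refine ⟨K ^ 2, sq_nonneg _, fun D x h => ?_⟩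
  have h1 := mul_le_mul_of_nonneg_right (BernF_t_one D x h) (d_nonneg 3 D.ζ x)
  simp only [KE.F, Finset.sum_range_one, zero_add, Nat.sub_zero]
  linarith

/-- `t 1 ≤ C a 1`, `t 2 ≤ C (a 2 + a 1 ^ 2)` (`dM_inv_succ` with `j = 0, 1`). -/
theorem F_one_le (K : ℝ) : ∃ C, 0 ≤ C ∧ ∀ {n : ℕ} (D : KE n) (x : E n), dM 0 D.τ x ≤ K →
    D.F 1 x ≤ C * (d 3 D.ζ x * d 4 D.ζ x + d 3 D.ζ x ^ 3) := by
  refine ⟨5 * K ^ 2 + 8 * |K| ^ 3, by positivity, fun D x h => ?_⟩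
  have h0 := dM_nonneg 0 D.τ x
  have hK : 0 ≤ K := h0.trans h
  rw [abs_of_nonneg hK]
  have h1 := BernF_t_one D x h
  have h2 := dM_inv_succ D.τg 1 x
  simp only [Finset.sum_range_succ, Finset.range_zero, Finset.sum_empty, zero_add, pow_one,
    Nat.sub_zero, Nat.add_one_sub_one, Nat.sub_self] at h2
  rw [BernF_dM_g D 0, BernF_dM_g D 1] at h2
  simp only [KE.F, Finset.sum_range_succ, Finset.range_zero, Finset.sum_empty, zero_add,
    Nat.sub_zero, Nat.reduceAdd, Nat.add_one_sub_one] at h2 ⊢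
  have a1 := d_nonneg 3 D.ζ x
  have a2 := d_nonneg 4 D.ζ x
  have t1 := dM_nonneg 1 D.τ x
  have h3 : dM 2 D.τ x ≤ 4 * (K * d 3 D.ζ x * (K ^ 2 * d 3 D.ζ x) + K * d 4 D.ζ x * K +
      K ^ 2 * d 3 D.ζ x * d 3 D.ζ x * K) := h2.trans (by gcongr)
  have h4 := mul_le_mul_of_nonneg_right h1 a2
  have h5 := mul_le_mul_of_nonneg_right h3 a1
  have h6 : 0 ≤ K ^ 2 * d 3 D.ζ x ^ 3 := by positivity
  have h7 : 0 ≤ K ^ 3 * (d 3 D.ζ x * d 4 D.ζ x) := by positivity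
  nlinarith

theorem BernF_num {l : ℕ} (hl : 2 ≤ l) {T A : ℕ → ℝ} {K C Q : ℝ} (hK : 0 ≤ K) (hC : 0 ≤ C)
    (hQ : 0 ≤ Q) (hQ2 : l = 2 → Q = A 2 ^ 2) (hA0 : ∀ i, 0 ≤ A i) (hA : ∀ i < l, A i ≤ K)
    (hT : ∀ j, 1 ≤ j → j ≤ l + 1 → T j ≤ C * (1 + A j + ∑ i ∈ Finset.Ioo (l - 1) j, A i)) :
    (∀ i ≤ l, T (i + 1) * A (l + 1 - i) ≤ C * (1 + K) ^ 2 * (A (l + 1) + Q + A l + 1)) ∧
      ∀ i < l, T (i + 1) * A (l - i) ≤ C * (1 + K) ^ 2 * (A l + 1) := by
  have hT1 : ∀ j, 1 ≤ j → j ≤ l → T j ≤ C * (1 + A j) := by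
    intro j h1 h2
    have := hT j h1 (by omega)
    rwa [Finset.eq_empty_of_forall_notMem (s := Finset.Ioo (l - 1) j) (by
      intro i hi; have := Finset.mem_Ioo.1 hi; omega), Finset.sum_empty, add_zero] at this
  have hT2 : ∀ j, 1 ≤ j → j < l → T j ≤ C * (1 + K) := fun j h1 h2 =>
    (hT1 j h1 h2.le).trans (mul_le_mul_of_nonneg_left (by linarith [hA j h2]) hC)
  have hT3 : T (l + 1) ≤ C * (1 + A (l + 1) + A l) := by
    have := hT (l + 1) (by omega) le_rfl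
    rwa [show Finset.Ioo (l - 1) (l + 1) = {l} by
      ext i; simp only [Finset.mem_Ioo, Finset.mem_singleton]; omega,
      Finset.sum_singleton] at this
  have a1 := hA0 l
  have a2 := hA0 (l + 1)
  have hlow : ∀ B : ℝ, 1 ≤ B → ∀ j k, 1 ≤ j → j < l → (l ≤ k → A k ≤ B) →
      T j * A k ≤ C * (1 + K) ^ 2 * B := by
    intro B hB j k h1 h2 h3
    have h4 : A k ≤ (1 + K) * B := by
      rcases lt_or_ge k l with h | h
      · nlinarith [hA k h]
      · nlinarith [h3 h]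
    calc T j * A k ≤ C * (1 + K) * A k := mul_le_mul_of_nonneg_right (hT2 j h1 h2) (hA0 k)
      _ ≤ C * (1 + K) * ((1 + K) * B) := by gcongr
      _ = _ := by ring
  have hhigh : ∀ B : ℝ, 0 ≤ B → ∀ j k, T j ≤ C * B → k < l → T j * A k ≤ C * (1 + K) ^ 2 * B := by
    intro B hB j k h1 h2
    have h4 : A k ≤ (1 + K) ^ 2 := by nlinarith [hA k h2]
    calc T j * A k ≤ C * B * A k := mul_le_mul_of_nonneg_right h1 (hA0 k)
      _ ≤ C * B * (1 + K) ^ 2 := by gcongr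
      _ = _ := by ring
  constructor
  · intro i hi
    rcases lt_trichotomy (i + 1) l with h | h | h
    · refine hlow _ (by linarith) _ _ (by omega) h fun h' => ?_
      rcases (by omega : l + 1 - i = l ∨ l + 1 - i = l + 1) with h'' | h'' <;> rw [h''] <;> linarith
    · rw [h, show l + 1 - i = 2 by omega]
      rcases hl.eq_or_lt with h2 | h2
      · subst h2
        have h3 := mul_le_mul_of_nonneg_right (hT1 2 (by omega) le_rfl) a1
        rw [hQ2 rfl]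
        calc T 2 * A 2 ≤ C * 1 * (A (2 + 1) + A 2 ^ 2 + A 2 + 1) := by nlinarith
          _ ≤ _ := by gcongr; nlinarith
      · refine hhigh _ (by linarith) _ _ ((hT1 l (by omega) le_rfl).trans ?_) h2
        exact mul_le_mul_of_nonneg_left (by linarith) hC
    · obtain rfl : i = l := by omega
      refine hhigh _ (by linarith) _ _ (hT3.trans ?_) (by omega)
      exact mul_le_mul_of_nonneg_left (by linarith) hC
  · intro i hi
    rcases (by omega : i + 1 < l ∨ i + 1 = l) with h | h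
    · refine hlow _ (by linarith) _ _ (by omega) h fun h' => ?_
      rw [show l - i = l by omega]
      linarith
    · rw [h]
      refine hhigh _ (by linarith) _ _ ((hT1 l (by omega) le_rfl).trans ?_) (by omega)
      rw [add_comm]

/-- `dM_inv_le` with `m = l - 1`, `s = r^{-1/2}`: `t j ≤ C r^{-1/2-j}` for `1 ≤ j ≤ l-1`,
`t l ≤ C (r^{-1/2-l} + a l)`, `t (l+1) ≤ C (r^{-3/2-l} + a (l+1) + r^{-3/2} a l)`. Terms of `F l`:
`i = 0`: `t 1 a (l+1)`; `i = 1`: `t 2 a l` (gives `a l ^ 2` when `l = 2`); `2 ≤ i ≤ l-2`: known;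
`i = l - 1 ≥ 2`: `t l a 2`; `i = l`: `t (l+1) a 1`. Terms of `F (l-1)`: `t 1 a l`, known ones, `t l a 1`. -/
theorem F_le (K : ℝ) {l : ℕ} (hl : 2 ≤ l) : ∃ C, 0 ≤ C ∧ ∀ {n : ℕ} (D : KE n) (x : E n),
    dM 0 D.τ x ≤ K → (∀ i < l, d (i + 2) D.ζ x ≤ K * r x ^ (-1 / 2 - (i : ℝ))) →
    D.F l x ≤ C * (r x ^ (-1 : ℝ) * d (l + 3) D.ζ x + d (l + 2) D.ζ x ^ 2
      + r x ^ (-1 : ℝ) * d (l + 2) D.ζ x + r x ^ (-1 / 2 - (l : ℝ))) ∧
    D.F (l - 1) x ≤ C * (d (l + 2) D.ζ x + r x ^ (-1 / 2 - (l : ℝ))) := by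
  have h0 : ∀ j : ℕ, ∃ C, 0 ≤ C ∧ (1 ≤ j → j ≤ l + 1 → ∀ {n : ℕ} (τ g : Mat n) (x : E n),
      τ * g = 1 → dM 0 τ x ≤ K → (∀ i, 1 ≤ i → i ≤ l - 1 → r x ^ i * dM i g x ≤ K * 1) →
      r x ^ j * dM j τ x ≤
        C * (1 + r x ^ j * dM j g x + 1 * ∑ i ∈ Finset.Ioo (l - 1) j, r x ^ i * dM i g x)) := by
    intro j
    by_cases hj : 1 ≤ j ∧ j ≤ l + 1
    · obtain ⟨C, hC, h⟩ := dM_inv_le K (l - 1) j hj.1 (by omega)
      exact ⟨C, hC, fun _ _ n τ g x h1 h2 h3 => h τ g x 1 h1 zero_le_one le_rfl h2 h3⟩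
    · exact ⟨0, le_rfl, fun h1 h2 => absurd ⟨h1, h2⟩ hj⟩
  choose c hc0 hc using h0
  set C := ∑ j ∈ Finset.range (l + 2), c j with hCdef
  have hC : 0 ≤ C := Finset.sum_nonneg fun j _ => hc0 j
  refine ⟨(l + 1) * (C * (1 + K) ^ 2), by positivity, fun {n} D x hτ ha => ?_⟩
  have hK : 0 ≤ K := (dM_nonneg 0 D.τ x).trans hτ
  have hr := r_pos x
  have hr1 := one_le_r x
  set A : ℕ → ℝ := fun i => r x ^ i * d (i + 2) D.ζ x with hAdef
  set T : ℕ → ℝ := fun j => r x ^ j * dM j D.τ x with hTdef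
  have hA0 : ∀ i, 0 ≤ A i := fun i => mul_nonneg (pow_nonneg hr.le _) (d_nonneg _ _ _)
  have hA : ∀ i < l, A i ≤ K := by
    intro i hi
    have h1 : r x ^ i * r x ^ (-1 / 2 - (i : ℝ)) ≤ 1 := by
      rw [← Real.rpow_natCast, ← r_rpow_add]
      exact r_rpow_le_one x (by linarith)
    calc A i ≤ r x ^ i * (K * r x ^ (-1 / 2 - (i : ℝ))) :=
          mul_le_mul_of_nonneg_left (ha i hi) (pow_nonneg hr.le _)
      _ = K * (r x ^ i * r x ^ (-1 / 2 - (i : ℝ))) := by ring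
      _ ≤ K := mul_le_of_le_one_right hK h1
  have hg : ∀ i, 1 ≤ i → r x ^ i * dM i D.g x = A i := by
    intro i hi
    obtain ⟨k, rfl⟩ := Nat.exists_eq_add_of_le' hi
    rw [BernF_dM_g]
  have hT : ∀ j, 1 ≤ j → j ≤ l + 1 → T j ≤ C * (1 + A j + ∑ i ∈ Finset.Ioo (l - 1) j, A i) := by
    intro j h1 h2
    have h3 := hc j h1 h2 D.τ D.g x D.τg hτ fun i hi hi' => by
      rw [hg i hi, mul_one]; exact hA i (by omega)
    rw [hg j h1, one_mul, Finset.sum_congr rfl fun i hi =>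
      hg i (by have := Finset.mem_Ioo.1 hi; omega)] at h3
    refine h3.trans (mul_le_mul_of_nonneg_right ?_ ?_)
    · exact Finset.single_le_sum (fun j _ => hc0 j) (Finset.mem_range.2 (by omega))
    · have := hA0 j
      have := Finset.sum_nonneg fun i (_ : i ∈ Finset.Ioo (l - 1) j) => hA0 i
      linarith
  obtain ⟨h1, h2⟩ := BernF_num hl (Q := r x ^ (l + 2) * d (l + 2) D.ζ x ^ 2) hK hC (by positivity)
    (by rintro rfl; simp only [hAdef]; ring) hA0 hA hT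
  have hM : 0 ≤ C * (1 + K) ^ 2 := by positivity
  have hp : 1 ≤ r x ^ (l + 1) * r x ^ (-1 / 2 - (l : ℝ)) := by
    rw [← Real.rpow_natCast, ← r_rpow_add]
    exact Real.one_le_rpow hr1 (by push_cast; linarith)
  have hAl : A l ≤ r x ^ (l + 1) * d (l + 2) D.ζ x :=
    mul_le_mul_of_nonneg_right (pow_le_pow_right₀ hr1 (by omega)) (d_nonneg _ _ _)
  constructor
  · refine le_of_mul_le_mul_left ?_ (pow_pos hr (l + 2))
    have e1 : r x ^ (l + 2) * D.F l x = ∑ i ∈ Finset.range (l + 1), T (i + 1) * A (l + 1 - i) := by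
      rw [KE.F, Finset.mul_sum]
      refine Finset.sum_congr rfl fun i hi => ?_
      have hi' := Finset.mem_range.1 hi
      simp only [hAdef, hTdef]
      rw [show l + 1 - i + 2 = l + 3 - i by omega,
        show l + 2 = (i + 1) + (l + 1 - i) by omega, pow_add]
      ring
    have e2 : A (l + 1) + r x ^ (l + 2) * d (l + 2) D.ζ x ^ 2 + A l + 1 ≤
        r x ^ (l + 2) * (r x ^ (-1 : ℝ) * d (l + 3) D.ζ x + d (l + 2) D.ζ x ^ 2
          + r x ^ (-1 : ℝ) * d (l + 2) D.ζ x + r x ^ (-1 / 2 - (l : ℝ))) := by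
      have e3 : r x ^ (l + 2) * r x ^ (-1 : ℝ) = r x ^ (l + 1) := by
        rw [Real.rpow_neg_one, pow_succ, mul_inv_cancel_right₀ hr.ne']
      have e4 : 1 ≤ r x ^ (l + 2) * r x ^ (-1 / 2 - (l : ℝ)) :=
        hp.trans (mul_le_mul_of_nonneg_right (pow_le_pow_right₀ hr1 (by omega))
          (r_rpow_pos x _).le)
      rw [mul_add, mul_add, mul_add, ← mul_assoc, ← mul_assoc, e3]
      have e5 : A (l + 1) = r x ^ (l + 1) * d (l + 3) D.ζ x := rfl
      linarith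
    rw [e1]
    refine (Finset.sum_le_card_nsmul _ _ _ fun i hi =>
      h1 i (by have := Finset.mem_range.1 hi; omega)).trans ?_
    rw [Finset.card_range, nsmul_eq_mul, mul_left_comm (r x ^ (l + 2)), mul_assoc ((l : ℝ) + 1)]
    push_cast
    gcongr
  · refine le_of_mul_le_mul_left ?_ (pow_pos hr (l + 1))
    have e1 : r x ^ (l + 1) * D.F (l - 1) x = ∑ i ∈ Finset.range l, T (i + 1) * A (l - i) := by
      rw [KE.F, Finset.mul_sum, show l - 1 + 1 = l by omega]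
      refine Finset.sum_congr rfl fun i hi => ?_
      have hi' := Finset.mem_range.1 hi
      simp only [hAdef, hTdef]
      rw [show l - i + 2 = l - 1 + 3 - i by omega,
        show l + 1 = (i + 1) + (l - i) by omega, pow_add]
      ring
    have e2 : A l + 1 ≤ r x ^ (l + 1) * (d (l + 2) D.ζ x + r x ^ (-1 / 2 - (l : ℝ))) := by
      rw [mul_add]
      linarith
    rw [e1]
    refine (Finset.sum_le_card_nsmul _ _ _ fun i hi => h2 i (Finset.mem_range.1 hi)).trans ?_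
    rw [Finset.card_range, nsmul_eq_mul, mul_left_comm (r x ^ (l + 1)), mul_assoc ((l : ℝ) + 1)]
    have := hA0 l
    gcongr
    linarith

end Crest.Agent.R238
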