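import Crest.Agent.R238.Alg

/-!
# Row 238: the pointwise inequality behind the tensor Bochner formula
-/

set_option autoImplicit false
open MeasureTheory Matrix
open scoped ContDiff BigOperators

noncomputable section
namespace Crest.Agent.R238

variable {n : ℕ}

theorem omega_swap12 (f : Fin n → Fin n → Fin n → ℝ) :
    ∑ l, ∑ a, ∑ b, f l a b = ∑ l, ∑ a, ∑ b, f a l b := Finset.sum_comm

theorem omega_swap23 (f : Fin n → Fin n → Fin n → ℝ) :
    ∑ l, ∑ a, ∑ b, f l a b = ∑ l, ∑ a, ∑ b, f l b a :=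
  Finset.sum_congr rfl fun _ _ => Finset.sum_comm

theorem omega_tr (A B : RM n) : (A * B).trace = ∑ a, ∑ b, A a b * B b a := by
  simp only [Matrix.trace, Matrix.diag, Matrix.mul_apply]

theorem omega_symm {A : RM n} (h : Aᵀ = A) (a b : Fin n) : A a b = A b a := by
  conv_lhs => rw [← h]
  rfl

/-- the core inequality for `3`-tensors -/
theorem omega_core (T κ : Fin n → Fin n → Fin n → ℝ) (hT : ∀ l a b, T l a b = T a l b)
    (hκ : ∀ l a b, κ l a b = κ l b a) :
    0 ≤ ∑ l, ∑ a, ∑ b, T l a b ^ 2 + ∑ l, ∑ a, ∑ b, T l a b * T l b a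
      + 2 * ∑ l, ∑ a, ∑ b, κ l a b * T l a b + 2 * ∑ l, ∑ a, ∑ b, κ l a b ^ 2
      + 2 * ∑ l, ∑ a, ∑ b, κ l a b * T a b l := by
  have h1 : 0 ≤ ∑ l, ∑ a, ∑ b, (2 * (κ l a b + (2 * T a b l + T l a b + T l b a) / 4) ^ 2 +
      (T l a b - T l b a) ^ 2 / 8) :=
    Finset.sum_nonneg fun _ _ => Finset.sum_nonneg fun _ _ => Finset.sum_nonneg fun _ _ => by
      positivity
  have h2 : ∑ l, ∑ a, ∑ b, (2 * (κ l a b + (2 * T a b l + T l a b + T l b a) / 4) ^ 2 +
      (T l a b - T l b a) ^ 2 / 8) =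
      2 * ∑ l, ∑ a, ∑ b, κ l a b ^ 2 + 2 * ∑ l, ∑ a, ∑ b, κ l a b * T a b l
      + ∑ l, ∑ a, ∑ b, κ l a b * T l a b + ∑ l, ∑ a, ∑ b, κ l a b * T l b a
      + 1 / 2 * ∑ l, ∑ a, ∑ b, T a b l ^ 2 + 1 / 4 * ∑ l, ∑ a, ∑ b, T l a b ^ 2
      + 1 / 4 * ∑ l, ∑ a, ∑ b, T l b a ^ 2 + 1 / 2 * ∑ l, ∑ a, ∑ b, T a b l * T l a b
      + 1 / 2 * ∑ l, ∑ a, ∑ b, T a b l * T l b a := by
    simp only [Finset.mul_sum, ← Finset.sum_add_distrib]
    refine Finset.sum_congr rfl fun l _ => Finset.sum_congr rfl fun a _ =>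
      Finset.sum_congr rfl fun b _ => ?_
    ring
  have e1 : ∑ l, ∑ a, ∑ b, κ l a b * T l b a = ∑ l, ∑ a, ∑ b, κ l a b * T l a b := by
    rw [omega_swap23]
    refine Finset.sum_congr rfl fun l _ => Finset.sum_congr rfl fun a _ =>
      Finset.sum_congr rfl fun b _ => ?_
    rw [hκ l b a]
  have e2 : ∑ l, ∑ a, ∑ b, T a b l ^ 2 = ∑ l, ∑ a, ∑ b, T l a b ^ 2 := by
    rw [omega_swap12, omega_swap23]
  have e3 : ∑ l, ∑ a, ∑ b, T l b a ^ 2 = ∑ l, ∑ a, ∑ b, T l a b ^ 2 := by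
    rw [omega_swap23]
  have e4 : ∑ l, ∑ a, ∑ b, T a b l * T l a b = ∑ l, ∑ a, ∑ b, T l a b * T l b a := by
    rw [omega_swap12]
    refine Finset.sum_congr rfl fun l _ => Finset.sum_congr rfl fun a _ =>
      Finset.sum_congr rfl fun b _ => ?_
    rw [hT a l b, mul_comm]
  have e5 : ∑ l, ∑ a, ∑ b, T a b l * T l b a = ∑ l, ∑ a, ∑ b, T l a b * T l b a := by
    rw [omega_swap23, omega_swap12]
    refine Finset.sum_congr rfl fun l _ => Finset.sum_congr rfl fun a _ =>
      Finset.sum_congr rfl fun b _ => ?_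
    rw [hT b l a, hT a l b, mul_comm]
  rw [h2, e1, e2, e3, e4, e5] at h1
  linarith

/-- the last term in trace form -/
theorem omega_term4 (τ s : RM n) (k t : Fin n → RM n) (hτ : τᵀ = τ) (hs : sᵀ = s)
    (hk : ∀ l, (k l)ᵀ = k l) (ht : ∀ l, (t l)ᵀ = t l)
    (hΦ : ∀ i a b, ∑ l, τ i l * t l a b = ∑ l, τ a l * t l i b) :
    ∑ i, ∑ j, ∑ a, ∑ b, (τ * s * τ) i j * t i a b * (k a b j + k b a j - k j a b) =
      2 * ∑ a, ∑ l, τ a l * (k a * (τ * s * t l)).trace
        - ∑ i, ∑ j, (τ * s * τ) i j * (t i * k j).trace := by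
  have hM : (τ * s * τ)ᵀ = τ * s * τ := by
    rw [transpose_mul, transpose_mul, hτ, hs, Matrix.mul_assoc]
  have e0 : ∀ j a b, ∑ i, (τ * s * τ) i j * t i a b = ∑ l, τ a l * (τ * s * t l) j b := by
    intro j a b
    calc ∑ i, (τ * s * τ) i j * t i a b = ∑ i, ∑ m, (τ * s) j m * (τ m i * t i a b) := by
          refine Finset.sum_congr rfl fun i _ => ?_
          rw [omega_symm hM i j, Matrix.mul_apply, Finset.sum_mul]
          exact Finset.sum_congr rfl fun m _ => by ring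
      _ = ∑ m, (τ * s) j m * ∑ i, τ m i * t i a b := by
          rw [Finset.sum_comm]
          simp only [Finset.mul_sum]
      _ = ∑ m, ∑ l, τ a l * ((τ * s) j m * t l m b) := by
          refine Finset.sum_congr rfl fun m _ => ?_
          rw [hΦ, Finset.mul_sum]
          exact Finset.sum_congr rfl fun l _ => by ring
      _ = _ := by
          rw [Finset.sum_comm]
          refine Finset.sum_congr rfl fun l _ => ?_
          rw [← Finset.mul_sum, Matrix.mul_apply (M := τ * s)]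
  have e1 : ∑ i, ∑ j, ∑ a, ∑ b, (τ * s * τ) i j * t i a b * k a b j =
      ∑ a, ∑ l, τ a l * (k a * (τ * s * t l)).trace := by
    calc ∑ i, ∑ j, ∑ a, ∑ b, (τ * s * τ) i j * t i a b * k a b j
        = ∑ j, ∑ a, ∑ b, (∑ i, (τ * s * τ) i j * t i a b) * k a b j := by
          rw [Finset.sum_comm]
          refine Finset.sum_congr rfl fun j _ => ?_
          rw [Finset.sum_comm]
          refine Finset.sum_congr rfl fun a _ => ?_
          rw [Finset.sum_comm]
          simp only [Finset.sum_mul]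
      _ = ∑ a, ∑ j, ∑ b, ∑ l, τ a l * (k a b j * (τ * s * t l) j b) := by
          rw [Finset.sum_comm]
          refine Finset.sum_congr rfl fun a _ => Finset.sum_congr rfl fun j _ =>
            Finset.sum_congr rfl fun b _ => ?_
          rw [e0, Finset.sum_mul]
          exact Finset.sum_congr rfl fun l _ => by ring
      _ = _ := by
          refine Finset.sum_congr rfl fun a _ => ?_
          rw [omega_swap23, omega_swap12, omega_swap23]
          refine Finset.sum_congr rfl fun l _ => ?_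
          rw [omega_tr, Finset.mul_sum]
          simp only [Finset.mul_sum]
  have e2 : ∑ i, ∑ j, ∑ a, ∑ b, (τ * s * τ) i j * t i a b * k b a j =
      ∑ i, ∑ j, ∑ a, ∑ b, (τ * s * τ) i j * t i a b * k a b j := by
    refine Finset.sum_congr rfl fun i _ => Finset.sum_congr rfl fun j _ => ?_
    rw [Finset.sum_comm]
    refine Finset.sum_congr rfl fun a _ => Finset.sum_congr rfl fun b _ => ?_
    rw [omega_symm (ht i) b a]
  have e3 : ∑ i, ∑ j, ∑ a, ∑ b, (τ * s * τ) i j * t i a b * k j a b =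
      ∑ i, ∑ j, (τ * s * τ) i j * (t i * k j).trace := by
    refine Finset.sum_congr rfl fun i _ => Finset.sum_congr rfl fun j _ => ?_
    rw [omega_tr]
    simp only [Finset.mul_sum]
    refine Finset.sum_congr rfl fun a _ => Finset.sum_congr rfl fun b _ => ?_
    rw [omega_symm (hk j) b a, mul_assoc]
  simp only [mul_add, mul_sub, Finset.sum_add_distrib, Finset.sum_sub_distrib]
  rw [e2, e1, e3]
  ring

/-- change of frame in a bilinear expression -/
theorem omega_bil (R M : RM n) (X Y : Fin n → RM n) :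
    ∑ a, ∑ b, M a b * ((∑ a', R a' a • X a') * (∑ b', R b' b • Y b')).trace =
      ∑ a', ∑ b', (R * M * Rᵀ) a' b' * (X a' * Y b').trace := by
  have e1 : ∀ a b, M a b * ((∑ a', R a' a • X a') * (∑ b', R b' b • Y b')).trace =
      ∑ a', ∑ b', R a' a * M a b * R b' b * (X a' * Y b').trace := by
    intro a b
    rw [Finset.sum_mul_sum, Matrix.trace_sum, Finset.mul_sum]
    refine Finset.sum_congr rfl fun a' _ => ?_
    rw [Matrix.trace_sum, Finset.mul_sum]
    refine Finset.sum_congr rfl fun b' _ => ?_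
    rw [Matrix.smul_mul, Matrix.mul_smul, Matrix.trace_smul, Matrix.trace_smul, smul_eq_mul,
      smul_eq_mul]
    ring
  have e2 : ∀ a' b', (R * M * Rᵀ) a' b' * (X a' * Y b').trace =
      ∑ a, ∑ b, R a' a * M a b * R b' b * (X a' * Y b').trace := by
    intro a' b'
    rw [Finset.sum_comm, Matrix.mul_apply, Finset.sum_mul]
    refine Finset.sum_congr rfl fun b _ => ?_
    rw [Matrix.mul_apply, Finset.sum_mul, Finset.sum_mul]
    rfl
  simp only [e1, e2]
  calc ∑ a, ∑ b, ∑ a', ∑ b', R a' a * M a b * R b' b * (X a' * Y b').trace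
      = ∑ a, ∑ a', ∑ b', ∑ b, R a' a * M a b * R b' b * (X a' * Y b').trace := by
        refine Finset.sum_congr rfl fun a _ => ?_
        rw [Finset.sum_comm]
        exact Finset.sum_congr rfl fun a' _ => Finset.sum_comm
    _ = _ := by
        rw [Finset.sum_comm]
        exact Finset.sum_congr rfl fun a' _ => Finset.sum_comm

theorem omega_bil1 (R : RM n) (X Y : Fin n → RM n) :
    ∑ a, ((∑ a', R a' a • X a') * (∑ b', R b' a • Y b')).trace =
      ∑ a', ∑ b', (R * Rᵀ) a' b' * (X a' * Y b').trace := by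
  have h := omega_bil R 1 X Y
  rw [Matrix.mul_one] at h
  rw [← h]
  refine Finset.sum_congr rfl fun a _ => ?_
  simp [Matrix.one_apply]

/-- The orthonormal-frame case `τ = g = 1`: `ϕ` is totally symmetric, `κ l`, `S` are symmetric.
With `Θ l a b = ∑ i, S l i * ϕ i a b` (symmetric in `a b`) and `β l a b = Θ b l a + Θ a l b`
(`= (ϕ l * S + S * ϕ l) a b`) the expression equals
`2|κ|² + ⟨κ, 2Θ + β⟩ + ½|β|² = 2|κ + (2Θ+β)/4|² + ¼(|Θ|² - ⟨Θ, πΘ⟩)`, where
`⟨Θ,πΘ⟩ = ∑ Θ l a b * Θ b l a ≤ |Θ|²`; use `|β|² = 2|Θ|² + 2⟨Θ,πΘ⟩`, `⟨β,Θ⟩ = 2⟨Θ,πΘ⟩`,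
first sum `= |Θ|²`, `∑ tr(ϕ_l S ϕ_l S) = ⟨Θ,πΘ⟩`, `∑ Θ j a b * κ a b j = ½⟨κ,β⟩`. -/
theorem omega_frame (S : RM n) (κ ϕ : Fin n → RM n) (hS : Sᵀ = S) (hκ : ∀ l, (κ l)ᵀ = κ l)
    (hϕ : ∀ l, (ϕ l)ᵀ = ϕ l) (hΦ : ∀ l a b, ϕ l a b = ϕ a l b) :
    0 ≤ ∑ a, ∑ b, (S * S) a b * (ϕ a * ϕ b).trace
      + ∑ l, (ϕ l * (κ l * S + S * ϕ l * S + S * κ l)).trace
      + 2 * ∑ l, (κ l * (ϕ l * S + κ l + S * ϕ l)).trace
      - 2 * ∑ i, ∑ j, ∑ a, ∑ b, S i j * ϕ i a b * (κ a b j + κ b a j - κ j a b) := by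
  have hΦ' : ∀ l a b, ϕ l a b = ϕ a b l := fun l a b => by
    rw [hΦ l a b, omega_symm (hϕ a) l b]
  have hT : ∀ l a b, (ϕ l * S) a b = (ϕ a * S) l b := fun l a b => by
    simp only [Matrix.mul_apply, hΦ l a]
  have hT' : ∀ l a b, (S * ϕ l) a b = (ϕ l * S) b a := fun l a b => by
    have : (ϕ l * S)ᵀ = S * ϕ l := by rw [transpose_mul, hS, hϕ]
    rw [← this]
    rfl
  have hT'' : ∀ j a b, ∑ i, S i j * ϕ i a b = (ϕ a * S) b j := fun j a b => by
    rw [Matrix.mul_apply]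
    exact Finset.sum_congr rfl fun i _ => by rw [hΦ' i a b, mul_comm]
  have h := omega_core (fun l a b => (ϕ l * S) a b) (fun l a b => κ l a b) hT
    (fun l a b => omega_symm (hκ l) a b)
  have t1 : ∑ a, ∑ b, (S * S) a b * (ϕ a * ϕ b).trace = ∑ l, ∑ a, ∑ b, (ϕ l * S) a b ^ 2 := by
    have h1 := omega_bil S 1 ϕ ϕ
    rw [Matrix.mul_one, hS] at h1
    rw [← h1, omega_swap23, omega_swap12]
    refine Finset.sum_congr rfl fun j _ => ?_
    simp only [Matrix.one_apply, ite_mul, one_mul, zero_mul, Finset.sum_ite_eq, Finset.mem_univ,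
      if_true]
    rw [omega_tr]
    refine Finset.sum_congr rfl fun a _ => Finset.sum_congr rfl fun b _ => ?_
    simp only [Matrix.sum_apply, Matrix.smul_apply, smul_eq_mul, hT'']
    rw [hT b a j, sq]
  have t2 : ∀ l, (κ l * (ϕ l * S)).trace = ∑ a, ∑ b, κ l a b * (ϕ l * S) a b := fun l => by
    rw [omega_tr, Finset.sum_comm]
    refine Finset.sum_congr rfl fun a _ => Finset.sum_congr rfl fun b _ => ?_
    rw [omega_symm (hκ l) b a]
  have t3 : ∀ l, (κ l * (S * ϕ l)).trace = ∑ a, ∑ b, κ l a b * (ϕ l * S) a b := fun l => by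
    rw [omega_tr]
    refine Finset.sum_congr rfl fun a _ => Finset.sum_congr rfl fun b _ => ?_
    rw [hT']
  have t4 : ∀ l, (κ l * κ l).trace = ∑ a, ∑ b, κ l a b ^ 2 := fun l => by
    rw [omega_tr]
    refine Finset.sum_congr rfl fun a _ => Finset.sum_congr rfl fun b _ => ?_
    rw [omega_symm (hκ l) b a, sq]
  have t5 : ∀ l, (ϕ l * (κ l * S + S * ϕ l * S + S * κ l)).trace =
      2 * ∑ a, ∑ b, κ l a b * (ϕ l * S) a b + ∑ a, ∑ b, (ϕ l * S) a b * (ϕ l * S) b a := by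
    intro l
    rw [Matrix.mul_add, Matrix.mul_add, trace_add, trace_add, ← omega_tr (ϕ l * S) (ϕ l * S), two_mul]
    have a1 : (ϕ l * (κ l * S)).trace = (κ l * (S * ϕ l)).trace := by
      rw [trace_mul_comm, Matrix.mul_assoc]
    have a2 : (ϕ l * (S * κ l)).trace = (κ l * (ϕ l * S)).trace := by
      rw [← Matrix.mul_assoc, trace_mul_comm]
    have a3 : ϕ l * (S * ϕ l * S) = ϕ l * S * (ϕ l * S) := by simp only [Matrix.mul_assoc]
    rw [a1, a2, a3, t2, t3]
    ring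
  have t6 : ∀ l, (κ l * (ϕ l * S + κ l + S * ϕ l)).trace =
      2 * ∑ a, ∑ b, κ l a b * (ϕ l * S) a b + ∑ a, ∑ b, κ l a b ^ 2 := by
    intro l
    rw [Matrix.mul_add, Matrix.mul_add, trace_add, trace_add, t2, t3, t4]
    ring
  have t7 := omega_term4 1 S κ ϕ transpose_one hS hκ hϕ (fun i a b => by
    simp [Matrix.one_apply, hΦ i a b])
  simp only [Matrix.mul_one, Matrix.one_apply, ite_mul, one_mul, zero_mul,
    Finset.sum_ite_eq, Finset.mem_univ, if_true, t3] at t7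
  have t8 : ∑ i, ∑ j, S i j * (ϕ i * κ j).trace = ∑ l, ∑ a, ∑ b, κ l a b * (ϕ a * S) b l := by
    rw [Finset.sum_comm]
    refine Finset.sum_congr rfl fun j _ => ?_
    simp only [omega_tr, Finset.mul_sum, ← hT'']
    rw [omega_swap12, omega_swap23]
    refine Finset.sum_congr rfl fun a _ => Finset.sum_congr rfl fun b _ =>
      Finset.sum_congr rfl fun i _ => ?_
    rw [omega_symm (hκ j) b a]
    ring
  rw [t1, t7, t8]
  simp only [t5, t6, Finset.sum_add_distrib, ← Finset.mul_sum]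
  linarith

open scoped MatrixOrder in
theorem omega_sqrt {τ : RM n} (hτ : τ.PosDef) : ∃ R : RM n, Rᵀ = R ∧ R * R = τ := by
  have h0 : 0 ≤ τ := hτ.posSemidef.nonneg
  refine ⟨CFC.sqrt τ, ?_, CFC.sqrt_mul_sqrt_self τ h0⟩
  have h1 : (CFC.sqrt τ).PosSemidef := (CFC.sqrt_nonneg τ).posSemidef
  have h2 := h1.isHermitian
  rw [Matrix.IsHermitian, Matrix.conjTranspose_eq_transpose_of_trivial] at h2
  exact h2

/-- General frame. Write `τ = R * R` with `R` symmetric invertible (square root), `Ri = R⁻¹`,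
`g = Ri * Ri`, and apply `omega_frame` to `S = R s R`, `κ l = ∑ l', R l' l • (R * k l' * R)`,
`ϕ l = ∑ l', R l' l • (Ri * t l' * Ri)`; each of the four terms is invariant.
(`ϕ` is totally symmetric because `∑ R i l * R j a * R m b * ϕ l a b = ∑ l, τ i l * t l j m`.) -/
theorem omega_nonneg (τ g s : RM n) (k t : Fin n → RM n) (hτ : τ.PosDef) (hinv : τ * g = 1)
    (hs : sᵀ = s) (hk : ∀ l, (k l)ᵀ = k l) (ht : ∀ l, (t l)ᵀ = t l)
    (hΦ : ∀ i a b, ∑ l, τ i l * t l a b = ∑ l, τ a l * t l i b) :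
    0 ≤ ∑ a, ∑ b, (τ * (s * τ * s) * τ) a b * (t a * g * t b * g).trace
      + ∑ j, ∑ l, τ j l * (t j * (k l * τ * s + s * t l * s + s * τ * k l)).trace
      + 2 * ∑ j, ∑ l, τ j l * (k j * (t l * s * τ + τ * k l * τ + τ * s * t l)).trace
      - 2 * ∑ i, ∑ j, ∑ a, ∑ b, (τ * s * τ) i j * t i a b * (k a b j + k b a j - k j a b) := by
  obtain ⟨R, hR, hRR⟩ := omega_sqrt hτ
  have hτt : τᵀ = τ := by rw [← hRR, transpose_mul, hR]
  obtain ⟨Ri, hRi⟩ : ∃ Ri : RM n, Ri = R * g := ⟨_, rfl⟩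
  have h1 : R * Ri = 1 := by rw [hRi, ← Matrix.mul_assoc, hRR, hinv]
  have h2 : Ri * R = 1 := mul_eq_one_comm.1 h1
  have hg : Ri * Ri = g := by
    conv_lhs => rhs; rw [hRi]
    rw [← Matrix.mul_assoc, h2, Matrix.one_mul]
  have hRit : Riᵀ = Ri := by
    have h3 : Riᵀ * R = 1 := by
      conv_lhs => rhs; rw [← hR]
      rw [← transpose_mul, h1, transpose_one]
    calc Riᵀ = Riᵀ * (R * Ri) := by rw [h1, Matrix.mul_one]
      _ = Ri := by rw [← Matrix.mul_assoc, h3, Matrix.one_mul]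
  have c1 : ∀ X : RM n, R * (Ri * X) = X := fun X => by
    rw [← Matrix.mul_assoc, h1, Matrix.one_mul]
  have c2 : ∀ X : RM n, Ri * (R * X) = X := fun X => by
    rw [← Matrix.mul_assoc, h2, Matrix.one_mul]
  have c3 : ∀ X : RM n, R * (R * X) = τ * X := fun X => by rw [← Matrix.mul_assoc, hRR]
  have c4 : ∀ X : RM n, Ri * (Ri * X) = g * X := fun X => by rw [← Matrix.mul_assoc, hg]
  obtain ⟨S, hSd⟩ : ∃ S : RM n, S = R * s * R := ⟨_, rfl⟩
  obtain ⟨κ, hκd⟩ : ∃ κ : Fin n → RM n, ∀ l, κ l = ∑ l', R l' l • (R * k l' * R) := ⟨_, fun _ => rfl⟩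
  obtain ⟨ϕ, hϕd⟩ : ∃ ϕ : Fin n → RM n, ∀ l, ϕ l = ∑ l', R l' l • (Ri * t l' * Ri) :=
    ⟨_, fun _ => rfl⟩
  have hS : Sᵀ = S := by rw [hSd, transpose_mul, transpose_mul, hR, hs, Matrix.mul_assoc]
  have hκ : ∀ l, (κ l)ᵀ = κ l := fun l => by
    rw [hκd, transpose_sum]
    refine Finset.sum_congr rfl fun l' _ => ?_
    rw [transpose_smul, transpose_mul, transpose_mul, hR, hk, Matrix.mul_assoc]
  have hϕ : ∀ l, (ϕ l)ᵀ = ϕ l := fun l => by
    rw [hϕd, transpose_sum]
    refine Finset.sum_congr rfl fun l' _ => ?_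
    rw [transpose_smul, transpose_mul, transpose_mul, hRit, ht, Matrix.mul_assoc]
  have hϕe : ∀ l a b, ϕ l a b = ∑ q, ∑ i, ∑ p, Ri l i * Ri a p * (∑ m, τ i m * t m p q) * Ri q b := by
    intro l a b
    have h3 : ∀ m, R m l = ∑ i, Ri l i * τ i m := fun m => by
      rw [← Matrix.mul_apply, ← hRR, c2, omega_symm hR]
    rw [hϕd]
    simp only [Matrix.sum_apply, Matrix.smul_apply, smul_eq_mul, h3, Matrix.mul_apply,
      Finset.sum_mul, Finset.mul_sum]
    rw [Finset.sum_comm]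
    refine Finset.sum_congr rfl fun q _ => ?_
    rw [omega_swap12, omega_swap23, omega_swap12]
    refine Finset.sum_congr rfl fun i _ => Finset.sum_congr rfl fun p _ =>
      Finset.sum_congr rfl fun m _ => ?_
    ring
  have hΦ' : ∀ l a b, ϕ l a b = ϕ a l b := fun l a b => by
    rw [hϕe, hϕe]
    refine Finset.sum_congr rfl fun q _ => ?_
    rw [Finset.sum_comm]
    refine Finset.sum_congr rfl fun i _ => Finset.sum_congr rfl fun p _ => ?_
    rw [hΦ p i q]
    ring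
  have h := omega_frame S κ ϕ hS hκ hϕ hΦ'
  have t4 := omega_term4 1 S κ ϕ transpose_one hS hκ hϕ (fun i a b => by
    simp [Matrix.one_apply, hΦ' i a b])
  simp only [Matrix.mul_one, Matrix.one_apply, ite_mul, one_mul, zero_mul,
    Finset.sum_ite_eq, Finset.mem_univ, if_true] at t4
  rw [t4] at h
  rw [omega_term4 τ s k t hτt hs hk ht hΦ]
  have u1 : ∑ a, ∑ b, (S * S) a b * (ϕ a * ϕ b).trace =
      ∑ a, ∑ b, (τ * (s * τ * s) * τ) a b * (t a * g * t b * g).trace := by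
    simp only [hϕd]
    rw [omega_bil, hR]
    have : R * (S * S) * R = τ * (s * τ * s) * τ := by
      simp only [hSd, Matrix.mul_assoc, c3, hRR]
    rw [this]
    refine Finset.sum_congr rfl fun a _ => Finset.sum_congr rfl fun b _ => ?_
    congr 1
    simp only [Matrix.mul_assoc]
    rw [trace_mul_comm]
    simp only [Matrix.mul_assoc, c4, hg]
  have u2 : ∑ l, (ϕ l * (κ l * S + S * ϕ l * S + S * κ l)).trace =
      ∑ j, ∑ l, τ j l * (t j * (k l * τ * s + s * t l * s + s * τ * k l)).trace := by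
    have e : ∀ l, κ l * S + S * ϕ l * S + S * κ l =
        ∑ l', R l' l • (R * (k l' * τ * s + s * t l' * s + s * τ * k l') * R) := by
      intro l
      rw [hκd, hϕd]
      simp only [Finset.sum_mul, Finset.mul_sum, ← Finset.sum_add_distrib]
      refine Finset.sum_congr rfl fun l' _ => ?_
      simp only [hSd, Matrix.smul_mul, Matrix.mul_smul, Matrix.mul_add, Matrix.add_mul, smul_add,
        Matrix.mul_assoc, c1, c2, c3]
    simp only [e]
    simp only [hϕd]
    rw [omega_bil1, hR, hRR]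
    refine Finset.sum_congr rfl fun a _ => Finset.sum_congr rfl fun b _ => ?_
    congr 1
    simp only [Matrix.mul_assoc, c2]
    rw [trace_mul_comm]
    simp only [Matrix.mul_assoc, h1, Matrix.mul_one]
  have u3 : ∑ l, (κ l * (ϕ l * S + κ l + S * ϕ l)).trace =
      ∑ j, ∑ l, τ j l * (k j * (t l * s * τ + τ * k l * τ + τ * s * t l)).trace := by
    have e : ∀ l, ϕ l * S + κ l + S * ϕ l =
        ∑ l', R l' l • (Ri * (t l' * s * τ + τ * k l' * τ + τ * s * t l') * Ri) := by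
      intro l
      rw [hκd, hϕd]
      simp only [Finset.sum_mul, Finset.mul_sum, ← Finset.sum_add_distrib]
      refine Finset.sum_congr rfl fun l' _ => ?_
      simp only [hSd, ← hRR, Matrix.smul_mul, Matrix.mul_smul, Matrix.mul_add, Matrix.add_mul,
        smul_add, Matrix.mul_assoc, c1, c2, h1, Matrix.mul_one]
    simp only [e]
    simp only [hκd]
    rw [omega_bil1, hR, hRR]
    refine Finset.sum_congr rfl fun a _ => Finset.sum_congr rfl fun b _ => ?_
    congr 1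
    simp only [Matrix.mul_assoc, c1]
    rw [trace_mul_comm]
    simp only [Matrix.mul_assoc, h2, Matrix.mul_one]
  have u4 : ∑ a, (κ a * (S * ϕ a)).trace = ∑ a, ∑ l, τ a l * (k a * (τ * s * t l)).trace := by
    have e : ∀ l, S * ϕ l = ∑ l', R l' l • (Ri * (τ * s * t l') * Ri) := by
      intro l
      rw [hϕd]
      simp only [Finset.mul_sum]
      refine Finset.sum_congr rfl fun l' _ => ?_
      simp only [hSd, ← hRR, Matrix.mul_smul, Matrix.mul_assoc, c1, c2]
    simp only [e]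
    simp only [hκd]
    rw [omega_bil1, hR, hRR]
    refine Finset.sum_congr rfl fun a _ => Finset.sum_congr rfl fun b _ => ?_
    congr 1
    simp only [Matrix.mul_assoc, c1]
    rw [trace_mul_comm]
    simp only [Matrix.mul_assoc, h2, Matrix.mul_one]
  have u5 : ∑ i, ∑ j, S i j * (ϕ i * κ j).trace = ∑ i, ∑ j, (τ * s * τ) i j * (t i * k j).trace := by
    simp only [hϕd, hκd]
    rw [omega_bil, hR]
    have : R * S * R = τ * s * τ := by
      simp only [hSd, Matrix.mul_assoc, c3, hRR]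
    rw [this]
    refine Finset.sum_congr rfl fun a _ => Finset.sum_congr rfl fun b _ => ?_
    congr 1
    simp only [Matrix.mul_assoc, c2]
    rw [trace_mul_comm]
    simp only [Matrix.mul_assoc, h1, Matrix.mul_one]
  rw [u1, u2, u3, u4, u5] at h
  exact h

end Crest.Agent.R238
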