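import Crest.Agent.R238.KEid
import Crest.Agent.R238.Omega

/-!
# Row 238: the tensor Bochner inequality and Reilly's formula
-/

set_option autoImplicit false
open MeasureTheory Matrix
open scoped ContDiff BigOperators

noncomputable section
namespace Crest.Agent.R238

variable {n : ℕ}

/-- The symmetrised derivative of a vector field (one-form). -/
def sD (χ : Fin n → Sm n) : Mat n := Matrix.of fun i j => (1 / 2 : ℝ) • (pd i (χ j) + pd j (χ i))

theorem sD_symm (χ : Fin n → Sm n) : (sD χ)ᵀ = sD χ := by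
  ext i j : 1; simp [sD, add_comm]

theorem tmM_sD {χ : Fin n → Sm n} (h : ∀ j, Tm (χ j)) : TmM (sD χ) :=
  fun i j => (((h j).pd i).add ((h i).pd j)).smul _

theorem pd_pd_eq_sD (χ : Fin n → Sm n) (a b j : Fin n) :
    pd a (pd b (χ j)) = pd a (sD χ b j) + pd b (sD χ a j) - pd j (sD χ a b) := by
  simp only [sD, Matrix.of_apply, Derivation.map_smul, map_add]
  rw [pd_comm b a (χ j), pd_comm j a (χ b), pd_comm j b (χ a)]
  ext x; simp; ring

theorem sum_mul_eq_trace {M : Mat n} (hM : Mᵀ = M) (P : Mat n) :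
    ∑ a, ∑ b, M a b * P a b = (P * M).trace := by
  simp only [Matrix.trace, Matrix.diag, Matrix.mul_apply]
  refine Finset.sum_congr rfl fun a _ => Finset.sum_congr rfl fun b _ => ?_
  rw [show M b a = M a b from congrFun (congrFun hM a) b, mul_comm]

theorem sum_symm_half {σ : Mat n} (hσ : σᵀ = σ) (F : Fin n → Fin n → Sm n) :
    ∑ i, ∑ j, σ i j * ((1 / 2 : ℝ) • (F i j + F j i)) = ∑ i, ∑ j, σ i j * F i j := by
  have e : ∑ i, ∑ j, σ i j * F j i = ∑ i, ∑ j, σ i j * F i j := by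
    rw [Finset.sum_comm]
    refine Finset.sum_congr rfl fun a _ => Finset.sum_congr rfl fun b _ => ?_
    rw [show σ b a = σ a b from congrFun (congrFun hσ a) b]
  simp only [mul_smul_comm, mul_add, ← Finset.smul_sum, Finset.sum_add_distrib, e]
  ext x; simp; ring

theorem KE.Iw_pair (D : KE n) {P M : Mat n} (hP : TmM P) (hM : TmM M) (hs : Pᵀ = P) :
    Iw D.V (∑ a, ∑ b, P a b * Lop D.τ (M a b)) =
      -Iw D.V (∑ j, ∑ l, D.τ j l * (pdM j M * pdM l P).trace) := by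
  have hτ := D.sym0τ.tmM
  have e : ∑ j, ∑ l, D.τ j l * (pdM j M * pdM l P).trace = ∑ a, ∑ b, gam D.τ (P a b) (M a b) := by
    have : ∀ j l, (pdM j M * pdM l P).trace = ∑ a, ∑ b, pd l (P a b) * pd j (M a b) := fun j l =>
      (sum_mul_eq_trace (M := pdM l P) (by rw [← pdM_transpose, hs]) (pdM j M)).symm
    simp only [this, gam, Finset.mul_sum]
    have swap : ∀ F : Fin n → Fin n → Fin n → Fin n → Sm n,
        ∑ j, ∑ l, ∑ a, ∑ b, F j l a b = ∑ a, ∑ b, ∑ l, ∑ j, F j l a b := by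
      intro F
      simp only [← Finset.sum_product']
      refine Finset.sum_bij' (fun p _ => (p.2.2.1, p.2.2.2, p.2.1, p.1))
        (fun p _ => (p.2.2.2, p.2.2.1, p.1, p.2.1)) ?_ ?_ ?_ ?_ ?_ <;> simp
    rw [swap]
    refine Finset.sum_congr rfl fun a _ => Finset.sum_congr rfl fun b _ =>
      Finset.sum_congr rfl fun l _ => Finset.sum_congr rfl fun j _ => ?_
    rw [D.τ_apply_comm j l]; ring
  rw [e, Iw_sum D.symV _ (fun a _ => Tm.sum _ fun b _ => (hP a b).mul (Tm.Lop hτ (hM a b))),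
    Iw_sum D.symV _ (fun a _ => Tm.sum _ fun b _ => Tm.gam hτ (hP a b) (hM a b)),
    ← Finset.sum_neg_distrib]
  refine Finset.sum_congr rfl fun a _ => ?_
  rw [Iw_sum D.symV _ (fun b _ => (hP a b).mul (Tm.Lop hτ (hM a b))),
    Iw_sum D.symV _ (fun b _ => Tm.gam hτ (hP a b) (hM a b)), ← Finset.sum_neg_distrib]
  exact Finset.sum_congr rfl fun b _ => D.Iw_mul_Lop (hP a b) (hM a b)

theorem KE.conj_symm (D : KE n) {s : Mat n} (hs : sᵀ = s) : (D.τ * s * D.τ)ᵀ = D.τ * s * D.τ := by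
  rw [Matrix.transpose_mul, Matrix.transpose_mul, hs, D.τ_symm, Matrix.mul_assoc]

theorem KE.conj_symm' (D : KE n) {s : Mat n} (hs : sᵀ = s) : (s * D.τ * s)ᵀ = s * D.τ * s := by
  rw [Matrix.transpose_mul, Matrix.transpose_mul, hs, D.τ_symm, Matrix.mul_assoc]

/-- (T1) Let `s = sD χ`, `σ = τ s τ`. From `pd_Lop`: `∂_i Lχ_j = L ∂_iχ_j - ∂_iχ_j + con (pdM i τ) χ_j`;
pair with the symmetric `σ_ij`, use `pd_pd_eq_sD` and `Iw_mul_Lop` entrywise. -/
theorem KE.T1 (D : KE n) {χ : Fin n → Sm n} (h : ∀ j, Tm (χ j)) :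
    Iw D.V (-(sD fun j => Lop D.τ (χ j)) * (D.τ * sD χ * D.τ)).trace =
      Iw D.V (D.τ * sD χ * D.τ * sD χ).trace
      + Iw D.V (∑ j, ∑ l, D.τ j l * (pdM j (sD χ) * pdM l (D.τ * sD χ * D.τ)).trace)
      - Iw D.V (∑ i, ∑ j, ∑ a, ∑ b, (D.τ * sD χ * D.τ) i j * pd i (D.τ a b) *
          (pd a (sD χ b j) + pd b (sD χ a j) - pd j (sD χ a b))) := by
  have hτ := D.sym0τ.tmM
  have hs := tmM_sD h
  set σ : Mat n := D.τ * sD χ * D.τ with hσ
  have hσs : σᵀ = σ := D.conj_symm (sD_symm χ)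
  have hσt : TmM σ := (hτ.mul hs).mul hτ
  have e1 : ((sD fun j => Lop D.τ (χ j)) * σ).trace = ∑ i, ∑ j, σ i j * pd i (Lop D.τ (χ j)) := by
    rw [← sum_mul_eq_trace hσs]
    exact sum_symm_half hσs fun i j => pd i (Lop D.τ (χ j))
  have e2 : (D.τ * sD χ * D.τ * sD χ).trace = ∑ i, ∑ j, σ i j * pd i (χ j) := by
    rw [Matrix.trace_mul_comm, ← sum_mul_eq_trace hσs]
    exact sum_symm_half hσs fun i j => pd i (χ j)
  have e3 : ∑ i, ∑ j, σ i j * Lop D.τ (sD χ i j) = ∑ i, ∑ j, σ i j * Lop D.τ (pd i (χ j)) := by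
    simp only [sD, Matrix.of_apply, Lop_smul, Lop_add]
    exact sum_symm_half hσs fun i j => Lop D.τ (pd i (χ j))
  have e4 : (-(sD fun j => Lop D.τ (χ j)) * σ).trace =
      (D.τ * sD χ * D.τ * sD χ).trace - ∑ i, ∑ j, σ i j * Lop D.τ (sD χ i j)
      - ∑ i, ∑ j, ∑ a, ∑ b, σ i j * pd i (D.τ a b) *
          (pd a (sD χ b j) + pd b (sD χ a j) - pd j (sD χ a b)) := by
    rw [Matrix.neg_mul, Matrix.trace_neg, e1, e2, e3]
    simp only [pd_Lop, con, pdM_apply, ← pd_pd_eq_sD, mul_add, mul_sub, Finset.mul_sum,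
      Finset.sum_add_distrib, Finset.sum_sub_distrib, mul_assoc]
    ring
  have t1 : Tm (D.τ * sD χ * D.τ * sD χ).trace := (hσt.mul hs).trace
  have t2 : Tm (∑ i, ∑ j, σ i j * Lop D.τ (sD χ i j)) :=
    Tm.sum _ fun i _ => Tm.sum _ fun j _ => (hσt i j).mul (Tm.Lop hτ (hs i j))
  have t3 : Tm (∑ i, ∑ j, ∑ a, ∑ b, σ i j * pd i (D.τ a b) *
      (pd a (sD χ b j) + pd b (sD χ a j) - pd j (sD χ a b))) :=
    Tm.sum _ fun i _ => Tm.sum _ fun j _ => Tm.sum _ fun a _ => Tm.sum _ fun b _ =>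
      ((hσt i j).mul ((hτ a b).pd i)).mul ((((hs b j).pd a).add ((hs a j).pd b)).sub ((hs a b).pd j))
  rw [e4, Iw_sub D.symV (t1.sub t2) t3, Iw_sub D.symV t1 t2, D.Iw_pair hσt hs hσs]
  ring

/-- (T2) Pair `L_τ` with a symmetric tempered matrix `M` and use `Iw_mul_Lop` entrywise. -/
theorem KE.T2 (D : KE n) {M : Mat n} (hM : TmM M) (hs : Mᵀ = M) :
    Iw D.V (D.τ * M).trace =
      Iw D.V (∑ a, ∑ b, (D.τ * M * D.τ) a b * D.Γ a b) + Iw D.V (D.τ * D.H * D.τ * M).trace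
      + Iw D.V (∑ j, ∑ l, D.τ j l * (pdM j D.τ * pdM l M).trace) := by
  have hτ := D.sym0τ.tmM
  have hH := D.sym0H.tmM
  have hΓ : TmM D.Γ := fun a b =>
    (((hτ.mul ((D.symζ.tm.pd a).hess)).mul hτ).mul ((D.symζ.tm.pd b).hess)).trace
  have k := D.Iw_pair hM hτ hs
  have e : ∑ a, ∑ b, M a b * Lop D.τ (D.τ a b) =
      ∑ a, ∑ b, (D.τ * M * D.τ) a b * D.Γ a b + (D.τ * D.H * D.τ * M).trace - (D.τ * M).trace := by
    simp only [D.L_τ]
    rw [sum_mul_eq_trace hs, sum_mul_eq_trace (D.conj_symm hs), Matrix.add_mul, Matrix.add_mul,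
      Matrix.trace_add, Matrix.trace_add, Matrix.neg_mul, Matrix.trace_neg]
    have : (D.Γ * (D.τ * M * D.τ)).trace = (D.τ * D.Γ * D.τ * M).trace := by
      rw [← Matrix.mul_assoc, Matrix.trace_mul_comm]; simp only [Matrix.mul_assoc]
    rw [this]; ring
  have t1 : Tm (∑ a, ∑ b, (D.τ * M * D.τ) a b * D.Γ a b) :=
    Tm.sum _ fun a _ => Tm.sum _ fun b _ => (((hτ.mul hM).mul hτ) a b).mul (hΓ a b)
  have t2 : Tm (D.τ * D.H * D.τ * M).trace := (((hτ.mul hH).mul hτ).mul hM).trace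
  have t3 : Tm (D.τ * M).trace := (hτ.mul hM).trace
  rw [e, Iw_sub D.symV (t1.add t2) t3, Iw_add D.symV t1 t2] at k
  linarith

/-- `2 (T1)` with one copy of `I(tr(τsτs))` replaced by (T2) for `M = s τ s`; the remaining integrand is
pointwise nonnegative by `omega_nonneg` (`k l = ∂_l s`, `t l = ∂_l τ` evaluated at `x`; `pdM_mul`,
`Γ_eq`, `Phi_symm`). -/
theorem KE.tensor (D : KE n) {χ : Fin n → Sm n} (h : ∀ j, Tm (χ j)) :
    Iw D.V (D.τ * sD χ * D.τ * sD χ).trace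
      + Iw D.V (D.τ * D.H * D.τ * (sD χ * D.τ * sD χ)).trace
      ≤ 2 * Iw D.V (-(sD fun j => Lop D.τ (χ j)) * (D.τ * sD χ * D.τ)).trace := by
  have hτ := D.sym0τ.tmM
  have hs := tmM_sD h
  have hΓ : TmM D.Γ := fun a b =>
    (((hτ.mul ((D.symζ.tm.pd a).hess)).mul hτ).mul ((D.symζ.tm.pd b).hess)).trace
  have hM : TmM (sD χ * D.τ * sD χ) := (hs.mul hτ).mul hs
  have hσ : TmM (D.τ * sD χ * D.τ) := (hτ.mul hs).mul hτ
  have k1 := D.T1 h
  have k2 := D.T2 hM (D.conj_symm' (sD_symm χ))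
  have e : D.τ * (sD χ * D.τ * sD χ) = D.τ * sD χ * D.τ * sD χ := by simp only [Matrix.mul_assoc]
  rw [e] at k2
  set o1 := ∑ a, ∑ b, (D.τ * sD χ * D.τ * sD χ * D.τ) a b * D.Γ a b with ho1
  set o2 := ∑ j, ∑ l, D.τ j l * (pdM j D.τ * pdM l (sD χ * D.τ * sD χ)).trace with ho2
  set o3 := ∑ j, ∑ l, D.τ j l * (pdM j (sD χ) * pdM l (D.τ * sD χ * D.τ)).trace with ho3
  set o4 := ∑ i, ∑ j, ∑ a, ∑ b, (D.τ * sD χ * D.τ) i j * pd i (D.τ a b) *
          (pd a (sD χ b j) + pd b (sD χ a j) - pd j (sD χ a b)) with ho4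
  have t1 : Tm o1 := Tm.sum _ fun a _ => Tm.sum _ fun b _ => (((hσ.mul hs).mul hτ) a b).mul (hΓ a b)
  have t2 : Tm o2 := Tm.sum _ fun j _ => Tm.sum _ fun l _ =>
    (hτ j l).mul ((hτ.pdM j).mul (hM.pdM l)).trace
  have t3 : Tm o3 := Tm.sum _ fun j _ => Tm.sum _ fun l _ =>
    (hτ j l).mul ((hs.pdM j).mul (hσ.pdM l)).trace
  have t4 : Tm o4 :=
    Tm.sum _ fun i _ => Tm.sum _ fun j _ => Tm.sum _ fun a _ => Tm.sum _ fun b _ =>
      ((hσ i j).mul ((hτ a b).pd i)).mul ((((hs b j).pd a).add ((hs a j).pd b)).sub ((hs a b).pd j))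
  have hΩ : 0 ≤ Iw D.V (o1 + o2 + (2 : ℝ) • o3 - (2 : ℝ) • o4) := by
    refine Iw_nonneg _ fun x => ?_
    have := omega_nonneg (evM x D.τ) (evM x D.g) (evM x (sD χ)) (fun l => evM x (pdM l (sD χ)))
      (fun l => evM x (pdM l D.τ)) (D.τ_posDef x) (evM_inv D.τg x)
      (by rw [← evM_transpose, sD_symm])
      (fun l => by rw [← evM_transpose, ← pdM_transpose, sD_symm])
      (fun l => by rw [← evM_transpose, ← pdM_transpose, D.τ_symm])
      (fun i a b => by simpa using congrArg (ev x) (D.Phi_symm i a b))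
    convert this using 1
    simp only [ho1, ho2, ho3, ho4, map_sub, map_add, map_smul, map_sum, map_mul, smul_eq_mul,
      D.Γ_eq, ev_trace, pdM_mul, evM_mul, evM_add, ← evM_apply, Matrix.mul_assoc]
    simp only [evM_apply, pdM_apply, Matrix.mul_add, add_assoc]
  rw [Iw_sub D.symV ((t1.add t2).add (t3.smul 2)) (t4.smul 2), Iw_add D.symV (t1.add t2) (t3.smul 2),
    Iw_add D.symV t1 t2, Iw_smul, Iw_smul] at hΩ
  linarith

/-- With `δ = ∑ (∂_a w_a - W_a w_a)`: `I(δ²) = -∑ I(w_a ∂_aδ)`,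
`∂_aδ = ∑_b (∂_b(∂_a w_b) - W_b ∂_a w_b) - ∑_b H_ab w_b`, and `Iw_pd` again. -/
theorem reilly {V : Sm n} (hV : Sym 0 V) {w : Fin n → Sm n} (hw : ∀ a, Tm (w a)) :
    Iw V ((∑ a, (pd a (w a) - (X a + pd a V) * w a)) ^ 2) =
      Iw V (∑ a, ∑ b, pd a (w b) * pd b (w a))
      + Iw V (∑ a, ∑ b, (1 + hess V : Mat n) a b * w a * w b) := by
  have hW : ∀ a, Tm (X a + pd a V) := fun a => (tm_X a).add (hV.tm.pd a)
  have hH : TmM (1 + hess V : Mat n) := tmM_one.add hV.tm.hess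
  -- `I(f · div_μ v) = - I(∇f · v)`
  have ibp : ∀ (f : Sm n) (v : Fin n → Sm n), Tm f → (∀ a, Tm (v a)) →
      Iw V (f * ∑ a, (pd a (v a) - (X a + pd a V) * v a)) = -Iw V (∑ a, pd a f * v a) := by
    intro f v hf hv
    have e : f * ∑ a, (pd a (v a) - (X a + pd a V) * v a) =
        ∑ a, pd a (f * v a) - ∑ a, (X a + pd a V) * (f * v a) - ∑ a, pd a f * v a := by
      simp only [pd_mul, Finset.mul_sum, ← Finset.sum_sub_distrib]
      exact Finset.sum_congr rfl fun a _ => by ring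
    have t1 : ∀ a, Tm (pd a (f * v a)) := fun a => (hf.mul (hv a)).pd a
    have t2 : ∀ a, Tm ((X a + pd a V) * (f * v a)) := fun a => (hW a).mul (hf.mul (hv a))
    have t3 : Tm (∑ a, pd a f * v a) := Tm.sum _ fun a _ => (hf.pd a).mul (hv a)
    rw [e, Iw_sub hV ((Tm.sum _ fun a _ => t1 a).sub (Tm.sum _ fun a _ => t2 a)) t3,
      Iw_sub hV (Tm.sum _ fun a _ => t1 a) (Tm.sum _ fun a _ => t2 a), Iw_sum hV _ fun a _ => t1 a,
      Iw_sum hV _ fun a _ => t2 a]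
    simp only [Iw_pd hV (hf.mul (hv _))]
    ring
  set δ := ∑ a, (pd a (w a) - (X a + pd a V) * w a) with hδ
  have hδt : Tm δ := Tm.sum _ fun a _ => ((hw a).pd a).sub ((hW a).mul (hw a))
  have e1 : ∀ a, pd a δ = ∑ b, (pd b (pd a (w b)) - (X b + pd b V) * pd a (w b))
      - ∑ b, (1 + hess V : Mat n) a b * w b := by
    intro a
    simp only [hδ, map_sum, map_sub, pd_mul, map_add, pd_X, ← Finset.sum_sub_distrib,
      Matrix.add_apply, Matrix.one_apply, hess_apply]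
    refine Finset.sum_congr rfl fun b _ => ?_
    rw [pd_comm a b (w b)]; ring
  have e2 : ∑ a, pd a δ * w a =
      ∑ a, w a * ∑ b, (pd b (pd a (w b)) - (X b + pd b V) * pd a (w b))
      - ∑ a, ∑ b, (1 + hess V : Mat n) a b * w a * w b := by
    simp only [e1, sub_mul, Finset.sum_sub_distrib]
    congr 1
    · simp only [← Finset.sum_sub_distrib]
      exact Finset.sum_congr rfl fun a _ => by
        rw [← sub_mul, ← Finset.sum_sub_distrib, mul_comm]
    · simp only [Finset.sum_mul]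
      exact Finset.sum_congr rfl fun a _ => Finset.sum_congr rfl fun b _ => by ring
  have t1 : ∀ a, Tm (w a * ∑ b, (pd b (pd a (w b)) - (X b + pd b V) * pd a (w b))) := fun a =>
    (hw a).mul (Tm.sum _ fun b _ => (((hw b).pd a).pd b).sub ((hW b).mul ((hw b).pd a)))
  have t2 : Tm (∑ a, ∑ b, (1 + hess V : Mat n) a b * w a * w b) :=
    Tm.sum _ fun a _ => Tm.sum _ fun b _ => ((hH a b).mul (hw a)).mul (hw b)
  rw [sq]
  conv_lhs => rw [hδ]
  rw [← hδ, show δ * δ = δ * ∑ a, (pd a (w a) - (X a + pd a V) * w a) from rfl, ibp δ w hδt hw, e2,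
    Iw_sub hV (Tm.sum _ fun a _ => t1 a) t2, Iw_sum hV _ fun a _ => t1 a,
    Iw_sum hV _ fun a _ => Tm.sum _ fun b _ => ((hw b).pd a).mul ((hw a).pd b)]
  have e3 : ∀ a, Iw V (w a * ∑ b, (pd b (pd a (w b)) - (X b + pd b V) * pd a (w b))) =
      -Iw V (∑ b, pd a (w b) * pd b (w a)) := by
    intro a
    rw [ibp (w a) (fun b => pd a (w b)) (hw a) fun b => (hw b).pd a]
    simp only [mul_comm]
  simp only [e3, Finset.sum_neg_distrib]
  ring

end Crest.Agent.R238
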