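import Crest.Agent.R238.Sym
import Crest.Agent.R238.Alg

/-!
# Row 238: maximum principles for `L = τ : D² - x · ∇`
-/

set_option autoImplicit false
open MeasureTheory Matrix
open scoped ContDiff BigOperators

noncomputable section
namespace Crest.Agent.R238

variable {n : ℕ}

/-- A continuous function that is eventually below its value at `x0` attains its maximum
(`Continuous.exists_forall_ge'`, `tendsto_r_cocompact`). -/
theorem exists_max_of_le {F : E n → ℝ} (hF : Continuous F) (x0 : E n) (R : ℝ)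
    (h : ∀ x, R ≤ r x → F x ≤ F x0) : ∃ x1, ∀ x, F x ≤ F x1 := by
  refine hF.exists_forall_ge' x0 ?_
  filter_upwards [tendsto_r_cocompact.eventually_ge_atTop R] with x hx using h x hx

theorem maxP_rpow {p : ℝ} (hp : 0 < p) (M : ℝ) : ∃ R : ℝ, ∀ t, R ≤ t → M ≤ t ^ p :=
  Filter.eventually_atTop.1 ((tendsto_rpow_atTop hp).eventually_ge_atTop M)

theorem exists_max_of_sym {m : ℝ} (hm : m < 0) {f : Sm n} (hf : Sym m f) {x0 : E n}
    (h0 : 0 < ev x0 f) : ∃ x1, ∀ x, ev x f ≤ ev x1 f := by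
  obtain ⟨C, -, hC⟩ := hf.abs_le
  obtain ⟨R, hR⟩ := maxP_rpow (neg_pos.2 hm) (C / ev x0 f)
  refine exists_max_of_le (ev_continuous f) x0 R fun x hx => ?_
  have h1 := hR _ hx
  rw [div_le_iff₀ h0] at h1
  have h2 : r x ^ (-m) * r x ^ m = 1 := by rw [← r_rpow_add]; simp
  calc ev x f ≤ C * r x ^ m := (le_abs_self _).trans (hC x)
    _ ≤ (r x ^ (-m) * ev x0 f) * r x ^ m := mul_le_mul_of_nonneg_right h1 (r_rpow_pos x m).le
    _ = ev x0 f := by rw [mul_right_comm, h2, one_mul]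

theorem pd_eq_zero_of_max {f : Sm n} {x : E n} (h : ∀ y, ev y f ≤ ev x f) (a : Fin n) :
    ev x (pd a f) = 0 := by
  have hm : IsLocalMax (fun y => ev y f) x := Filter.Eventually.of_forall h
  rw [ev_pd, hm.fderiv_eq_zero]
  rfl

theorem maxP_second {g g' : ℝ → ℝ} {c : ℝ} (hg : ∀ t, HasDerivAt g (g' t) t)
    (hg' : HasDerivAt g' c 0) (h0 : g' 0 = 0) (hmax : ∀ t, g t ≤ g 0) : c ≤ 0 := by
  by_contra hc
  push Not at hc
  have h1 := hg'.tendsto_slope_zero_right.eventually (lt_mem_nhds hc)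
  obtain ⟨δ, hδ, h2⟩ := (mem_nhdsGT_iff_exists_Ioo_subset).1 h1
  have hδ' : (0 : ℝ) < δ := hδ
  obtain ⟨ξ, hξ, h3⟩ := exists_hasDerivAt_eq_slope g g' hδ'
    (fun t _ => (hg t).continuousAt.continuousWithinAt) (fun t _ => hg t)
  have h4 : 0 < ξ⁻¹ • (g' (0 + ξ) - g' 0) := h2 hξ
  rw [zero_add, h0, sub_zero, smul_eq_mul] at h4
  have h5 : 0 < g' ξ := (mul_pos_iff_of_pos_left (inv_pos.2 hξ.1)).1 h4
  have h6 : (g δ - g 0) / (δ - 0) ≤ 0 :=
    div_nonpos_of_nonpos_of_nonneg (sub_nonpos.2 (hmax δ)) (by linarith)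
  linarith

/-- Second derivative test along lines (`hasDerivAt_line` twice). -/
theorem hess_nonpos_of_max {f : Sm n} {x : E n} (h : ∀ y, ev y f ≤ ev x f) (v : E n) :
    v ⬝ᵥ (evM x (hess f) *ᵥ v) ≤ 0 := by
  have h1 : HasDerivAt (fun t : ℝ => ∑ a, v a * ev (x + t • v) (pd a f))
      (∑ a, v a * ∑ b, v b * ev (x + (0 : ℝ) • v) (pd b (pd a f))) 0 :=
    HasDerivAt.fun_sum fun a _ => (hasDerivAt_line (pd a f) x v 0).const_mul (v a)
  have h2 := maxP_second (hasDerivAt_line f x v) h1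
    (by simp [pd_eq_zero_of_max h]) (fun t => by simpa using h _)
  refine le_of_eq_of_le ?_ h2
  simp only [dotProduct, Matrix.mulVec, evM_apply, hess_apply, zero_smul, add_zero]
  refine Finset.sum_congr rfl fun a _ => ?_
  congr 1
  exact Finset.sum_congr rfl fun b _ => by rw [pd_comm a b, mul_comm]

/-- `con_eq_trace`, `trace_mul_nonneg`. -/
theorem Lop_nonpos_of_max {τ : Mat n} {f : Sm n} {x : E n} (hτ : (evM x τ).PosSemidef)
    (h : ∀ y, ev y f ≤ ev x f) : ev x (Lop τ f) ≤ 0 := by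
  have h1 : (-evM x (hess f)).PosSemidef := by
    refine psd_of_low (c := 0) ?_ le_rfl fun v => ?_
    · rw [Matrix.transpose_neg, ← evM_transpose, hess_transpose]
    · rw [zero_mul, Matrix.neg_mulVec, dotProduct_neg]
      exact neg_nonneg.2 (hess_nonpos_of_max h v)
  have h2 := trace_mul_nonneg hτ h1
  rw [Matrix.mul_neg, Matrix.trace_neg] at h2
  have h3 : ev x (eul f) = 0 := by simp [eul, pd_eq_zero_of_max h]
  rw [Lop, map_sub, h3, con_eq_trace, ev_trace, evM_mul]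
  linarith

theorem Ell.psd {c K : ℝ} {τ : Mat n} (h : Ell c K τ) (hc : 0 ≤ c) (x : E n) :
    (evM x τ).PosSemidef := psd_of_low (by rw [← evM_transpose, h.symm]) hc (h.low x)

theorem Ell.mono {c c' K K' : ℝ} {τ : Mat n} (h : Ell c K τ) (hc : c' ≤ c) (hK : K ≤ K') :
    Ell c' K' τ := ⟨h.symm, h.low.mono hc, fun x a b => (h.bd x a b).trans hK⟩

theorem Ell.dM_zero_le {c K : ℝ} {τ : Mat n} (h : Ell c K τ) (x : E n) :
    dM 0 τ x ≤ (n : ℝ) ^ 2 * K := by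
  calc dM 0 τ x ≤ ∑ _a : Fin n, ∑ _b : Fin n, K :=
        Finset.sum_le_sum fun a _ => Finset.sum_le_sum fun b _ => h.bd x a b
    _ = _ := by simp; ring

theorem mp0 {τ : Mat n} (hτ : ∀ x, (evM x τ).PosSemidef) {m K : ℝ} (hm : m < 0) {f : Sm n}
    (hf : Sym m f) (hK : 0 ≤ K) (h : ∀ x, ev x f - K ≤ ev x (Lop τ f)) (x : E n) : ev x f ≤ K := by
  by_contra hx
  push Not at hx
  obtain ⟨x1, h1⟩ := exists_max_of_sym hm hf (hK.trans_lt hx)
  have := Lop_nonpos_of_max (hτ x1) h1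
  linarith [h x1, h1 x]

theorem maxP_hess_rho (s : ℝ) (x : E n) (a b : Fin n) :
    |ev x (pd a (pd b (rho s : Sm n)))| ≤ (|s| + |s| * |s - 2|) * r x ^ (s - 2) := by
  have e : ev x (pd a (pd b (rho s : Sm n))) = s * ((if a = b then 1 else 0) * r x ^ (s - 2)) +
      s * (s - 2) * (x a * x b * r x ^ (s - 2 - 2)) := by
    rw [pd_rho, Derivation.map_smul, pd_mul, pd_X, pd_rho]
    simp only [map_smul, map_add, map_mul, ev_rho, ev_X, smul_eq_mul, apply_ite (ev x), map_one,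
      map_zero]
    ring
  have hp := r_rpow_pos x (s - 2)
  have hp' := r_rpow_pos x (s - 2 - 2)
  have h1 : |(if a = b then (1 : ℝ) else 0) * r x ^ (s - 2)| ≤ r x ^ (s - 2) := by
    split_ifs
    · rw [one_mul, abs_of_pos hp]
    · simpa using hp.le
  have h2 : |x a * x b * r x ^ (s - 2 - 2)| ≤ r x ^ (s - 2) := by
    have e2 : r x ^ (s - 2) = r x * r x * r x ^ (s - 2 - 2) := by
      rw [show s - 2 = 2 + (s - 2 - 2) by ring, r_rpow_add]
      congr 1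
      · rw [Real.rpow_two, sq]
      · congr 1; ring
    rw [abs_mul, abs_mul, abs_of_pos hp', e2]
    exact mul_le_mul_of_nonneg_right (mul_le_mul (abs_le_r x a) (abs_le_r x b) (abs_nonneg _)
      (r_pos x).le) hp'.le
  rw [e]
  refine (abs_add_le _ _).trans ?_
  rw [abs_mul s, abs_mul (s * (s - 2)), abs_mul s, add_mul]
  gcongr

theorem maxP_con_rho (s K : ℝ) (τ : Mat n) (x : E n) (h : ∀ a b, |ev x (τ a b)| ≤ K) :
    ev x (con τ (rho s)) ≤ (n : ℝ) ^ 2 * |K| * (|s| + |s| * |s - 2|) * r x ^ (s - 2) := by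
  have hp := r_rpow_pos x (s - 2)
  calc ev x (con τ (rho s)) = ∑ a, ∑ b, ev x (τ a b) * ev x (pd a (pd b (rho s : Sm n))) := by
        simp [con]
    _ ≤ ∑ _a : Fin n, ∑ _b : Fin n, |K| * ((|s| + |s| * |s - 2|) * r x ^ (s - 2)) := by
        refine Finset.sum_le_sum fun a _ => Finset.sum_le_sum fun b _ => ?_
        refine (le_abs_self _).trans ?_
        rw [abs_mul]
        exact mul_le_mul ((h a b).trans (le_abs_self K)) (maxP_hess_rho s x a b) (abs_nonneg _)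
          (abs_nonneg _)
    _ = _ := by simp; ring

theorem maxP_eul_rho (s : ℝ) (x : E n) :
    ev x (eul (rho s : Sm n)) = s * ((∑ a, x a ^ 2) * r x ^ (s - 2)) := by
  simp only [eul, pd_rho, map_sum, map_mul, map_smul, ev_X, ev_rho, smul_eq_mul, Finset.sum_mul,
    Finset.mul_sum]
  exact Finset.sum_congr rfl fun a _ => by ring

/-- `L r^{-α} = τ : D² r^{-α} + α |x|² r^{-α-2} ≤ (α + C r^{-2}) r^{-α}`. -/
theorem Lop_rho_le (n : ℕ) (K : ℝ) {α : ℝ} (hα : 0 ≤ α) : ∃ C, 0 ≤ C ∧ ∀ (τ : Mat n) (x : E n),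
    (∀ a b, |ev x (τ a b)| ≤ K) →
    ev x (Lop τ (rho (-α))) ≤ (α + C * r x ^ (-2 : ℝ)) * r x ^ (-α) := by
  refine ⟨(n : ℝ) ^ 2 * |K| * (|-α| + |-α| * |-α - 2|), by positivity, fun τ x h => ?_⟩
  have h1 := maxP_con_rho (-α) K τ x h
  have e : r x ^ (-α - 2) = r x ^ (-2 : ℝ) * r x ^ (-α) := by
    rw [← r_rpow_add]; congr 1; ring
  have e2 : r x ^ 2 * r x ^ (-α - 2) = r x ^ (-α) := by
    rw [← Real.rpow_two, ← r_rpow_add]; congr 1; ring
  have h2 : (∑ a, x a ^ 2) * r x ^ (-α - 2) ≤ r x ^ (-α) := by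
    rw [← e2, r_sq]
    exact mul_le_mul_of_nonneg_right (by linarith) (r_rpow_pos x _).le
  rw [Lop, map_sub, maxP_eul_rho]
  rw [e] at h1
  nlinarith [mul_le_mul_of_nonneg_left h2 hα]

/-- Weighted maximum principle. If `f - C r^{-α}` (a symbol of negative order) were positive somewhere,
its maximum is attained at a point with `r ≥ R' ≥ R` (take `C ≥ |K| R'^α`, and `R'` with
`C₁ R'^{-2} ≤ 1/4`), where `0 ≥ κ f - K r^{-α} - C (α + 1/4) r^{-α} > (C/4 - K) r^{-α}`; take `C ≥ 4K`. -/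
theorem wmp (n : ℕ) (K R : ℝ) {α κ : ℝ} (hα : 0 < α) (hκ : α + 1 / 2 ≤ κ) :
    ∃ C, 0 ≤ C ∧ ∀ (τ : Mat n) (f : Sm n) (m : ℝ), Ell 0 K τ → Sym m f → m < 0 →
      (∀ x, ev x f ≤ K) → (∀ x, R ≤ r x → κ * ev x f - K * r x ^ (-α) ≤ ev x (Lop τ f)) →
      ∀ x, ev x f ≤ C * r x ^ (-α) := by
  obtain ⟨C₁, hC₁, H⟩ := Lop_rho_le n K hα.le
  obtain ⟨R₁, hR₁⟩ := maxP_rpow (show (0 : ℝ) < 2 by norm_num) (4 * C₁)
  set R' := max (max R R₁) 1 with hR'
  have hR'0 : 0 < R' := lt_of_lt_of_le one_pos (le_max_right _ _)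
  have hRα : 0 < R' ^ α := Real.rpow_pos_of_pos hR'0 α
  refine ⟨|K| * R' ^ α + 4 * |K|, by positivity, fun τ f m hτ hf hm hK hL x => ?_⟩
  set C := |K| * R' ^ α + 4 * |K| with hC
  have hC0 : 0 ≤ C := by positivity
  by_contra hx
  push Not at hx
  have hg : Sym (max m (-α)) (f - C • rho (-α)) :=
    (hf.mono (le_max_left _ _)).sub (((sym_rho (-α)).smul C).mono (le_max_right _ _))
  have ev_g : ∀ y : E n, ev y (f - C • rho (-α)) = ev y f - C * r y ^ (-α) := fun y => by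
    rw [map_sub, ev_smul, ev_rho]
  obtain ⟨x1, h1⟩ := exists_max_of_sym (max_lt hm (by linarith)) hg (x0 := x)
    (by rw [ev_g]; linarith)
  have h2 : C * r x1 ^ (-α) < ev x1 f := by
    have := h1 x
    rw [ev_g, ev_g] at this
    linarith
  have hp := r_rpow_pos x1 (-α)
  have h3 : R' ≤ r x1 := by
    by_contra h3
    push Not at h3
    have h4 : r x1 ^ α ≤ R' ^ α := Real.rpow_le_rpow (r_pos x1).le h3.le hα.le
    have h5 : r x1 ^ α * r x1 ^ (-α) = 1 := by rw [← r_rpow_add]; simp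
    have h6 : 1 ≤ R' ^ α * r x1 ^ (-α) := h5 ▸ mul_le_mul_of_nonneg_right h4 hp.le
    have h7 : |K| ≤ |K| * (R' ^ α * r x1 ^ (-α)) := le_mul_of_one_le_right (abs_nonneg _) h6
    have h8 : 0 ≤ 4 * |K| * r x1 ^ (-α) := by positivity
    have := hK x1
    have := le_abs_self K
    rw [hC] at h2
    nlinarith
  have h4 := Lop_nonpos_of_max (hτ.psd le_rfl x1) h1
  rw [Lop_sub, Lop_smul, map_sub, ev_smul] at h4
  have h5 := H τ x1 (hτ.bd x1)
  have h6 := hL x1 ((le_max_left _ _).trans ((le_max_left _ _).trans h3))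
  have h7 := hR₁ _ ((le_max_right _ _).trans ((le_max_left _ _).trans h3))
  have h8 : C₁ * r x1 ^ (-2 : ℝ) ≤ 1 / 4 := by
    have h5 : r x1 ^ (2 : ℝ) * r x1 ^ (-2 : ℝ) = 1 := by rw [← r_rpow_add]; simp
    have := mul_le_mul_of_nonneg_right h7 (r_rpow_pos x1 (-2)).le
    linarith
  have h9 : ev x1 (Lop τ (rho (-α))) ≤ (α + 1 / 4) * r x1 ^ (-α) :=
    h5.trans (mul_le_mul_of_nonneg_right (by linarith) hp.le)
  have h10 := mul_le_mul_of_nonneg_left h9 hC0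
  have h11 : (α + 1 / 2) * (C * r x1 ^ (-α)) < κ * ev x1 f :=
    mul_lt_mul' hκ h2 (by positivity) (by linarith)
  have h12 : 4 * K * r x1 ^ (-α) ≤ C * r x1 ^ (-α) := by
    refine mul_le_mul_of_nonneg_right ?_ hp.le
    have := le_abs_self K
    have : 0 ≤ |K| * R' ^ α := by positivity
    linarith
  linarith

theorem maxP_res {K δ F : ℝ} (hδ : 0 < δ) {τ : Mat n} (hτ : Ell 0 K τ) {ψ : Sm n}
    (hψ : Sym (9 / 8) ψ) (h : ∀ x, -F ≤ ev x (Top τ (-δ) ψ)) (x : E n) : ev x ψ ≤ F / δ := by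
  obtain ⟨C, -, hC⟩ := hψ.abs_le
  set B := (n : ℝ) ^ 2 * |K| * (|(2 : ℝ)| + |(2 : ℝ)| * |(2 : ℝ) - 2|) with hB
  have hB0 : 0 ≤ B := by positivity
  have hL : ∀ y : E n, ev y (Lop τ (rho 2)) ≤ B := fun y => by
    have h1 := maxP_con_rho 2 K τ y (hτ.bd y)
    rw [sub_self, Real.rpow_zero, mul_one] at h1
    rw [Lop, map_sub, maxP_eul_rho]
    have : 0 ≤ (∑ a, y a ^ 2) * r y ^ ((2 : ℝ) - 2) := mul_nonneg (by positivity) (r_rpow_pos y _).le
    simp only [hB, sub_self]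
    simp only [sub_self] at this
    linarith
  have key : ∀ ε : ℝ, 0 < ε → ev x ψ ≤ F / δ + ε * (B / δ + r x ^ (2 : ℝ)) := by
    intro ε hε
    have ev_g : ∀ y : E n, ev y (ψ - ε • rho 2) = ev y ψ - ε * r y ^ (2 : ℝ) := fun y => by
      rw [map_sub, ev_smul, ev_rho]
    obtain ⟨R, hR⟩ := maxP_rpow (show (0 : ℝ) < 7 / 8 by norm_num)
      ((C + |ev 0 (ψ - ε • rho 2)|) / ε)
    obtain ⟨x1, h1⟩ := exists_max_of_le (ev_continuous (ψ - ε • rho 2)) 0 R fun y hy => by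
      have h2 := hR _ hy
      rw [div_le_iff₀ hε] at h2
      have h3 : r y ^ (2 : ℝ) = r y ^ (7 / 8 : ℝ) * r y ^ (9 / 8 : ℝ) := by
        rw [← r_rpow_add]; norm_num
      have h4 : 1 ≤ r y ^ (9 / 8 : ℝ) := Real.one_le_rpow (one_le_r y) (by norm_num)
      have h5 := mul_le_mul_of_nonneg_right h2 (r_rpow_pos y (9 / 8)).le
      have h6 := (le_abs_self _).trans (hC y)
      have h7 := neg_abs_le (ev 0 (ψ - ε • rho 2))
      have h8 := le_mul_of_one_le_right (abs_nonneg (ev 0 (ψ - ε • rho 2))) h4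
      rw [ev_g y, h3]
      nlinarith
    have h4 := Lop_nonpos_of_max (hτ.psd le_rfl x1) h1
    rw [Lop_sub, Lop_smul, map_sub, ev_smul] at h4
    have h5 := h x1
    rw [Top, map_add, ev_smul] at h5
    have h6 := mul_le_mul_of_nonneg_left (hL x1) hε.le
    have h7 : ev x1 ψ ≤ (F + ε * B) / δ := by
      rw [le_div_iff₀ hδ]; linarith
    have h8 := h1 x
    simp only [ev_g] at h8
    have h9 : 0 ≤ ε * r x1 ^ (2 : ℝ) := mul_nonneg hε.le (r_rpow_pos x1 _).le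
    have h10 : (F + ε * B) / δ = F / δ + ε * (B / δ) := by ring
    linarith
  refine le_of_forall_pos_le_add fun η hη => ?_
  have hp : 0 < B / δ + r x ^ (2 : ℝ) := add_pos_of_nonneg_of_pos (by positivity) (r_rpow_pos x _)
  have := key (η / (B / δ + r x ^ (2 : ℝ))) (div_pos hη hp)
  rwa [div_mul_cancel₀ _ hp.ne'] at this

/-- Resolvent bound. For `ε > 0`, `ψ - ε rho 2` attains its maximum, and
`L (rho 2) = 2 tr τ - 2|x|² ≤ 2 n K`... at the maximum `δ (ψ - ε r²) ≤ F + 2 ε n K`; let `ε → 0`.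
Apply to `ψ` and `-ψ`. -/
theorem resolvent {K δ F : ℝ} (hδ : 0 < δ) {τ : Mat n} (hτ : Ell 0 K τ) {ψ : Sm n}
    (hψ : Sym (9 / 8) ψ) (h : ∀ x, |ev x (Top τ (-δ) ψ)| ≤ F) (x : E n) : |ev x ψ| ≤ F / δ := by
  refine abs_le.2 ⟨?_, maxP_res hδ hτ hψ (fun y => (abs_le.1 (h y)).1) x⟩
  have := maxP_res hδ hτ hψ.neg (F := F) (fun y => by
    have e : Top τ (-δ) (-ψ) = -Top τ (-δ) ψ := by
      rw [← neg_one_smul ℝ ψ, Top_smul, neg_one_smul]
    rw [e, map_neg]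
    exact neg_le_neg (abs_le.1 (h y)).2) x
  rw [map_neg] at this
  linarith

end Crest.Agent.R238
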