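import Crest.Agent.R238.KEid
import Crest.Agent.R238.MaxP

/-!
# Row 238: second order a priori estimates
-/

set_option autoImplicit false
open MeasureTheory Matrix
open scoped ContDiff BigOperators

noncomputable section
namespace Crest.Agent.R238

variable {n : ℕ}

/-- The quadratic form `e ↦ M e e` as a smooth function. -/
def qfS (M : Mat n) (e : E n) : Sm n := ∑ a, ∑ b, (e a * e b) • M a b

theorem ev_qfS (M : Mat n) (e x : E n) : ev x (qfS M e) = e ⬝ᵥ (evM x M *ᵥ e) := by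
  simp only [qfS, map_sum, ev_smul, dotProduct, Matrix.mulVec, evM_apply, Finset.mul_sum]
  exact Finset.sum_congr rfl fun a _ => Finset.sum_congr rfl fun b _ => by ring

theorem c2_sym_qfS {m : ℝ} {M : Mat n} (h : SymM m M) (e : E n) : Sym m (qfS M e) :=
  Sym.sum _ fun a _ => Sym.sum _ fun b _ => (h a b).smul _

theorem c2_Lop_qfS (τ : Mat n) {M P : Mat n} (h : ∀ a b, Lop τ (M a b) = P a b) (e : E n) :
    Lop τ (qfS M e) = qfS P e := by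
  simp only [qfS, Lop_sum, Lop_smul, h]

theorem c2_quad_hess (f : Sm n) (x v : E n) :
    |v ⬝ᵥ (evM x (hess f) *ᵥ v)| ≤ d 2 f x * (v ⬝ᵥ v) := by
  have h := abs_quad_le_sum (evM x (hess f)) v
  have e : ∑ a, ∑ b, |evM x (hess f) a b| = d 2 f x := dM_hess 0 f x
  rwa [e] at h

theorem c2_scale {A : RM n} {Λ : ℝ} (h : ∀ e : E n, e ⬝ᵥ e = 1 → e ⬝ᵥ (A *ᵥ e) ≤ Λ) (v : E n) :
    v ⬝ᵥ (A *ᵥ v) ≤ Λ * (v ⬝ᵥ v) := by
  rcases (dot_self_nonneg v).eq_or_lt with h0 | h0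
  · have hv : v = 0 := dotProduct_self_eq_zero.1 h0.symm
    subst hv; simp
  · set s := Real.sqrt (v ⬝ᵥ v) with hs
    have hs0 : 0 < s := Real.sqrt_pos.2 h0
    have hs2 : s * s = v ⬝ᵥ v := Real.mul_self_sqrt h0.le
    have h1 := h (s⁻¹ • v) (by
      rw [smul_dotProduct, dotProduct_smul, smul_eq_mul, smul_eq_mul, ← hs2]; field_simp)
    rw [Matrix.mulVec_smul, smul_dotProduct, dotProduct_smul, smul_eq_mul, smul_eq_mul] at h1
    have h2 : v ⬝ᵥ (A *ᵥ v) = (s⁻¹ * (s⁻¹ * (v ⬝ᵥ (A *ᵥ v)))) * (s * s) := by field_simp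
    rw [h2, hs2]
    exact mul_le_mul_of_nonneg_right h1 h0.le

theorem c2_conj {τ : RM n} (hτ : τᵀ = τ) (A : RM n) (e : E n) :
    e ⬝ᵥ ((τ * A * τ) *ᵥ e) = (τ *ᵥ e) ⬝ᵥ (A *ᵥ (τ *ᵥ e)) := by
  rw [Matrix.mul_assoc, ← Matrix.mulVec_mulVec, ← Matrix.mulVec_mulVec, Matrix.dotProduct_mulVec,
    ← Matrix.mulVec_transpose, hτ]

theorem c2_one_add (M : Mat n) (x v : E n) :
    v ⬝ᵥ (evM x (1 + M) *ᵥ v) = v ⬝ᵥ v + v ⬝ᵥ (evM x M *ᵥ v) := by
  rw [evM_add, evM_one, Matrix.add_mulVec, Matrix.one_mulVec, dotProduct_add]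

theorem c2_sub_one (M : Mat n) (x v : E n) :
    v ⬝ᵥ (evM x (M - 1) *ᵥ v) = v ⬝ᵥ (evM x M *ᵥ v) - v ⬝ᵥ v := by
  rw [evM_sub, evM_one, Matrix.sub_mulVec, Matrix.one_mulVec, dotProduct_sub]

theorem c2_L_hess (D : KE n) (e x : E n) :
    ev x (qfS (hess D.ζ) e) - d 2 D.V x * (e ⬝ᵥ e) ≤ ev x (Lop D.τ (qfS (hess D.ζ) e)) := by
  rw [c2_Lop_qfS D.τ (P := hess D.ζ + D.Γ - hess D.V) (fun a b => D.L_hess a b), ev_qfS, ev_qfS,
    evM_sub, evM_add, Matrix.sub_mulVec, Matrix.add_mulVec, dotProduct_sub, dotProduct_add]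
  have h1 := D.Γ_low x e
  have h2 := (abs_le.1 (c2_quad_hess D.V x e)).2
  rw [zero_mul] at h1
  linarith

theorem c2_L_τ (D : KE n) (e x : E n) :
    -(e ⬝ᵥ (evM x D.τ *ᵥ e)) + (evM x D.τ *ᵥ e) ⬝ᵥ (evM x D.H *ᵥ (evM x D.τ *ᵥ e)) ≤
      ev x (Lop D.τ (qfS (D.τ - 1) e)) := by
  have hτ : (evM x D.τ)ᵀ = evM x D.τ := by rw [← evM_transpose, D.τ_symm]
  have h0 : ∀ a b, Lop D.τ ((D.τ - 1) a b) = (-D.τ + D.τ * D.Γ * D.τ + D.τ * D.H * D.τ) a b := by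
    intro a b
    have h1 : Lop D.τ ((1 : Mat n) a b) = 0 := by
      rw [Matrix.one_apply]
      split_ifs
      exacts [Lop_one _, Lop_zero _]
    rw [Matrix.sub_apply, Lop_sub, h1, sub_zero, D.L_τ]
  rw [c2_Lop_qfS D.τ h0, ev_qfS, evM_add, evM_add, evM_neg, evM_mul, evM_mul, evM_mul, evM_mul,
    Matrix.add_mulVec, Matrix.add_mulVec, dotProduct_add, dotProduct_add, c2_conj hτ, c2_conj hτ,
    Matrix.neg_mulVec, dotProduct_neg]
  have h1 := D.Γ_low x (evM x D.τ *ᵥ e)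
  rw [zero_mul] at h1
  linarith

theorem c2_mulVec_sq {A : RM n} {K : ℝ} (h : ∀ a b, |A a b| ≤ K) {e : E n} (he : e ⬝ᵥ e = 1) :
    (A *ᵥ e) ⬝ᵥ (A *ᵥ e) ≤ (n : ℝ) ^ 3 * K ^ 2 := by
  have h1 : ∀ b, |e b| ≤ 1 := by
    intro b
    have h2 : e b * e b ≤ e ⬝ᵥ e :=
      Finset.single_le_sum (f := fun b => e b * e b) (fun b _ => mul_self_nonneg _)
        (Finset.mem_univ b)
    rw [he] at h2
    exact abs_le_one_iff_mul_self_le_one.2 h2
  have h2 : ∀ a, |(A *ᵥ e) a| ≤ n * K := by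
    intro a
    calc |(A *ᵥ e) a| = |∑ b, A a b * e b| := rfl
      _ ≤ ∑ b, |A a b * e b| := Finset.abs_sum_le_sum_abs _ _
      _ ≤ ∑ _b : Fin n, K := by
          refine Finset.sum_le_sum fun b _ => ?_
          rw [abs_mul]
          exact (mul_le_of_le_one_right (abs_nonneg _) (h1 b)).trans (h a b)
      _ = n * K := by simp
  calc (A *ᵥ e) ⬝ᵥ (A *ᵥ e) = ∑ a, (A *ᵥ e) a * (A *ᵥ e) a := rfl
    _ ≤ ∑ _a : Fin n, (n * K) ^ 2 := by
        refine Finset.sum_le_sum fun a _ => ?_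
        rw [← sq, ← sq_abs]
        exact pow_le_pow_left₀ (abs_nonneg _) (h2 a) 2
    _ = (n : ℝ) ^ 3 * K ^ 2 := by simp; ring

/-- For `e ⬝ᵥ e = 1`: `f = qfS (hess ζ) e ∈ Sym (-7/8)` has `L f = f + Γ_ee - V_ee ≥ f - K`
(`L_hess`, `Γ_low`, `abs_quad_le_sum`, `dM_hess`), so `mp0` gives `f ≤ K`;
`h = qfS (τ - 1) e` has `L h = -τ_ee + (τΓτ)_ee + (τHτ)_ee ≥ -t + ε t² ≥ (t - 1) - 1/ε` for `t = τ_ee`
(`L_τ`, `sq_quad_le`), so `τ_ee ≤ 1 + 1/ε`. Scale to all vectors, then `inv_low`, `abs_entry_le`. -/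
theorem c2_bounds (n : ℕ) {ε : ℝ} (hε : 0 < ε) (K : ℝ) : ∃ c K', 0 < c ∧ 0 ≤ K' ∧ ∀ D : KE n,
    Low ε D.H → (∀ x, d 2 D.V x ≤ K) → Ell c K' D.τ ∧ Ell c K' D.g := by
  have hK := abs_nonneg K
  have hε' : 0 < ε⁻¹ := inv_pos.2 hε
  have hΛ : 0 < 1 + |K| + ε⁻¹ := by positivity
  refine ⟨(1 + |K| + ε⁻¹)⁻¹, 1 + |K| + ε⁻¹, inv_pos.2 hΛ, hΛ.le, fun D hH hV => ?_⟩
  have hpsd : ∀ x, (evM x D.τ).PosSemidef := fun x => (D.τ_posDef x).posSemidef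
  have hg : ∀ x v, v ⬝ᵥ (evM x D.g *ᵥ v) ≤ (1 + |K| + ε⁻¹) * (v ⬝ᵥ v) := by
    intro x
    refine c2_scale fun e he => ?_
    have h1 := mp0 hpsd (by norm_num) (c2_sym_qfS D.symA e) hK (fun y => by
      have h2 := c2_L_hess D e y
      rw [he, mul_one] at h2
      linarith [hV y, le_abs_self K]) x
    rw [ev_qfS] at h1
    rw [KE.g, c2_one_add, he]
    linarith
  have hτ : ∀ x v, v ⬝ᵥ (evM x D.τ *ᵥ v) ≤ (1 + |K| + ε⁻¹) * (v ⬝ᵥ v) := by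
    intro x
    refine c2_scale fun e he => ?_
    have h1 := mp0 hpsd (by norm_num) (c2_sym_qfS D.symτ e) hε'.le (fun y => by
      have h2 := c2_L_τ D e y
      have h3 := hH y (evM y D.τ *ᵥ e)
      have h4 := sq_quad_le (psd_transpose (hpsd y)) e
      rw [he, one_mul] at h4
      rw [ev_qfS, c2_sub_one, he]
      set t := e ⬝ᵥ (evM y D.τ *ᵥ e)
      have h5 := mul_le_mul_of_nonneg_left h4 hε.le
      have h6 : 0 ≤ ε * (t - ε⁻¹) ^ 2 := by positivity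
      have h7 : ε * (t - ε⁻¹) ^ 2 = ε * t ^ 2 - 2 * t + ε⁻¹ := by field_simp; ring
      linarith) x
    rw [ev_qfS, c2_sub_one, he] at h1
    linarith
  refine ⟨⟨D.τ_symm, fun x v => ?_, fun x a b => ?_⟩, ⟨D.g_symm, fun x v => ?_, fun x a b => ?_⟩⟩
  · exact inv_low (D.g_posDef x) (evM_inv D.τg x) hΛ (hg x) v
  · refine abs_entry_le (psd_transpose (hpsd x)) (fun v => ?_) a b
    rw [abs_of_nonneg (psd_quad (hpsd x) v)]
    exact hτ x v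
  · exact inv_low (D.τ_posDef x) (evM_inv D.gτ x) hΛ (hτ x) v
  · refine abs_entry_le (psd_transpose (D.g_posDef x).posSemidef) (fun v => ?_) a b
    rw [abs_of_nonneg (psd_quad (D.g_posDef x).posSemidef v)]
    exact hg x v

/-- Decay. `wmp` with `α = 1/2`, `κ = 1`, `R = 0`: for unit `e`, `f = ζ_ee` has
`L f ≥ f - K r^{-1/2}`; `h = τ_ee - 1` has `L h ≥ -t + |τ e|² + (τ D²V τ)_ee ≥ h + h² - C r^{-1/2}`.
Hence `g ≤ 1 + C r^{-1/2}` and `τ ≤ 1 + C r^{-1/2}`, so (`inv_low` with the roles exchanged)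
`g ≥ (1 + C r^{-1/2})⁻¹ ≥ 1 - C r^{-1/2}`; polarise (`abs_entry_le`), `dM_hess`. -/
theorem c2_decay (n : ℕ) (K : ℝ) : ∃ C, 0 ≤ C ∧ ∀ D : KE n, Ell 0 K D.τ → Ell 0 K D.g →
    (∀ x, d 2 D.V x ≤ K * r x ^ (-1 / 2 : ℝ)) → ∀ x, d 2 D.ζ x ≤ C * r x ^ (-1 / 2 : ℝ) := by
  have hK := abs_nonneg K
  have hK' := le_abs_self K
  have hn1 : (0 : ℝ) ≤ n * |K| := by positivity
  have hn3 : (0 : ℝ) ≤ |K| * ((n : ℝ) ^ 3 * |K| ^ 2) := by positivity
  obtain ⟨C, hC, H⟩ := wmp n (|K| + n * |K| + |K| * ((n : ℝ) ^ 3 * |K| ^ 2)) 0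
    (α := 1 / 2) (κ := 1) (by norm_num) (by norm_num)
  refine ⟨(n : ℝ) ^ 2 * C, by positivity, fun D hτ hg hV x => ?_⟩
  rw [show (-(1 / 2) : ℝ) = -1 / 2 by norm_num] at H
  have hpsd : ∀ x, (evM x D.τ).PosSemidef := fun x => (D.τ_posDef x).posSemidef
  have hτ' : Ell 0 (|K| + n * |K| + |K| * ((n : ℝ) ^ 3 * |K| ^ 2)) D.τ :=
    hτ.mono le_rfl (by linarith)
  have hV' : ∀ y, d 2 D.V y ≤ |K| * r y ^ (-1 / 2 : ℝ) := fun y =>
    (hV y).trans (mul_le_mul_of_nonneg_right hK' (r_rpow_pos y _).le)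
  set s := r x ^ (-1 / 2 : ℝ) with hs
  have hs0 : 0 < s := r_rpow_pos x _
  have hCs : 0 ≤ C * s := by positivity
  have h1 : ∀ v, v ⬝ᵥ (evM x (hess D.ζ) *ᵥ v) ≤ C * s * (v ⬝ᵥ v) := by
    refine c2_scale fun e he => ?_
    have h1 := H D.τ (qfS (hess D.ζ) e) (-7 / 8) hτ' (c2_sym_qfS D.symA e) (by norm_num)
      (fun y => by
        have h2 := (abs_le.1 (abs_quad_le (A := evM y D.g)
          (fun a b => (hg.bd y a b).trans hK') e)).2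
        rw [KE.g, c2_one_add, he] at h2
        rw [ev_qfS]
        linarith)
      (fun y _ => by
        have h2 := c2_L_hess D e y
        rw [he, mul_one] at h2
        have h3 := hV' y
        have h4 := mul_nonneg (add_nonneg hn1 hn3) (r_rpow_pos y (-1 / 2)).le
        linarith) x
    rwa [ev_qfS] at h1
  have h2 : ∀ v, v ⬝ᵥ (evM x D.τ *ᵥ v) ≤ (1 + C * s) * (v ⬝ᵥ v) := by
    refine c2_scale fun e he => ?_
    have h1 := H D.τ (qfS (D.τ - 1) e) (-7 / 8) hτ' (c2_sym_qfS D.symτ e) (by norm_num)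
      (fun y => by
        have h2 := (abs_le.1 (abs_quad_le (A := evM y D.τ)
          (fun a b => (hτ.bd y a b).trans hK') e)).2
        rw [he] at h2
        rw [ev_qfS, c2_sub_one, he]
        linarith)
      (fun y _ => by
        have h2 := c2_L_τ D e y
        have h4 := sq_quad_le (psd_transpose (hpsd y)) e
        have h5 := c2_mulVec_sq (A := evM y D.τ) (fun a b => (hτ.bd y a b).trans hK') he
        have h6 := (abs_le.1 (c2_quad_hess D.V y (evM y D.τ *ᵥ e))).1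
        rw [he, one_mul] at h4
        rw [KE.H, c2_one_add] at h2
        rw [ev_qfS, c2_sub_one, he]
        set t := e ⬝ᵥ (evM y D.τ *ᵥ e)
        set w := (evM y D.τ *ᵥ e) ⬝ᵥ (evM y D.τ *ᵥ e) with hw
        have hw0 : 0 ≤ w := dot_self_nonneg _
        have hp := r_rpow_pos y (-1 / 2)
        have h7 : d 2 D.V y * w ≤ (|K| * r y ^ (-1 / 2 : ℝ)) * ((n : ℝ) ^ 3 * |K| ^ 2) :=
          mul_le_mul (hV' y) h5 hw0 (by positivity)
        have h8 := mul_nonneg (add_nonneg hK hn1) hp.le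
        nlinarith [sq_nonneg (t - 1)]) x
    rw [ev_qfS, c2_sub_one, he, ← hs] at h1
    linarith
  have h3 : ∀ v, |v ⬝ᵥ (evM x (hess D.ζ) *ᵥ v)| ≤ C * s * (v ⬝ᵥ v) := by
    intro v
    refine abs_le.2 ⟨?_, h1 v⟩
    have h4 := inv_low (D.τ_posDef x) (evM_inv D.gτ x) (by linarith) h2 v
    rw [KE.g, c2_one_add] at h4
    have h5 : 1 - C * s ≤ (1 + C * s)⁻¹ := by
      rw [← one_div, le_div_iff₀ (by linarith)]
      nlinarith [sq_nonneg (C * s)]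
    have h6 := mul_le_mul_of_nonneg_right h5 (dot_self_nonneg v)
    linarith
  have h4 := abs_entry_le (A := evM x (hess D.ζ)) (by rw [← evM_transpose, hess_transpose]) h3
  calc d 2 D.ζ x = dM 0 (hess D.ζ) x := (dM_hess 0 D.ζ x).symm
    _ ≤ ∑ _a : Fin n, ∑ _b : Fin n, C * s :=
        Finset.sum_le_sum fun a _ => Finset.sum_le_sum fun b _ => h4 a b
    _ = (n : ℝ) ^ 2 * C * s := by simp; ring

end Crest.Agent.R238
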