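import Crest.Agent.R238.CalabiPt

/-!
# Row 238: the third order a priori estimate
-/

set_option autoImplicit false
open MeasureTheory Matrix
open scoped ContDiff BigOperators

noncomputable section
namespace Crest.Agent.R238

variable {n : ℕ}

theorem calabi_d3 (f : Sm n) (x : E n) :
    d 3 f x = ∑ a, ∑ b, ∑ c, |ev x (pd a (pd b (pd c f)))| := by
  change ∑ a, ∑ b, ∑ c, |ev x (pd c (pd b (pd a f)))| = _
  refine Finset.sum_congr rfl fun a _ => Finset.sum_congr rfl fun b _ =>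
    Finset.sum_congr rfl fun c _ => ?_
  rw [pd_comm c b, pd_comm c a, pd_comm b a]

theorem abs_T3_le (f : Sm n) (x η : E n) : |T3 f x η| ≤ d 3 f x * Real.sqrt (η ⬝ᵥ η) ^ 3 := by
  have h : ∀ a, |η a| ≤ Real.sqrt (η ⬝ᵥ η) := fun a => Real.abs_le_sqrt (by
    rw [sq]
    exact Finset.single_le_sum (f := fun a => η a * η a) (fun a _ => mul_self_nonneg _)
      (Finset.mem_univ a))
  rw [calabi_d3, T3]
  simp only [Finset.sum_mul]
  refine (Finset.abs_sum_le_sum_abs _ _).trans (Finset.sum_le_sum fun a _ => ?_)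
  refine (Finset.abs_sum_le_sum_abs _ _).trans (Finset.sum_le_sum fun b _ => ?_)
  refine (Finset.abs_sum_le_sum_abs _ _).trans (Finset.sum_le_sum fun c _ => ?_)
  rw [abs_mul, abs_mul, abs_mul, pow_three', ← mul_assoc, ← mul_assoc]
  gcongr
  exacts [h a, h b, h c]

/-- the trilinear form -/
def calabi_B (t : Fin n → Fin n → Fin n → ℝ) (u v w : E n) : ℝ :=
  ∑ a, ∑ b, ∑ c, t a b c * u a * v b * w c

theorem calabi_pol (t : Fin n → Fin n → Fin n → ℝ) (u v w : E n) :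
    calabi_B t (u + v + w) (u + v + w) (u + v + w) - calabi_B t (u + v + -w) (u + v + -w) (u + v + -w) -
      calabi_B t (u + -v + w) (u + -v + w) (u + -v + w) +
      calabi_B t (u + -v + -w) (u + -v + -w) (u + -v + -w) =
    4 * (calabi_B t u v w + calabi_B t u w v + calabi_B t v u w + calabi_B t v w u + calabi_B t w u v +
      calabi_B t w v u) := by
  simp only [calabi_B, ← Finset.sum_sub_distrib, ← Finset.sum_add_distrib, Finset.mul_sum]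
  refine Finset.sum_congr rfl fun a _ => Finset.sum_congr rfl fun b _ =>
    Finset.sum_congr rfl fun c _ => ?_
  simp only [Pi.add_apply, Pi.neg_apply]
  ring

theorem calabi_B_single (t : Fin n → Fin n → Fin n → ℝ) (a b c : Fin n) :
    calabi_B t (Pi.single a 1) (Pi.single b 1) (Pi.single c 1) = t a b c := by
  simp [calabi_B, Pi.single_apply]

theorem calabi_sqrt_le {u v w : E n} (hu : u ⬝ᵥ u = 1) (hv : v ⬝ᵥ v = 1) (hw : w ⬝ᵥ w = 1) :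
    Real.sqrt ((u + v + w) ⬝ᵥ (u + v + w)) ^ 3 ≤ 27 := by
  have h : (u + v + w) ⬝ᵥ (u + v + w) ≤ 3 * (u ⬝ᵥ u + v ⬝ᵥ v + w ⬝ᵥ w) := by
    simp only [dotProduct, ← Finset.sum_add_distrib, Finset.mul_sum, Pi.add_apply]
    exact Finset.sum_le_sum fun a _ => by
      nlinarith [sq_nonneg (u a - v a), sq_nonneg (u a - w a), sq_nonneg (v a - w a)]
  rw [hu, hv, hw] at h
  have h2 : Real.sqrt ((u + v + w) ⬝ᵥ (u + v + w)) ≤ 3 := Real.sqrt_le_iff.2 ⟨by norm_num, by linarith⟩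
  calc _ ≤ (3 : ℝ) ^ 3 := pow_le_pow_left₀ (Real.sqrt_nonneg _) h2 3
    _ = 27 := by norm_num

/-- Polarisation of a symmetric cubic form:
`48 T(a,b,c) = ∑_{±} ± T3(a ± b ± c)·(2)`, e.g. `24 T(u,v,w) = T3(u+v+w) - T3(u+v-w) - T3(u-v+w) + T3(u-v-w)`. -/
theorem d_three_le (f : Sm n) (x : E n) {Λ : ℝ} (hΛ : 0 ≤ Λ)
    (h : ∀ η : E n, |T3 f x η| ≤ Λ * Real.sqrt (η ⬝ᵥ η) ^ 3) : d 3 f x ≤ (n : ℝ) ^ 3 * (5 * Λ) := by
  have key : ∀ a b c, |ev x (pd a (pd b (pd c f)))| ≤ 5 * Λ := by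
    intro a b c
    have h1 := calabi_pol (fun a b c => ev x (pd a (pd b (pd c f)))) (Pi.single a 1) (Pi.single b 1)
      (Pi.single c 1)
    simp only [calabi_B_single] at h1
    rw [pd_comm c b f, pd_comm b a (pd c f), pd_comm c a f, pd_comm b a (pd c f), pd_comm c a (pd b f),
      pd_comm c b f, pd_comm b a f, pd_comm c a (pd b f), pd_comm c b f] at h1
    have hb : ∀ u v w : E n, u ⬝ᵥ u = 1 → v ⬝ᵥ v = 1 → w ⬝ᵥ w = 1 →
        |calabi_B (fun a b c => ev x (pd a (pd b (pd c f)))) (u + v + w) (u + v + w) (u + v + w)| ≤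
          Λ * 27 := fun u v w hu hv hw =>
      (h (u + v + w)).trans (mul_le_mul_of_nonneg_left (calabi_sqrt_le hu hv hw) hΛ)
    have e : ∀ a : Fin n, (Pi.single a 1 : E n) ⬝ᵥ Pi.single a 1 = 1 := fun a => by simp
    have e' : ∀ a : Fin n, (-Pi.single a 1 : E n) ⬝ᵥ (-Pi.single a 1) = 1 := fun a => by simp
    have b1 := abs_le.1 (hb _ _ _ (e a) (e b) (e c))
    have b2 := abs_le.1 (hb _ _ _ (e a) (e b) (e' c))
    have b3 := abs_le.1 (hb _ _ _ (e a) (e' b) (e c))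
    have b4 := abs_le.1 (hb _ _ _ (e a) (e' b) (e' c))
    exact abs_le.2 ⟨by linarith [b1.1, b2.2, b3.2, b4.1], by linarith [b1.2, b2.1, b3.1, b4.2]⟩
  rw [calabi_d3]
  refine (Finset.sum_le_sum fun a _ => Finset.sum_le_sum fun b _ => Finset.sum_le_sum fun c _ =>
    key a b c).trans (le_of_eq ?_)
  simp
  ring

theorem calabi_T3_smul (f : Sm n) (x η : E n) (s : ℝ) : T3 f x (s • η) = s ^ 3 * T3 f x η := by
  simp only [T3, Finset.mul_sum, Pi.smul_apply, smul_eq_mul]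
  refine Finset.sum_congr rfl fun a _ => Finset.sum_congr rfl fun b _ =>
    Finset.sum_congr rfl fun c _ => ?_
  ring

theorem calabi_q_smul (A : RM n) (η : E n) (s : ℝ) :
    (s • η) ⬝ᵥ (A *ᵥ (s • η)) = s ^ 2 * (η ⬝ᵥ (A *ᵥ η)) := by
  rw [mulVec_smul, smul_dotProduct, dotProduct_smul, smul_eq_mul, smul_eq_mul]; ring

theorem calabi_max {c : ℝ} (hc : 0 < c) {f : Sm n} {μ : ℝ} (hf : Sym μ f) (hμ : μ < 3) {g : Mat n}
    (hg : Low c g) {x1 η1 : E n} (h1 : T3 f x1 η1 ≠ 0) :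
    ∃ (x0 ξ : E n) (M : ℝ), 0 < M ∧ ξ ⬝ᵥ (evM x0 g *ᵥ ξ) = 1 ∧ T3 f x0 ξ = M ∧
      ∀ x η : E n, T3 f x η ^ 2 ≤ M ^ 2 * (η ⬝ᵥ (evM x g *ᵥ η)) ^ 3 := by
  set F : E n × E n → ℝ := fun p => T3 f p.1 p.2 ^ 2 / (p.2 ⬝ᵥ (evM p.1 g *ᵥ p.2)) ^ 3 with hF
  have hdot : ∀ η : E n, η ≠ 0 → 0 < η ⬝ᵥ η := fun η hη =>
    lt_of_le_of_ne (dot_self_nonneg η) fun h => hη (dotProduct_self_eq_zero.1 h.symm)
  have hpos : ∀ x η : E n, η ≠ 0 → 0 < η ⬝ᵥ (evM x g *ᵥ η) := fun x η hη =>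
    (mul_pos hc (hdot η hη)).trans_le (hg x η)
  have hT0 : ∀ x, T3 f x 0 = 0 := fun x => by simp [T3]
  have hhom : ∀ (x η : E n) (s : ℝ), s ≠ 0 → F (x, s • η) = F (x, η) := by
    intro x η s hs
    simp only [hF, calabi_T3_smul, calabi_q_smul]
    rw [mul_pow, mul_pow, ← pow_mul, ← pow_mul, mul_div_mul_left _ _ (pow_ne_zero _ hs)]
  have hsph : ∀ η : E n, η ≠ 0 → ‖η‖⁻¹ • η ∈ Metric.sphere (0 : E n) 1 := fun η hη => by
    rw [mem_sphere_zero_iff_norm, norm_smul, norm_inv, norm_norm, inv_mul_cancel₀ (norm_ne_zero_iff.2 hη)]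
  have hη1 : η1 ≠ 0 := fun h => h1 (h ▸ hT0 x1)
  have hF1 : 0 < F (x1, η1) := div_pos (by positivity) (pow_pos (hpos _ _ hη1) 3)
  obtain ⟨C, hC0, hC⟩ := hf.d_le 3
  have hup : ∀ x η : E n, η ≠ 0 → F (x, η) ≤ (C * r x ^ (μ - (3 : ℕ))) ^ 2 / c ^ 3 := by
    intro x η hη
    have a1 := abs_T3_le f x η
    have a2 : T3 f x η ^ 2 ≤ (C * r x ^ (μ - (3 : ℕ))) ^ 2 * (η ⬝ᵥ η) ^ 3 := by
      rw [← sq_abs]
      refine (pow_le_pow_left₀ (abs_nonneg _) a1 2).trans ?_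
      rw [mul_pow, ← pow_mul, mul_comm 3 2, pow_mul, Real.sq_sqrt (dot_self_nonneg η)]
      exact mul_le_mul_of_nonneg_right (pow_le_pow_left₀ (d_nonneg _ _ _) (hC x) 2)
        (pow_nonneg (dot_self_nonneg η) 3)
    have a3 : (c * (η ⬝ᵥ η)) ^ 3 ≤ (η ⬝ᵥ (evM x g *ᵥ η)) ^ 3 :=
      pow_le_pow_left₀ (mul_pos hc (hdot η hη)).le (hg x η) 3
    have a4 := hdot η hη
    calc F (x, η) ≤ (C * r x ^ (μ - (3 : ℕ))) ^ 2 * (η ⬝ᵥ η) ^ 3 / (c * (η ⬝ᵥ η)) ^ 3 :=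
          div_le_div₀ (by positivity) a2 (by positivity) a3
      _ = _ := by field_simp
  have hlim : Filter.Tendsto (fun t : ℝ => (C * t ^ (μ - (3 : ℕ))) ^ 2 / c ^ 3) Filter.atTop
      (nhds ((C * 0) ^ 2 / c ^ 3)) := by
    have := tendsto_rpow_neg_atTop (y := 3 - μ) (by linarith)
    rw [neg_sub] at this
    exact ((this.const_mul C).pow 2).div_const _
  obtain ⟨R, hR⟩ := Filter.eventually_atTop.1 (hlim.eventually_lt_const (by simpa using hF1))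
  have hA : IsCompact ({x : E n | r x ≤ max R (r x1)} ×ˢ Metric.sphere (0 : E n) 1) :=
    (isCompact_r_le _).prod (isCompact_sphere _ _)
  have hne : ∀ η ∈ Metric.sphere (0 : E n) 1, η ≠ 0 := fun η hη h => by simp [h] at hη
  have hcont : ContinuousOn F ({x : E n | r x ≤ max R (r x1)} ×ˢ Metric.sphere (0 : E n) 1) := by
    have c0 : ∀ h : Sm n, Continuous fun p : E n × E n => ev p.1 h :=
      fun h => (ev_continuous h).comp continuous_fst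
    have c1 : Continuous fun p : E n × E n => T3 f p.1 p.2 := by
      unfold T3
      fun_prop
    have c2 : Continuous fun p : E n × E n => p.2 ⬝ᵥ (evM p.1 g *ᵥ p.2) := by
      simp only [dotProduct, mulVec, evM_apply]
      fun_prop
    exact (c1.pow 2).continuousOn.div (c2.pow 3).continuousOn
      fun p hp => (pow_pos (hpos _ _ (hne _ hp.2)) 3).ne'
  have hm1 : (x1, ‖η1‖⁻¹ • η1) ∈ {x : E n | r x ≤ max R (r x1)} ×ˢ Metric.sphere (0 : E n) 1 :=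
    ⟨show r x1 ≤ max R (r x1) from le_max_right _ _, hsph _ hη1⟩
  obtain ⟨⟨x0, η0⟩, h0, hmax⟩ := hA.exists_isMaxOn ⟨_, hm1⟩ hcont
  have hn : ∀ η : E n, η ≠ 0 → ‖η‖⁻¹ ≠ 0 := fun η hη => inv_ne_zero (norm_ne_zero_iff.2 hη)
  have h10 : F (x1, η1) ≤ F (x0, η0) := (hhom x1 η1 _ (hn _ hη1)).symm.le.trans (hmax hm1)
  have hall : ∀ x η : E n, η ≠ 0 → F (x, η) ≤ F (x0, η0) := by
    intro x η hη
    by_cases hx : r x ≤ max R (r x1)
    · exact (hhom x η _ (hn _ hη)).symm.le.trans (hmax ⟨hx, hsph _ hη⟩)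
    · exact (hup x η hη).trans ((hR _ ((le_max_left _ _).trans (not_le.1 hx).le)).le.trans h10)
  have hm : 0 < F (x0, η0) := hF1.trans_le h10
  have hγ := hpos x0 η0 (hne _ h0.2)
  have hs : 0 < Real.sqrt (η0 ⬝ᵥ (evM x0 g *ᵥ η0)) := Real.sqrt_pos.2 hγ
  set ξ : E n := (Real.sqrt (η0 ⬝ᵥ (evM x0 g *ᵥ η0)))⁻¹ • η0 with hξ
  have hξ1 : ξ ⬝ᵥ (evM x0 g *ᵥ ξ) = 1 := by
    rw [hξ, calabi_q_smul, inv_pow, Real.sq_sqrt hγ.le, inv_mul_cancel₀ hγ.ne']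
  have hξ2 : T3 f x0 ξ ^ 2 = Real.sqrt (F (x0, η0)) ^ 2 := by
    rw [Real.sq_sqrt hm.le, ← hhom x0 η0 _ (inv_ne_zero hs.ne'), ← hξ]
    simp only [hF, hξ1, one_pow, div_one]
  have hfin : ∀ x η : E n,
      T3 f x η ^ 2 ≤ Real.sqrt (F (x0, η0)) ^ 2 * (η ⬝ᵥ (evM x g *ᵥ η)) ^ 3 := by
    intro x η
    by_cases hη : η = 0
    · simp [hη, hT0]
    · rw [Real.sq_sqrt hm.le, ← div_le_iff₀ (pow_pos (hpos x η hη) 3)]
      exact hall x η hη
  rcases sq_eq_sq_iff_eq_or_eq_neg.1 hξ2 with h | h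
  · exact ⟨x0, ξ, _, Real.sqrt_pos.2 hm, hξ1, h, hfin⟩
  · refine ⟨x0, (-1 : ℝ) • ξ, _, Real.sqrt_pos.2 hm, ?_, ?_, hfin⟩
    · rw [calabi_q_smul, hξ1]; norm_num
    · rw [calabi_T3_smul, h]; ring

/-- The function `(x, η) ↦ T3 ζ x η ^ 2 / (η g η)^3` on `E n × {η ⬝ᵥ η = 1}` tends to `0` as `x → ∞`
uniformly (`d 3 ζ ≤ C r^{9/8-3}`, `g ≥ c`); if it is not identically zero it attains its maximum `M² > 0`
at `(x0, η0)`; normalise `ξ = ± η0 / √(η0 g η0)`, extend the bound to all `η` by homogeneity, and use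
`calabi_pt`, `abs_T3_le`, `ξ ⬝ᵥ ξ ≤ 1/c`. Finally `η g η ≤ n K η ⬝ᵥ η` and `d_three_le`. -/
theorem calabi (n : ℕ) {c : ℝ} (hc : 0 < c) (K : ℝ) : ∃ C, 0 ≤ C ∧ ∀ D : KE n, Ell c K D.g →
    Low 0 D.H → (∀ x, d 3 D.V x ≤ K) → ∀ x, d 3 D.ζ x ≤ C := by
  refine ⟨(n : ℝ) ^ 3 * (5 * ((1 + 4 * (|K| * Real.sqrt c⁻¹ ^ 3)) * Real.sqrt (n * |K|) ^ 3)),
    by positivity, fun D hE hH hV x => d_three_le _ x (by positivity) fun η => ?_⟩
  by_cases h1 : T3 D.ζ x η = 0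
  · rw [h1, abs_zero]; positivity
  obtain ⟨x0, ξ, M, hM, hξ, hN, hmax⟩ := calabi_max hc D.symζ (by norm_num) hE.low h1
  have h2 := calabi_pt D hH x0 ξ hM hξ hN hmax
  have h3 : ξ ⬝ᵥ ξ ≤ c⁻¹ := by
    have := hE.low x0 ξ
    rw [hξ] at this
    rwa [inv_eq_one_div, le_div_iff₀' hc]
  have h4 : |T3 D.V x0 ξ| ≤ |K| * Real.sqrt c⁻¹ ^ 3 :=
    (abs_T3_le _ _ _).trans (mul_le_mul ((hV x0).trans (le_abs_self K))
      (pow_le_pow_left₀ (Real.sqrt_nonneg _) (Real.sqrt_le_sqrt h3) 3) (by positivity) (abs_nonneg K))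
  have h5 : M ≤ 1 + 4 * (|K| * Real.sqrt c⁻¹ ^ 3) := by
    have : M ≤ 1 + M ^ 3 := by nlinarith [mul_nonneg hM.le (sq_nonneg (M - 1)), sq_nonneg (M - 1)]
    linarith
  have h6 : η ⬝ᵥ (evM x D.g *ᵥ η) ≤ n * |K| * (η ⬝ᵥ η) :=
    (le_abs_self _).trans (abs_quad_le (fun a b => (hE.bd x a b).trans (le_abs_self K)) η)
  have h7 : 0 ≤ η ⬝ᵥ (evM x D.g *ᵥ η) := (mul_nonneg hc.le (dot_self_nonneg η)).trans (hE.low x η)
  refine abs_le_of_sq_le_sq ((hmax x η).trans ?_) (by positivity)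
  have e1 : (Real.sqrt (n * |K|) ^ 3) ^ 2 = (n * |K|) ^ 3 := by
    rw [← pow_mul, mul_comm 3 2, pow_mul, Real.sq_sqrt (by positivity)]
  have e2 : (Real.sqrt (η ⬝ᵥ η) ^ 3) ^ 2 = (η ⬝ᵥ η) ^ 3 := by
    rw [← pow_mul, mul_comm 3 2, pow_mul, Real.sq_sqrt (dot_self_nonneg η)]
  rw [mul_pow, mul_pow, e1, e2, mul_assoc, ← mul_pow]
  exact mul_le_mul (pow_le_pow_left₀ hM.le h5 2) (pow_le_pow_left₀ h7 h6 3) (by positivity)
    (by positivity)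

end Crest.Agent.R238
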