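import Crest.Agent.R238.Alg

/-!
# Row 238: the algebra of a symmetric cubic form at a maximal direction
-/

set_option autoImplicit false
open MeasureTheory Matrix Filter Topology
open scoped ContDiff BigOperators

noncomputable section
namespace Crest.Agent.R238

variable {n : ℕ}

theorem poly_coeff {c1 c2 : ℝ} {ρ : ℝ → ℝ} (hρ : Continuous ρ)
    (h : ∀ t, 0 ≤ c1 * t + c2 * t ^ 2 + t ^ 3 * ρ t) : c1 = 0 ∧ 0 ≤ c2 := by
  have k1 : Tendsto (fun t : ℝ => c1 + c2 * t + t ^ 2 * ρ t) (𝓝 0) (𝓝 c1) := by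
    have : Continuous fun t : ℝ => c1 + c2 * t + t ^ 2 * ρ t := by fun_prop
    simpa using this.tendsto 0
  have k2 : Tendsto (fun t : ℝ => c2 + t * ρ t) (𝓝 0) (𝓝 c2) := by
    have : Continuous fun t : ℝ => c2 + t * ρ t := by fun_prop
    simpa using this.tendsto 0
  have a1 : 0 ≤ c1 := by
    refine ge_of_tendsto (k1.mono_left (nhdsWithin_le_nhds (s := Set.Ioi 0)))
      (eventually_nhdsWithin_of_forall fun t (ht : 0 < t) => ?_)
    have := h t
    have e : c1 * t + c2 * t ^ 2 + t ^ 3 * ρ t = t * (c1 + c2 * t + t ^ 2 * ρ t) := by ring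
    rw [e] at this
    exact nonneg_of_mul_nonneg_right this ht |> fun h => by
      by_contra hc; push Not at hc; nlinarith
  have a2 : c1 ≤ 0 := by
    refine le_of_tendsto (k1.mono_left (nhdsWithin_le_nhds (s := Set.Iio 0)))
      (eventually_nhdsWithin_of_forall fun t (ht : t < 0) => ?_)
    have := h t
    have e : c1 * t + c2 * t ^ 2 + t ^ 3 * ρ t = t * (c1 + c2 * t + t ^ 2 * ρ t) := by ring
    rw [e] at this
    by_contra hc; push Not at hc; nlinarith
  have a3 : c1 = 0 := le_antisymm a2 a1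
  refine ⟨a3, ge_of_tendsto (k2.mono_left (nhdsWithin_le_nhds (s := Set.Ioi 0)))
      (eventually_nhdsWithin_of_forall fun t (ht : 0 < t) => ?_)⟩
  have := h t
  have e : c1 * t + c2 * t ^ 2 + t ^ 3 * ρ t = t ^ 2 * (c2 + t * ρ t) := by rw [a3]; ring
  rw [e] at this
  by_contra hc; push Not at hc; nlinarith [sq_pos_of_pos ht]

/-- The trilinear form of a family of matrices. -/
def tri (T : Fin n → RM n) (u v w : E n) : ℝ := v ⬝ᵥ ((∑ a, u a • T a) *ᵥ w)

theorem tri_eq (T : Fin n → RM n) (u v w : E n) :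
    tri T u v w = ∑ a, ∑ b, ∑ c, T a b c * u a * v b * w c := by
  simp only [tri, dotProduct, Matrix.mulVec, Matrix.sum_apply, Matrix.smul_apply, smul_eq_mul,
    Finset.mul_sum, Finset.sum_mul]
  conv_rhs => rw [Finset.sum_comm]
  refine Finset.sum_congr rfl fun b _ => ?_
  rw [Finset.sum_comm]
  exact Finset.sum_congr rfl fun a _ => Finset.sum_congr rfl fun c _ => by ring

theorem tri_swap12 {T : Fin n → RM n} (hT' : ∀ a b c, T a b c = T b a c) (u v w : E n) :
    tri T u v w = tri T v u w := by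
  rw [tri_eq, tri_eq, Finset.sum_comm]
  exact Finset.sum_congr rfl fun a _ => Finset.sum_congr rfl fun b _ =>
    Finset.sum_congr rfl fun c _ => by rw [hT' b a c]; ring

theorem tri_swap23 {T : Fin n → RM n} (hT : ∀ a, (T a)ᵀ = T a) (u v w : E n) :
    tri T u v w = tri T u w v := by
  rw [tri_eq, tri_eq]
  refine Finset.sum_congr rfl fun a _ => ?_
  rw [Finset.sum_comm]
  refine Finset.sum_congr rfl fun b _ => Finset.sum_congr rfl fun c _ => ?_
  have : T a c b = T a b c := congrFun (congrFun (hT a) b) c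
  rw [this]; ring

theorem tri_line (T : Fin n → RM n) (ξ η : E n) (t : ℝ) :
    tri T (ξ + t • η) (ξ + t • η) (ξ + t • η) = tri T ξ ξ ξ
      + t * (tri T ξ ξ η + tri T ξ η ξ + tri T η ξ ξ)
      + t ^ 2 * (tri T ξ η η + tri T η ξ η + tri T η η ξ) + t ^ 3 * tri T η η η := by
  simp only [tri_eq, Finset.mul_sum, ← Finset.sum_add_distrib, Pi.add_apply, Pi.smul_apply,
    smul_eq_mul]
  exact Finset.sum_congr rfl fun a _ => Finset.sum_congr rfl fun b _ =>
    Finset.sum_congr rfl fun c _ => by ring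

theorem quad_line {g : RM n} (hg : gᵀ = g) (ξ η : E n) (t : ℝ) :
    (ξ + t • η) ⬝ᵥ (g *ᵥ (ξ + t • η)) =
      ξ ⬝ᵥ (g *ᵥ ξ) + 2 * t * (η ⬝ᵥ (g *ᵥ ξ)) + t ^ 2 * (η ⬝ᵥ (g *ᵥ η)) := by
  have : ξ ⬝ᵥ (g *ᵥ η) = η ⬝ᵥ (g *ᵥ ξ) := by
    rw [Matrix.dotProduct_mulVec, ← Matrix.mulVec_transpose, hg, dotProduct_comm]
  simp only [Matrix.mulVec_add, Matrix.mulVec_smul, add_dotProduct, dotProduct_add,
    smul_dotProduct, dotProduct_smul, smul_eq_mul, this]
  ring

theorem calabi_alg' (τ g : RM n) (T : Fin n → RM n) (ξ : E n) {M : ℝ} (hM : 0 < M) (hg : g.PosDef)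
    (hinv : τ * g = 1) (hT : ∀ a, (T a)ᵀ = T a) (hT' : ∀ a b c, T a b c = T b a c)
    (hξ : ξ ⬝ᵥ (g *ᵥ ξ) = 1) (hN : ξ ⬝ᵥ ((∑ a, ξ a • T a) *ᵥ ξ) = M)
    (hmax : ∀ η : E n, (η ⬝ᵥ ((∑ a, η a • T a) *ᵥ η)) ^ 2 ≤ M ^ 2 * (η ⬝ᵥ (g *ᵥ η)) ^ 3) :
    (∑ a, ξ a • T a) *ᵥ ξ = M • (g *ᵥ ξ) ∧
    (τ * (∑ a, ξ a • T a) * τ * (∑ a, ξ a • T a) * τ * (∑ a, ξ a • T a)).trace
      ≤ M * (τ * (∑ a, ξ a • T a) * τ * (∑ a, ξ a • T a)).trace ∧
    M ^ 2 ≤ (τ * (∑ a, ξ a • T a) * τ * (∑ a, ξ a • T a)).trace := by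
  have hgs : gᵀ = g := psd_transpose hg.posSemidef
  have hτ : τ.PosDef := posDef_inv_of_mul hg hinv
  have hτs : τᵀ = τ := psd_transpose hτ.posSemidef
  have hinv' : g * τ = 1 := mul_eq_one_comm.1 hinv
  have key : ∀ η : E n, tri T ξ η ξ = M * (η ⬝ᵥ (g *ᵥ ξ)) ∧ tri T ξ η η ≤ M * (η ⬝ᵥ (g *ᵥ η)) := by
    intro η
    set α := tri T ξ η ξ
    set θ := tri T ξ η η
    set w3 := tri T η η η
    set β := η ⬝ᵥ (g *ᵥ ξ)
    set γ := η ⬝ᵥ (g *ᵥ η)
    have e1 : tri T ξ ξ η = α := tri_swap23 hT _ _ _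
    have e2 : tri T η ξ ξ = α := tri_swap12 hT' _ _ _
    have e3 : tri T η ξ η = θ := tri_swap12 hT' _ _ _
    have e4 : tri T η η ξ = θ := (tri_swap23 hT _ _ _).trans e3
    have hN' : tri T ξ ξ ξ = M := hN
    have hp : ∀ t : ℝ, 0 ≤ (6 * M ^ 2 * β - 6 * M * α) * t
        + (M ^ 2 * (3 * γ + 12 * β ^ 2) - (9 * α ^ 2 + 6 * M * θ)) * t ^ 2
        + t ^ 3 * (M ^ 2 * (8 * β ^ 3 + 12 * β * γ + t * (12 * β ^ 2 * γ + 3 * γ ^ 2)
            + t ^ 2 * (6 * β * γ ^ 2) + t ^ 3 * γ ^ 3)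
          - (2 * M * w3 + 18 * α * θ + t * (9 * θ ^ 2 + 6 * α * w3) + t ^ 2 * (6 * θ * w3)
            + t ^ 3 * w3 ^ 2)) := by
      intro t
      have h := hmax (ξ + t • η)
      change tri T (ξ + t • η) (ξ + t • η) (ξ + t • η) ^ 2 ≤ _ at h
      rw [tri_line, quad_line hgs, hξ, e1, e2, e3, e4, hN'] at h
      have := sub_nonneg.2 h
      convert this using 1
      ring
    obtain ⟨c1, c2⟩ := poly_coeff (by fun_prop) hp
    have hα : α = M * β := by
      have : M * (M * β - α) = 0 := by linarith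
      rcases mul_eq_zero.1 this with h | h
      · exact absurd h hM.ne'
      · linarith
    refine ⟨hα, ?_⟩
    have hcs : β ^ 2 ≤ γ := by
      have := psd_cs hg.posSemidef η ξ
      rwa [hξ, mul_one] at this
    rw [hα] at c2
    have : M * (2 * θ) ≤ M * (M * (γ + β ^ 2)) := by nlinarith
    have := le_of_mul_le_mul_left this hM
    nlinarith
  set A : RM n := ∑ a, ξ a • T a with hA
  have hAs : Aᵀ = A := by
    rw [hA, Matrix.transpose_sum]
    exact Finset.sum_congr rfl fun a _ => by rw [Matrix.transpose_smul, hT]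
  have h1 : A *ᵥ ξ = M • (g *ᵥ ξ) := by
    funext b
    have := (key (Pi.single b 1)).1
    simpa [tri, ← hA] using this
  have hpsd : (M • g - A).PosSemidef := by
    refine psd_of_low (c := 0) (by rw [Matrix.transpose_sub, Matrix.transpose_smul, hgs, hAs])
      le_rfl fun v => ?_
    have := (key v).2
    simp only [tri, ← hA] at this
    simp only [Matrix.sub_mulVec, Matrix.smul_mulVec, dotProduct_sub, dotProduct_smul, smul_eq_mul]
    linarith
  have hAτA : (A * τ * A).PosSemidef := by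
    have := hτ.posSemidef.conjTranspose_mul_mul_same A
    rwa [Matrix.conjTranspose_eq_transpose_of_trivial, hAs] at this
  have hτAτAτ : (τ * (A * τ * A) * τ).PosSemidef := by
    have := hAτA.conjTranspose_mul_mul_same τ
    rwa [Matrix.conjTranspose_eq_transpose_of_trivial, hτs] at this
  refine ⟨h1, ?_, ?_⟩
  · have := trace_mul_nonneg hτAτAτ hpsd
    rw [Matrix.mul_sub, Matrix.mul_smul, Matrix.trace_sub, Matrix.trace_smul,
      Matrix.mul_assoc _ τ g, hinv, Matrix.mul_one, smul_eq_mul] at this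
    simp only [Matrix.mul_assoc] at this ⊢
    linarith
  · have hq : (τ - vecMulVec ξ ξ).PosSemidef := by
      refine psd_of_low (c := 0) (by
        rw [Matrix.transpose_sub, hτs, Matrix.transpose_vecMulVec]) le_rfl fun v => ?_
      have := cs_inv hg hinv v ξ
      rw [hξ, mul_one] at this
      have e : v ⬝ᵥ (vecMulVec ξ ξ *ᵥ v) = (v ⬝ᵥ ξ) ^ 2 := by
        rw [Matrix.vecMulVec_mulVec]
        simp [sq, dotProduct_comm]
      simp only [Matrix.sub_mulVec, dotProduct_sub, e]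
      linarith
    have := trace_mul_nonneg hq hAτA
    rw [Matrix.sub_mul, Matrix.trace_sub] at this
    have e : (vecMulVec ξ ξ * (A * τ * A)).trace = M ^ 2 := by
      rw [Matrix.vecMulVec_mul, Matrix.trace_vecMulVec, dotProduct_comm,
        ← Matrix.dotProduct_mulVec, ← Matrix.mulVec_mulVec, ← Matrix.mulVec_mulVec, h1,
        Matrix.mulVec_smul, Matrix.mulVec_mulVec, hinv, Matrix.one_mulVec, Matrix.mulVec_smul, h1]
      simp [hξ, sq]
    simp only [Matrix.mul_assoc] at this e ⊢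
    linarith

end Crest.Agent.R238
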