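import Crest.Agent.R238.KEid
import Crest.Agent.R238.MaxP
import Crest.Agent.R238.CalabiAlg

/-!
# Row 238: Calabi's third order estimate at a maximum point
-/

set_option autoImplicit false
open MeasureTheory Matrix
open scoped ContDiff BigOperators

noncomputable section
namespace Crest.Agent.R238

variable {n : ℕ}

/-- The cubic form `D³f(x)(η,η,η)`. -/
def T3 (f : Sm n) (x η : E n) : ℝ :=
  ∑ a, ∑ b, ∑ c, ev x (pd a (pd b (pd c f))) * η a * η b * η c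

/-- Algebra at a maximal direction. `T a` are symmetric matrices with `T a b c` totally symmetric,
`Tξ = ∑ ξ a • T a`. The polynomial `t ↦ M² g(ξ+tη)³ - T(ξ+tη)²` is `≥ 0` and vanishes at `0`; its
linear term gives `T(ξ,ξ,η) = M g(ξ,η)`, its quadratic term `T(ξ,η,η) ≤ M (γ + β²)/2 ≤ M γ` with
`β = g(ξ,η)`, `γ = g(η,η)` (`psd_cs`). Then `tr(τTτTτ (M g - T)) ≥ 0` and
`tr((τ - ξξᵀ) TτT) ≥ 0` (`cs_inv`, `trace_mul_nonneg`). -/
theorem calabi_alg (τ g : RM n) (T : Fin n → RM n) (ξ : E n) {M : ℝ} (hM : 0 < M) (hg : g.PosDef)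
    (hinv : τ * g = 1) (hT : ∀ a, (T a)ᵀ = T a) (hT' : ∀ a b c, T a b c = T b a c)
    (hξ : ξ ⬝ᵥ (g *ᵥ ξ) = 1) (hN : ξ ⬝ᵥ ((∑ a, ξ a • T a) *ᵥ ξ) = M)
    (hmax : ∀ η : E n, (η ⬝ᵥ ((∑ a, η a • T a) *ᵥ η)) ^ 2 ≤ M ^ 2 * (η ⬝ᵥ (g *ᵥ η)) ^ 3) :
    (∑ a, ξ a • T a) *ᵥ ξ = M • (g *ᵥ ξ) ∧
    (τ * (∑ a, ξ a • T a) * τ * (∑ a, ξ a • T a) * τ * (∑ a, ξ a • T a)).trace
      ≤ M * (τ * (∑ a, ξ a • T a) * τ * (∑ a, ξ a • T a)).trace ∧
    M ^ 2 ≤ (τ * (∑ a, ξ a • T a) * τ * (∑ a, ξ a • T a)).trace :=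
  calabi_alg' τ g T ξ hM hg hinv hT hT' hξ hN hmax

theorem gam_mul_left (τ : Mat n) (f g h : Sm n) :
    gam τ (f * g) h = f * gam τ g h + g * gam τ f h := by
  simp only [gam, pd_mul, Finset.mul_sum, ← Finset.sum_add_distrib]
  exact Finset.sum_congr rfl fun a _ => Finset.sum_congr rfl fun b _ => by ring

theorem Lop_quad {τ : Mat n} (hτ : τᵀ = τ) {G : Mat n} (hG : Gᵀ = G) (Ξ : Fin n → Sm n) :
    Lop τ (∑ a, ∑ b, G a b * Ξ a * Ξ b) = ∑ a, ∑ b, Lop τ (G a b) * Ξ a * Ξ b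
      + 2 * ∑ a, ∑ b, G a b * Ξ b * Lop τ (Ξ a)
      + 4 * ∑ a, ∑ b, gam τ (G a b) (Ξ a) * Ξ b
      + 2 * ∑ a, ∑ b, G a b * gam τ (Ξ a) (Ξ b) := by
  have hG' : ∀ a b, G b a = G a b := fun a b => congrFun (congrFun hG a) b
  have e1 : ∑ a, ∑ b, G a b * Ξ a * Lop τ (Ξ b) = ∑ a, ∑ b, G a b * Ξ b * Lop τ (Ξ a) := by
    rw [Finset.sum_comm]
    exact Finset.sum_congr rfl fun a _ => Finset.sum_congr rfl fun b _ => by rw [hG']
  have e2 : ∑ a, ∑ b, gam τ (G a b) (Ξ b) * Ξ a = ∑ a, ∑ b, gam τ (G a b) (Ξ a) * Ξ b := by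
    rw [Finset.sum_comm]
    exact Finset.sum_congr rfl fun a _ => Finset.sum_congr rfl fun b _ => by rw [hG']
  have e3 : Lop τ (∑ a, ∑ b, G a b * Ξ a * Ξ b) = ∑ a, ∑ b, Lop τ (G a b) * Ξ a * Ξ b
      + (∑ a, ∑ b, G a b * Ξ b * Lop τ (Ξ a) + ∑ a, ∑ b, G a b * Ξ a * Lop τ (Ξ b))
      + 2 * (∑ a, ∑ b, gam τ (G a b) (Ξ a) * Ξ b + ∑ a, ∑ b, gam τ (G a b) (Ξ b) * Ξ a)
      + 2 * ∑ a, ∑ b, G a b * gam τ (Ξ a) (Ξ b) := by
    simp only [Lop_sum, Lop_mul hτ, gam_mul_left, mul_add, Finset.mul_sum, ← Finset.sum_add_distrib]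
    exact Finset.sum_congr rfl fun a _ => Finset.sum_congr rfl fun b _ => by ring
  rw [e3, e1, e2]; ring

/-- The affine vector field `ξ + B (x - x0)`. -/
def affV (ξ x0 : E n) (B : RM n) (a : Fin n) : Sm n :=
  cst (ξ a) + ∑ b, B a b • (X b - cst (x0 b))

theorem ev_affV (ξ x0 : E n) (B : RM n) (a : Fin n) : ev x0 (affV ξ x0 B a) = ξ a := by
  simp [affV]

theorem pd_affV (ξ x0 : E n) (B : RM n) (a l : Fin n) : pd l (affV ξ x0 B a) = cst (B a l) := by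
  simp only [affV, map_add, map_sum, pd_cst, Derivation.map_smul, map_sub, pd_X]
  simp [Algebra.smul_def]

theorem ev_Lop_affV (τ : Mat n) (ξ x0 : E n) (B : RM n) (a : Fin n) :
    ev x0 (Lop τ (affV ξ x0 B a)) = -(B *ᵥ x0) a := by
  simp only [Lop, con, eul, pd_affV, pd_cst]
  simp [Matrix.mulVec, dotProduct, mul_comm]

/-- The value of `L (G Ξ Ξ)` and `∂(G Ξ Ξ)` at `x0`; `Z a k = ∑_b ∂_k G_ab ξ_b`. -/
theorem ev_Lop_quad {τ : Mat n} (hτ : τᵀ = τ) {G : Mat n} (hG : Gᵀ = G) (ξ x0 : E n) (B Z : RM n)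
    (hZ : ∀ a k, Z a k = ∑ b, ev x0 (pd k (G a b)) * ξ b) :
    ev x0 (Lop τ (∑ a, ∑ b, G a b * affV ξ x0 B a * affV ξ x0 B b)) =
      ∑ a, ∑ b, ev x0 (Lop τ (G a b)) * ξ a * ξ b
      - 2 * ((B *ᵥ x0) ⬝ᵥ (evM x0 G *ᵥ ξ))
      + 4 * (evM x0 τ * Bᵀ * Z).trace + 2 * (evM x0 τ * Bᵀ * evM x0 G * B).trace := by
  rw [Lop_quad hτ hG]
  simp only [map_add, map_mul, map_sum, ev_affV, ev_Lop_affV, ev_ofNat, gam, pd_affV, ev_cst]
  have e1 : ∑ a, ∑ b, ev x0 (G a b) * ξ b * -(B *ᵥ x0) a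
      = -((B *ᵥ x0) ⬝ᵥ (evM x0 G *ᵥ ξ)) := by
    simp only [dotProduct, Matrix.mulVec.eq_def (evM x0 G), evM_apply, Finset.mul_sum,
      ← Finset.sum_neg_distrib]
    exact Finset.sum_congr rfl fun a _ => Finset.sum_congr rfl fun b _ => by ring
  have e2 : ∑ a, ∑ b, (∑ k, ∑ l, ev x0 (τ k l) * ev x0 (pd k (G a b)) * B a l) * ξ b
      = (evM x0 τ * Bᵀ * Z).trace := by
    simp only [Matrix.trace, Matrix.diag, Matrix.mul_apply, evM_apply, Matrix.transpose_apply, hZ,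
      Finset.mul_sum, Finset.sum_mul]
    conv_rhs => rw [Finset.sum_comm]
    refine Finset.sum_congr rfl fun a _ => ?_
    rw [Finset.sum_comm]
    refine Finset.sum_congr rfl fun k _ => Finset.sum_congr rfl fun b _ =>
      Finset.sum_congr rfl fun l _ => by ring
  have e3 : ∑ a, ∑ b, ev x0 (G a b) * ∑ k, ∑ l, ev x0 (τ k l) * B a k * B b l
      = (evM x0 τ * Bᵀ * evM x0 G * B).trace := by
    have hτ' : ∀ a b, τ b a = τ a b := fun a b => congrFun (congrFun hτ a) b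
    simp only [Matrix.trace, Matrix.diag, Matrix.mul_apply, evM_apply, Matrix.transpose_apply,
      Finset.mul_sum, Finset.sum_mul]
    rw [Finset.sum_comm]
    conv_rhs => rw [Finset.sum_comm]
    refine Finset.sum_congr rfl fun b _ => ?_
    conv_rhs => rw [Finset.sum_comm]
    refine Finset.sum_congr rfl fun a _ => ?_
    rw [Finset.sum_comm]
    refine Finset.sum_congr rfl fun l _ => Finset.sum_congr rfl fun k _ => ?_
    rw [hτ' k l]; ring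
  rw [e1, e2, e3]; ring

theorem ev_pd_quad {G : Mat n} (hG : Gᵀ = G) (ξ x0 : E n) (B Z : RM n)
    (hZ : ∀ a k, Z a k = ∑ b, ev x0 (pd k (G a b)) * ξ b) (l : Fin n) :
    ev x0 (pd l (∑ a, ∑ b, G a b * affV ξ x0 B a * affV ξ x0 B b)) =
      (Zᵀ *ᵥ ξ) l + 2 * (Bᵀ *ᵥ (evM x0 G *ᵥ ξ)) l := by
  have hG' : ∀ a b, G b a = G a b := fun a b => congrFun (congrFun hG a) b
  simp only [map_sum, pd_mul, pd_affV, map_add, map_mul, ev_affV, ev_cst, Matrix.mulVec, dotProduct,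
    Matrix.transpose_apply, hZ, evM_apply, Finset.sum_add_distrib, add_mul]
  have e1 : ∑ a, ∑ b, ev x0 (G a b) * ξ a * B b l = ∑ a, ∑ b, ev x0 (G a b) * B a l * ξ b := by
    rw [Finset.sum_comm]
    exact Finset.sum_congr rfl fun a _ => Finset.sum_congr rfl fun b _ => by rw [hG']; ring
  rw [e1, add_assoc, ← two_mul]
  congr 1
  · simp only [Finset.sum_mul]
    exact Finset.sum_congr rfl fun a _ => Finset.sum_congr rfl fun b _ => by ring
  · congr 1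
    simp only [Finset.mul_sum]
    exact Finset.sum_congr rfl fun a _ => Finset.sum_congr rfl fun b _ => by ring

theorem T3_eq (f : Sm n) (x η : E n) :
    T3 f x η = η ⬝ᵥ ((∑ c, η c • evM x (hess (pd c f))) *ᵥ η) := by
  simp only [T3, dotProduct, Matrix.mulVec, Matrix.sum_apply, Matrix.smul_apply, evM_apply,
    hess_apply, smul_eq_mul, Finset.mul_sum, Finset.sum_mul]
  exact Finset.sum_congr rfl fun a _ => Finset.sum_congr rfl fun b _ =>
    Finset.sum_congr rfl fun c _ => by ring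

theorem sum3_mul_trace (ξ : E n) (τ : RM n) (T : Fin n → RM n) (U : Fin n → Fin n → RM n) :
    ∑ a, ∑ b, ∑ c, (τ * T a * τ * U b c).trace * ξ a * ξ b * ξ c =
      (τ * (∑ a, ξ a • T a) * τ * ∑ b, ∑ c, (ξ b * ξ c) • U b c).trace := by
  simp only [Matrix.sum_mul, Matrix.trace_sum, Matrix.mul_smul, Matrix.smul_mul,
    Matrix.trace_smul, smul_eq_mul, Finset.mul_sum]
  rw [Finset.sum_comm]
  refine Finset.sum_congr rfl fun b _ => ?_
  rw [Finset.sum_comm]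
  exact Finset.sum_congr rfl fun c _ => Finset.sum_congr rfl fun a _ => by ring

theorem sum3_cube_trace (ξ : E n) (τ : RM n) (T : Fin n → RM n) :
    ∑ a, ∑ b, ∑ c, (τ * T a * τ * T b * τ * T c).trace * ξ a * ξ b * ξ c =
      (τ * (∑ a, ξ a • T a) * τ * (∑ a, ξ a • T a) * τ * ∑ a, ξ a • T a).trace := by
  simp only [Matrix.sum_mul, Matrix.trace_sum, Matrix.mul_smul, Matrix.smul_mul,
    Matrix.trace_smul, smul_eq_mul, Finset.mul_sum]
  rw [Finset.sum_comm]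
  conv_rhs => rw [Finset.sum_comm]
  refine Finset.sum_congr rfl fun b _ => ?_
  rw [Finset.sum_comm]
  exact Finset.sum_congr rfl fun c _ => Finset.sum_congr rfl fun a _ => by ring

theorem sum3_perm_bac (F : Fin n → Fin n → Fin n → ℝ) (ξ : E n) :
    ∑ a, ∑ b, ∑ c, F b a c * ξ a * ξ b * ξ c = ∑ a, ∑ b, ∑ c, F a b c * ξ a * ξ b * ξ c := by
  rw [Finset.sum_comm]
  exact Finset.sum_congr rfl fun a _ => Finset.sum_congr rfl fun b _ =>
    Finset.sum_congr rfl fun c _ => by ring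

theorem sum3_perm_cab (F : Fin n → Fin n → Fin n → ℝ) (ξ : E n) :
    ∑ a, ∑ b, ∑ c, F c a b * ξ a * ξ b * ξ c = ∑ a, ∑ b, ∑ c, F a b c * ξ a * ξ b * ξ c := by
  conv_rhs => rw [Finset.sum_comm]
  refine Finset.sum_congr rfl fun a _ => ?_
  conv_rhs => rw [Finset.sum_comm]
  exact Finset.sum_congr rfl fun b _ => Finset.sum_congr rfl fun c _ => by ring

theorem KE.L_third_contr (D : KE n) (x ξ : E n) :
    ∑ a, ∑ b, ∑ c, ev x (Lop D.τ (pd a (pd b (pd c D.ζ)))) * ξ a * ξ b * ξ c =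
      2 * T3 D.ζ x ξ
      + 3 * (evM x D.τ * (∑ a, ξ a • evM x (hess (pd a D.ζ))) * evM x D.τ *
          ∑ b, ∑ c, (ξ b * ξ c) • evM x (hess (pd b (pd c D.ζ)))).trace
      - 2 * (evM x D.τ * (∑ a, ξ a • evM x (hess (pd a D.ζ))) * evM x D.τ *
          (∑ a, ξ a • evM x (hess (pd a D.ζ))) * evM x D.τ *
          ∑ a, ξ a • evM x (hess (pd a D.ζ))).trace
      - T3 D.V x ξ := by
  have k1 := sum3_mul_trace ξ (evM x D.τ) (fun a => evM x (hess (pd a D.ζ)))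
    (fun b c => evM x (hess (pd b (pd c D.ζ))))
  have k2 := sum3_cube_trace ξ (evM x D.τ) (fun a => evM x (hess (pd a D.ζ)))
  have k3 := sum3_perm_bac (fun a b c => (evM x D.τ * evM x (hess (pd a D.ζ)) * evM x D.τ *
    evM x (hess (pd b (pd c D.ζ)))).trace) ξ
  have k4 := sum3_perm_cab (fun a b c => (evM x D.τ * evM x (hess (pd a D.ζ)) * evM x D.τ *
    evM x (hess (pd b (pd c D.ζ)))).trace) ξ
  have k5 := sum3_perm_bac (fun a b c => (evM x D.τ * evM x (hess (pd a D.ζ)) * evM x D.τ *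
    evM x (hess (pd b D.ζ)) * evM x D.τ * evM x (hess (pd c D.ζ))).trace) ξ
  simp only [D.L_third, map_sub, map_add, map_mul, ev_ofNat, ev_trace, evM_mul, sub_mul, add_mul,
    Finset.sum_sub_distrib, Finset.sum_add_distrib]
  rw [k3, k4, k5, k1, k2]
  have k6 : ∑ a, ∑ b, ∑ c, 2 * ev x (pd a (pd b (pd c D.ζ))) * ξ a * ξ b * ξ c = 2 * T3 D.ζ x ξ := by
    simp only [T3, Finset.mul_sum]
    exact Finset.sum_congr rfl fun a _ => Finset.sum_congr rfl fun b _ =>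
      Finset.sum_congr rfl fun c _ => by ring
  rw [k6]
  simp only [T3]
  ring

theorem KE.L_g_contr (D : KE n) (x ξ : E n) :
    ∑ a, ∑ b, ev x (Lop D.τ (D.g a b)) * ξ a * ξ b =
      ξ ⬝ᵥ (evM x D.g *ᵥ ξ)
      + (evM x D.τ * (∑ a, ξ a • evM x (hess (pd a D.ζ))) * evM x D.τ *
          ∑ a, ξ a • evM x (hess (pd a D.ζ))).trace
      - ξ ⬝ᵥ (evM x D.H *ᵥ ξ) := by
  have h1 : ∀ a b, Lop D.τ (D.g a b) = D.g a b + D.Γ a b - D.H a b := by
    intro a b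
    have : Lop D.τ ((1 : Mat n) a b) = 0 := by
      rw [Matrix.one_apply]; split_ifs
      exacts [Lop_one _, Lop_zero _]
    simp only [KE.g, KE.H, Matrix.add_apply, Lop_add, this, D.L_hess]
    ring
  have h2 : ∑ a, ∑ b, ev x (D.Γ a b) * ξ a * ξ b =
      (evM x D.τ * (∑ a, ξ a • evM x (hess (pd a D.ζ))) * evM x D.τ *
          ∑ a, ξ a • evM x (hess (pd a D.ζ))).trace := by
    simp only [KE.Γ, Matrix.of_apply, ev_trace, evM_mul, Matrix.sum_mul,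
      Matrix.trace_sum, Matrix.mul_smul, Matrix.smul_mul, Matrix.trace_smul, smul_eq_mul,
      Finset.mul_sum]
    rw [Finset.sum_comm]
    exact Finset.sum_congr rfl fun a _ => Finset.sum_congr rfl fun b _ => by ring
  have h3 : ∀ G : Mat n, ∑ a, ∑ b, ev x (G a b) * ξ a * ξ b = ξ ⬝ᵥ (evM x G *ᵥ ξ) := by
    intro G
    simp only [dotProduct, Matrix.mulVec, evM_apply, Finset.mul_sum]
    exact Finset.sum_congr rfl fun a _ => Finset.sum_congr rfl fun b _ => by ring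
  simp only [h1, map_sub, map_add, sub_mul, add_mul, Finset.sum_sub_distrib, Finset.sum_add_distrib]
  rw [h2, h3, h3]

/-- Let `T = ∑ ξ_a g_a(x0)`, `P = τ T`, `B = -½ τ(x0) T` (real matrices) and use the affine vector field
`Ξ_a = cst (ξ a) + ∑_b B a b • (X b - cst (x0 b))`, `Nn = ∑ ζ_abc Ξ_a Ξ_b Ξ_c`, `Dd = ∑ g_ab Ξ_a Ξ_b`.
`Ψ = Nn² - M² Dd³ ≤ 0` with equality at `x0`, so `L Ψ (x0) ≤ 0` (`Lop_nonpos_of_max`). With `Lop_mul`,
`L Ξ_a = -∑ B a b X_b`, `∂_lΞ_a = B a l`, `L_third`, `L_hess`, at `x0`: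
`∇Dd = Tξ + 2 Bᵀ g ξ = 0`,
`L Nn = 2M - ½ tr P³ - V_ξξξ - 3 T(ξ,ξ,B x0)` (the terms `3 tr(τTτU)` and `6 tr(U B τ)` cancel,
`U = ∂_ξ∂_ξ g`; `-2 tr P³ + 6 tr(τ Bᵀ T B) = -½ tr P³`),
`L Dd = 1 - ½ tr P² - H_ξξ - 2 g(ξ, B x0)` (`tr P² + 4 tr(T B τ) + 2 tr(τ Bᵀ g B) = -½ tr P²`).
The drift terms cancel by `Tξ = M gξ`, and
`0 ≥ LΨ ≥ 2M L Nn - 3M² L Dd = M² - M tr P³ + (3/2) M² tr P² - 2M V_ξξξ + 3M² H_ξξ ≥ ½ M⁴ - 2M |V_ξξξ|`. -/
theorem calabi_pt (D : KE n) (hH : Low 0 D.H) (x0 ξ : E n) {M : ℝ} (hM : 0 < M)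
    (hξ : ξ ⬝ᵥ (evM x0 D.g *ᵥ ξ) = 1) (hN : T3 D.ζ x0 ξ = M)
    (hmax : ∀ x η : E n, T3 D.ζ x η ^ 2 ≤ M ^ 2 * (η ⬝ᵥ (evM x D.g *ᵥ η)) ^ 3) :
    M ^ 3 ≤ 4 * |T3 D.V x0 ξ| := by
  have hτs := D.τ_symm
  set τ0 : RM n := evM x0 D.τ with hτ0
  set g0 : RM n := evM x0 D.g with hg0
  set A : RM n := ∑ a, ξ a • evM x0 (hess (pd a D.ζ)) with hA
  set U : RM n := ∑ b, ∑ c, (ξ b * ξ c) • evM x0 (hess (pd b (pd c D.ζ))) with hU
  have hinv : τ0 * g0 = 1 := evM_inv D.τg x0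
  have hinv' : g0 * τ0 = 1 := mul_eq_one_comm.1 hinv
  have hτ0s : τ0ᵀ = τ0 := by rw [hτ0, ← evM_transpose, hτs]
  have hAs : Aᵀ = A := by
    rw [hA, Matrix.transpose_sum]
    exact Finset.sum_congr rfl fun a _ => by
      rw [Matrix.transpose_smul, ← evM_transpose, hess_transpose]
  obtain ⟨c1, c2, c3⟩ := calabi_alg τ0 g0 (fun a => evM x0 (hess (pd a D.ζ))) ξ hM (D.g_posDef x0)
    hinv (fun a => by rw [← evM_transpose, hess_transpose])
    (fun a b c => by simp only [evM_apply, hess_apply]; rw [pd_comm c a, pd_comm b a, pd_comm c b])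
    hξ (by rw [← T3_eq, hN]) (fun η => by rw [← T3_eq]; exact hmax x0 η)
  rw [← hA] at c1 c2 c3
  set B : RM n := (-1 / 2 : ℝ) • (τ0 * A) with hB
  have hBt : Bᵀ = (-1 / 2 : ℝ) • (A * τ0) := by
    rw [hB, Matrix.transpose_smul, Matrix.transpose_mul, hAs, hτ0s]
  set G : Mat n := ∑ c, affV ξ x0 B c • hess (pd c D.ζ) with hG
  have hGa : ∀ a b, G a b = ∑ c, affV ξ x0 B c * pd a (pd b (pd c D.ζ)) := fun a b => by
    simp [hG, Matrix.sum_apply]
  have hGs : Gᵀ = G := by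
    rw [hG, Matrix.transpose_sum]
    exact Finset.sum_congr rfl fun a _ => by rw [Matrix.transpose_smul, hess_transpose]
  have hAa : ∀ a b, A a b = ∑ c, ξ c * ev x0 (pd a (pd b (pd c D.ζ))) := fun a b => by
    simp [hA, Matrix.sum_apply]
  have hUa : ∀ a k, U a k = ∑ b, ∑ c, ξ b * ξ c * ev x0 (pd a (pd k (pd b (pd c D.ζ)))) :=
    fun a b => by simp [hU, Matrix.sum_apply]
  have hG0 : evM x0 G = A := by
    ext a b; simp [hGa, hAa, ev_affV]
  set Nn : Sm n := ∑ a, ∑ b, G a b * affV ξ x0 B a * affV ξ x0 B b with hNn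
  set Dd : Sm n := ∑ a, ∑ b, D.g a b * affV ξ x0 B a * affV ξ x0 B b with hDd
  have evN : ∀ x, ev x Nn = T3 D.ζ x (fun a => ev x (affV ξ x0 B a)) := by
    intro x
    simp only [hNn, hGa, T3, map_sum, map_mul, Finset.sum_mul]
    exact Finset.sum_congr rfl fun a _ => Finset.sum_congr rfl fun b _ =>
      Finset.sum_congr rfl fun c _ => by ring
  have evD : ∀ x, ev x Dd = (fun a => ev x (affV ξ x0 B a)) ⬝ᵥ
      (evM x D.g *ᵥ fun a => ev x (affV ξ x0 B a)) := by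
    intro x
    simp only [hDd, map_sum, map_mul, dotProduct, Matrix.mulVec, evM_apply, Finset.mul_sum]
    exact Finset.sum_congr rfl fun a _ => Finset.sum_congr rfl fun b _ => by ring
  have evN0 : ev x0 Nn = M := by rw [evN]; simpa [ev_affV] using hN
  have evD0 : ev x0 Dd = 1 := by rw [evD]; simpa [ev_affV] using hξ
  -- the maximum principle
  have hΨ : ev x0 (Lop D.τ (Nn * Nn - (M ^ 2) • (Dd * Dd * Dd))) ≤ 0 := by
    refine Lop_nonpos_of_max (D.τ_posDef x0).posSemidef fun y => ?_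
    have := hmax y (fun a => ev y (affV ξ x0 B a))
    rw [← evN, ← evD] at this
    simp only [map_sub, map_mul, map_smul, smul_eq_mul, evN0, evD0]
    nlinarith
  -- the quadratic quantity
  have hZD : ∀ a k, A a k = ∑ b, ev x0 (pd k (D.g a b)) * ξ b := by
    intro a k
    rw [hAa]
    refine Finset.sum_congr rfl fun b _ => ?_
    have : pd k (D.g a b) = pdM k D.g a b := rfl
    rw [this, D.pdM_g, hess_apply, pd_comm b k, mul_comm]
  have hdD : ∀ l, ev x0 (pd l Dd) = 0 := by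
    intro l
    rw [hDd, ev_pd_quad D.g_symm ξ x0 B A hZD, hAs, hBt, ← hg0, Matrix.mulVec_mulVec,
      Matrix.smul_mul, Matrix.mul_assoc, hinv, Matrix.mul_one, Matrix.smul_mulVec]
    simp only [Pi.smul_apply, smul_eq_mul]; ring
  have hLD := ev_Lop_quad hτs D.g_symm ξ x0 B A hZD
  rw [← hDd, D.L_g_contr, ← hτ0, ← hg0, ← hA, hξ] at hLD
  have t1 : (τ0 * Bᵀ * A).trace = -1 / 2 * (τ0 * A * τ0 * A).trace := by
    rw [hBt]; simp [Matrix.mul_assoc]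
  have t2 : (τ0 * Bᵀ * g0 * B).trace = 1 / 4 * (τ0 * A * τ0 * A).trace := by
    rw [hBt, hB]
    simp only [Matrix.mul_smul, Matrix.smul_mul, Matrix.trace_smul, smul_eq_mul, Matrix.mul_assoc]
    rw [← Matrix.mul_assoc g0 τ0, hinv', Matrix.one_mul]; ring
  -- the cubic quantity
  have hZN : ∀ a k, (A * B + U) a k = ∑ b, ev x0 (pd k (G a b)) * ξ b := by
    intro a k
    simp only [Matrix.add_apply, Matrix.mul_apply, hAa, hUa, hGa, map_sum, pd_mul, pd_affV, map_add,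
      map_mul, ev_cst, ev_affV, Finset.sum_mul, add_mul, Finset.sum_add_distrib]
    congr 1
    · rw [Finset.sum_comm]
      refine Finset.sum_congr rfl fun b _ => Finset.sum_congr rfl fun c _ => ?_
      rw [pd_comm c b]; ring
    · refine Finset.sum_congr rfl fun b _ => Finset.sum_congr rfl fun c _ => ?_
      rw [pd_comm a k]; ring
  have hLN := ev_Lop_quad hτs hGs ξ x0 B (A * B + U) hZN
  have hLG : ∑ a, ∑ b, ev x0 (Lop D.τ (G a b)) * ξ a * ξ b =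
      ∑ a, ∑ b, ∑ c, ev x0 (Lop D.τ (pd a (pd b (pd c D.ζ)))) * ξ a * ξ b * ξ c
      - (B *ᵥ x0) ⬝ᵥ (A *ᵥ ξ) + 2 * (τ0 * Bᵀ * U).trace := by
    have e1 : (B *ᵥ x0) ⬝ᵥ (A *ᵥ ξ) =
        ∑ a, ∑ b, ∑ c, ev x0 (pd a (pd b (pd c D.ζ))) * (B *ᵥ x0) c * ξ a * ξ b := by
      simp only [dotProduct, Matrix.mulVec.eq_def A, hAa, Finset.mul_sum, Finset.sum_mul]
      rw [Finset.sum_comm]
      refine Finset.sum_congr rfl fun a _ => ?_
      rw [Finset.sum_comm]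
      refine Finset.sum_congr rfl fun b _ => Finset.sum_congr rfl fun c _ => ?_
      rw [pd_comm c a, pd_comm c b]; ring
    have e2 : (τ0 * Bᵀ * U).trace = ∑ a, ∑ b, ∑ c, (∑ k, ∑ l, τ0 k l * B c k *
        ev x0 (pd l (pd a (pd b (pd c D.ζ))))) * ξ a * ξ b := by
      have : (τ0 * Bᵀ * U).trace = ∑ c, ∑ k, ∑ l, τ0 k l * B c k * U c l := by
        simp only [Matrix.trace, Matrix.diag, Matrix.mul_apply, Matrix.transpose_apply,
          Finset.sum_mul]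
        rw [Finset.sum_comm]
        refine Finset.sum_congr rfl fun c _ => ?_
        rw [Finset.sum_comm]
        refine Finset.sum_congr rfl fun k _ => Finset.sum_congr rfl fun l _ => ?_
        rw [show τ0 l k = τ0 k l from congrFun (congrFun hτ0s k) l]
      rw [this]
      simp only [hUa, Finset.mul_sum, Finset.sum_mul]
      have swap : ∀ F : Fin n → Fin n → Fin n → Fin n → Fin n → ℝ,
          ∑ c, ∑ k, ∑ l, ∑ a, ∑ b, F c k l a b = ∑ a, ∑ b, ∑ c, ∑ k, ∑ l, F c k l a b := by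
        intro F
        simp only [← Finset.sum_product']
        refine Finset.sum_bij' (fun p _ => (p.2.2.2.1, p.2.2.2.2, p.1, p.2.1, p.2.2.1))
          (fun p _ => (p.2.2.1, p.2.2.2.1, p.2.2.2.2, p.1, p.2.1)) ?_ ?_ ?_ ?_ ?_ <;> simp
      rw [swap]
      refine Finset.sum_congr rfl fun a _ => Finset.sum_congr rfl fun b _ =>
        Finset.sum_congr rfl fun c _ => Finset.sum_congr rfl fun k _ =>
        Finset.sum_congr rfl fun l _ => ?_
      rw [pd_comm c l, pd_comm c a, pd_comm c b]; ring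
    rw [e1, e2]
    simp only [hGa, Lop_sum, Lop_mul hτs, map_sum, map_add, map_mul, ev_affV, ev_Lop_affV, ev_ofNat,
      gam, pd_affV, ev_cst, Finset.sum_mul, Finset.mul_sum, ← Finset.sum_add_distrib,
      ← Finset.sum_sub_distrib]
    refine Finset.sum_congr rfl fun a _ => Finset.sum_congr rfl fun b _ =>
      Finset.sum_congr rfl fun c _ => ?_
    simp only [← Finset.mul_sum, ← Finset.sum_mul, hτ0, evM_apply]
    ring
  rw [← hNn, hLG, D.L_third_contr, ← hτ0, ← hA, ← hU, hG0, hN, c1] at hLN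
  have t3 : (τ0 * Bᵀ * U).trace = -1 / 2 * (τ0 * A * τ0 * U).trace := by
    rw [hBt]; simp [Matrix.mul_assoc]
  have t4 : (τ0 * Bᵀ * A * B).trace = 1 / 4 * (τ0 * A * τ0 * A * τ0 * A).trace := by
    rw [hBt, hB]
    simp only [Matrix.mul_smul, Matrix.smul_mul, Matrix.trace_smul, smul_eq_mul, Matrix.mul_assoc]
    ring
  rw [Matrix.mul_add, Matrix.trace_add, ← Matrix.mul_assoc, t3, t4, dotProduct_smul,
    smul_eq_mul] at hLN
  rw [t1, t2] at hLD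
  have hgN : 0 ≤ ev x0 (gam D.τ Nn Nn) := by
    rw [ev_gam]; exact psd_quad (D.τ_posDef x0).posSemidef _
  have hg1 : ∀ f : Sm n, ev x0 (gam D.τ f Dd) = 0 := fun f => by simp [gam, hdD]
  have hH0 : 0 ≤ ξ ⬝ᵥ (evM x0 D.H *ᵥ ξ) := by simpa using hH x0 ξ
  simp only [Lop_sub, Lop_smul, Lop_mul hτs, map_sub, map_add, map_mul, map_smul, smul_eq_mul,
    ev_ofNat, evN0, evD0, hg1, hLN, hLD] at hΨ
  set P2 := (τ0 * A * τ0 * A).trace
  set P3 := (τ0 * A * τ0 * A * τ0 * A).trace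
  set w := T3 D.V x0 ξ
  set hh := ξ ⬝ᵥ (evM x0 D.H *ᵥ ξ)
  have hw := le_abs_self w
  have hM2 : 0 < M ^ 2 := by positivity
  have k1 : M * P3 ≤ M ^ 2 * P2 := by nlinarith
  have k2 : M ^ 2 * M ^ 2 ≤ M ^ 2 * P2 := mul_le_mul_of_nonneg_left c3 hM2.le
  have k3 : 0 ≤ M ^ 2 * hh := by positivity
  have k4 : M * M ^ 3 ≤ M * (4 * |w|) := by nlinarith
  exact le_of_mul_le_mul_left k4 hM

end Crest.Agent.R238
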