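import Crest.Agent.R238.Cut2

/-!
# Row 238: log-concavity of the partition function in the logarithms of the widths
-/

set_option autoImplicit false
open MeasureTheory Matrix Filter Topology
open scoped ContDiff BigOperators

noncomputable section
namespace Crest.Agent.R238

variable {n : ℕ}

variable {ι : Type} [Fintype ι]

/-- The vectors `e^{-(c_i + a_i t)} u_i`. -/
def ut (u : ι → E n) (c a : ι → ℝ) (t : ℝ) : ι → E n := fun i => Real.exp (-(c i + a i * t)) • u i

/-- The partition function. -/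
def Zf (ε : ℝ) (P : Pot) (u : ι → E n) (c a : ι → ℝ) (t : ℝ) : ℝ := I0 ε P (ut u c a t) 1

theorem conc_continuous_W0 (ε : ℝ) (P : Pot) (u : ι → E n) : Continuous (W0 ε P u) := by
  have := P.sm.continuous
  unfold W0; fun_prop

theorem conc_exp_W0_le (ε : ℝ) (P : Pot) (u : ι → E n) (x : E n) :
    Real.exp (-W0 ε P u x) ≤ Real.exp (-(ε / 2 * ∑ a, x a ^ 2)) := by
  apply Real.exp_le_exp.2
  have : 0 ≤ ∑ i, P.φ (u i ⬝ᵥ x) := Finset.sum_nonneg fun i _ => P.nonneg _
  unfold W0; linarith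

theorem conc_integrable {ε : ℝ} (hε : 0 < ε) (P : Pot) (u : ι → E n) {f : Sm n} (hf : Tm f) :
    Integrable (fun x => ev x f * Real.exp (-W0 ε P u x)) := by
  obtain ⟨C, s, hC, -, h⟩ := hf.abs_le
  have := conc_continuous_W0 ε P u
  refine integrable_of_le_gauss (C := C) (s := s) (c := ε / 2)
    ((ev_continuous f).mul (by fun_prop)) (by positivity) fun x => ?_
  rw [abs_mul, abs_of_pos (Real.exp_pos _)]
  exact mul_le_mul (h x) (conc_exp_W0_le ε P u x) (Real.exp_pos _).le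
    (mul_nonneg hC (r_rpow_pos x s).le)

theorem Zf_pos {ε : ℝ} (hε : 0 < ε) (P : Pot) (u : ι → E n) (c a : ι → ℝ) (t : ℝ) :
    0 < Zf ε P u c a t := by
  have hi := conc_integrable hε P (ut u c a t) tm_one
  unfold Zf I0
  simp only [map_one, one_mul] at hi ⊢
  exact integral_exp_pos hi

omit [Fintype ι] in
theorem ut_dot (u : ι → E n) (c a : ι → ℝ) (t : ℝ) (i : ι) (x : E n) :
    ut u c a t i ⬝ᵥ x = Real.exp (-(c i + a i * t)) * (u i ⬝ᵥ x) := by
  simp [ut]

omit [Fintype ι] in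
theorem ut_hasDerivAt (u : ι → E n) (c a : ι → ℝ) (t : ℝ) (i : ι) (x : E n) :
    HasDerivAt (fun t => ut u c a t i ⬝ᵥ x) (-(a i) * (ut u c a t i ⬝ᵥ x)) t := by
  simp only [ut_dot]
  have h1 : HasDerivAt (fun t => -(c i + a i * t)) (-(a i * 1)) t :=
    (((hasDerivAt_id t).const_mul (a i)).const_add (c i)).neg
  refine (h1.exp.mul_const (u i ⬝ᵥ x)).congr_deriv ?_
  ring

theorem ut_bound (u : ι → E n) (c a : ι → ℝ) (t0 : ℝ) :
    ∃ B, 0 ≤ B ∧ ∀ t ∈ Metric.ball t0 1, ∀ i x, |ut u c a t i ⬝ᵥ x| ≤ B * r x := by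
  refine ⟨∑ i, Real.exp (|c i| + |a i| * (|t0| + 1)) * ∑ k, |u i k|, by positivity,
    fun t ht i x => ?_⟩
  have h1 : |t| ≤ |t0| + 1 := by
    have := abs_sub_abs_le_abs_sub t t0
    rw [Metric.mem_ball, Real.dist_eq] at ht
    linarith
  have h2 : Real.exp (-(c i + a i * t)) ≤ Real.exp (|c i| + |a i| * (|t0| + 1)) := by
    apply Real.exp_le_exp.2
    have b1 := neg_abs_le (c i)
    have b2 := neg_abs_le (a i * t)
    rw [abs_mul] at b2
    have b3 := mul_le_mul_of_nonneg_left h1 (abs_nonneg (a i))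
    linarith
  have h3 : |u i ⬝ᵥ x| ≤ (∑ k, |u i k|) * r x := by
    rw [dotProduct, Finset.sum_mul]
    refine (Finset.abs_sum_le_sum_abs _ _).trans (Finset.sum_le_sum fun k _ => ?_)
    rw [abs_mul]
    exact mul_le_mul_of_nonneg_left (abs_le_r x k) (abs_nonneg _)
  rw [ut_dot, abs_mul, abs_of_pos (Real.exp_pos _)]
  refine (mul_le_mul h2 h3 (abs_nonneg _) (Real.exp_pos _).le).trans ?_
  rw [← mul_assoc]
  refine mul_le_mul_of_nonneg_right ?_ (r_pos x).le
  exact Finset.single_le_sum (f := fun i => Real.exp (|c i| + |a i| * (|t0| + 1)) * ∑ k, |u i k|)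
    (fun i _ => by positivity) (Finset.mem_univ i)

theorem G_bounds (P : Pot) (u : ι → E n) (c a : ι → ℝ) (t0 : ℝ) :
    ∃ C, 0 ≤ C ∧ ∀ t ∈ Metric.ball t0 1, ∀ x, |ev x (G0 P (ut u c a t) a)| ≤ C * r x ∧
      |ev x (G1 P (ut u c a t) a + G2 P (ut u c a t) a)| ≤ C * r x ^ 2 := by
  obtain ⟨B, hB, hb⟩ := ut_bound u c a t0
  obtain ⟨S1, hS1, h1⟩ := P.exists_deriv_le
  obtain ⟨S2, hS2, h2⟩ := P.exists_deriv2_le
  refine ⟨∑ i, |a i| * (B * S1) + ∑ i, a i ^ 2 * (B * S1 + B ^ 2 * S2), by positivity,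
    fun t ht x => ⟨?_, ?_⟩⟩
  · have : |ev x (G0 P (ut u c a t) a)| ≤ (∑ i, |a i| * (B * S1)) * r x := by
      simp only [G0, map_sum, map_smul, map_mul, ev_lin, Pot.ev_f1, smul_eq_mul, Finset.sum_mul]
      refine (Finset.abs_sum_le_sum_abs _ _).trans (Finset.sum_le_sum fun i _ => ?_)
      rw [abs_mul, abs_mul, mul_assoc]
      refine mul_le_mul_of_nonneg_left ?_ (abs_nonneg _)
      calc _ ≤ (B * r x) * S1 := mul_le_mul (hb t ht i x) (h1 _) (abs_nonneg _)
            (mul_nonneg hB (r_pos x).le)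
        _ = _ := by ring
    refine this.trans (mul_le_mul_of_nonneg_right ?_ (r_pos x).le)
    have : 0 ≤ ∑ i, a i ^ 2 * (B * S1 + B ^ 2 * S2) := by positivity
    linarith
  · have : |ev x (G1 P (ut u c a t) a + G2 P (ut u c a t) a)| ≤
        (∑ i, a i ^ 2 * (B * S1 + B ^ 2 * S2)) * r x ^ 2 := by
      simp only [G1, G2, map_add, map_sum, map_smul, map_mul, map_pow, ev_lin, Pot.ev_f1, Pot.ev_f2,
        smul_eq_mul, Finset.sum_mul, ← Finset.sum_add_distrib]
      refine (Finset.abs_sum_le_sum_abs _ _).trans (Finset.sum_le_sum fun i _ => ?_)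
      rw [← mul_add, abs_mul, abs_of_nonneg (sq_nonneg _), mul_assoc]
      refine mul_le_mul_of_nonneg_left ?_ (sq_nonneg _)
      have e1 := hb t ht i x
      have hr := one_le_r x
      set l := ut u c a t i ⬝ᵥ x
      have e2 : |l * deriv P.φ l| ≤ B * S1 * r x ^ 2 := by
        rw [abs_mul]
        calc _ ≤ (B * r x) * S1 := mul_le_mul e1 (h1 _) (abs_nonneg _) (by positivity)
          _ = B * S1 * r x := by ring
          _ ≤ _ := mul_le_mul_of_nonneg_left (by nlinarith) (by positivity)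
      have e3 : |l ^ 2 * deriv (deriv P.φ) l| ≤ B ^ 2 * S2 * r x ^ 2 := by
        rw [abs_mul, abs_of_nonneg (P.conv _), abs_pow]
        calc _ ≤ (B * r x) ^ 2 * S2 :=
              mul_le_mul (pow_le_pow_left₀ (abs_nonneg _) e1 2) (h2 _) (P.conv _) (by positivity)
          _ = _ := by ring
      refine (abs_add_le _ _).trans ?_
      linarith
    refine this.trans (mul_le_mul_of_nonneg_right ?_ (by positivity))
    have : 0 ≤ ∑ i, |a i| * (B * S1) := by positivity
    linarith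

theorem W0_hasDerivAt (ε : ℝ) (P : Pot) (u : ι → E n) (c a : ι → ℝ) (t : ℝ) (x : E n) :
    HasDerivAt (fun t => Real.exp (-W0 ε P (ut u c a t) x))
      (Real.exp (-W0 ε P (ut u c a t) x) * ev x (G0 P (ut u c a t) a)) t := by
  have h1 : ∀ i, HasDerivAt (fun t => P.φ (ut u c a t i ⬝ᵥ x))
      (deriv P.φ (ut u c a t i ⬝ᵥ x) * (-(a i) * (ut u c a t i ⬝ᵥ x))) t := fun i =>
    ((P.sm.differentiable (by simp)) _).hasDerivAt.comp t (ut_hasDerivAt u c a t i x)
  have h2 := ((HasDerivAt.fun_sum (u := Finset.univ) fun i _ => h1 i).const_add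
    (ε / 2 * ∑ a, x a ^ 2)).neg.exp
  refine HasDerivAt.congr_deriv h2 ?_
  simp only [W0, G0, map_sum, map_smul, map_mul, ev_lin, Pot.ev_f1, smul_eq_mul, Pi.neg_apply,
    ← Finset.sum_neg_distrib]
  congr 1
  exact Finset.sum_congr rfl fun i _ => by ring

theorem G0_hasDerivAt (P : Pot) (u : ι → E n) (c a : ι → ℝ) (t : ℝ) (x : E n) :
    HasDerivAt (fun t => ev x (G0 P (ut u c a t) a))
      (-ev x (G1 P (ut u c a t) a + G2 P (ut u c a t) a)) t := by
  have h1 : ∀ i, HasDerivAt (fun t => deriv P.φ (ut u c a t i ⬝ᵥ x))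
      (deriv (deriv P.φ) (ut u c a t i ⬝ᵥ x) * (-(a i) * (ut u c a t i ⬝ᵥ x))) t := fun i =>
    (((contDiff_deriv P.sm).differentiable (by simp)) _).hasDerivAt.comp t
      (ut_hasDerivAt u c a t i x)
  have h2 := HasDerivAt.fun_sum (u := Finset.univ) fun i _ =>
    ((ut_hasDerivAt u c a t i x).fun_mul (h1 i)).const_mul (a i)
  simp only [G0, G1, G2, map_add, map_sum, map_smul, map_mul, map_pow, ev_lin, Pot.ev_f1, Pot.ev_f2,
    smul_eq_mul]
  refine HasDerivAt.congr_deriv h2 ?_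
  rw [← Finset.sum_add_distrib, ← Finset.sum_neg_distrib]
  exact Finset.sum_congr rfl fun i _ => by ring

theorem I0_hasDerivAt {ε : ℝ} (hε : 0 < ε) (P : Pot) (u : ι → E n) (c a : ι → ℝ) (t0 : ℝ)
    (f f' : ℝ → Sm n) (hf : Tm (f t0)) (hd : ∀ x t, HasDerivAt (fun t => ev x (f t)) (ev x (f' t)) t)
    {C : ℝ} (hb : ∀ t ∈ Metric.ball t0 1, ∀ x, |ev x (f t)| ≤ C * r x ∧ |ev x (f' t)| ≤ C * r x ^ 2) :
    HasDerivAt (fun t => I0 ε P (ut u c a t) (f t))
      (I0 ε P (ut u c a t0) (f' t0 + f t0 * G0 P (ut u c a t0) a)) t0 := by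
  obtain ⟨C', hC', hG⟩ := G_bounds P u c a t0
  have hcont : ∀ (g : Sm n) (t : ℝ), Continuous fun x => ev x g * Real.exp (-W0 ε P (ut u c a t) x) :=
    fun g t => by
      have := conc_continuous_W0 ε P (ut u c a t)
      exact (ev_continuous g).mul (by fun_prop)
  have hC : 0 ≤ C := by
    have := (abs_nonneg _).trans (hb t0 (Metric.mem_ball_self one_pos) 0).1
    rwa [r_zero, mul_one] at this
  refine (hasDerivAt_integral_of_dominated_loc_of_deriv_le (μ := volume)
    (F := fun t x => ev x (f t) * Real.exp (-W0 ε P (ut u c a t) x))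
    (F' := fun t x => ev x (f' t + f t * G0 P (ut u c a t) a) * Real.exp (-W0 ε P (ut u c a t) x))
    (bound := fun x => (C + C * C') * r x ^ (2 : ℝ) * Real.exp (-(ε / 2 * ∑ a, x a ^ 2)))
    (Metric.ball_mem_nhds t0 one_pos)
    (Eventually.of_forall fun t => (hcont _ t).aestronglyMeasurable)
    (conc_integrable hε P _ hf) (hcont _ t0).aestronglyMeasurable
    (Eventually.of_forall fun x t ht => ?_) ?_ (Eventually.of_forall fun x t _ => ?_)).2
  · rw [Real.norm_eq_abs, abs_mul, abs_of_pos (Real.exp_pos _)]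
    refine mul_le_mul ?_ (conc_exp_W0_le ε P _ x) (Real.exp_pos _).le
      (mul_nonneg (by positivity) (r_rpow_pos x _).le)
    rw [map_add, map_mul, Real.rpow_two]
    refine (abs_add_le _ _).trans ?_
    rw [abs_mul]
    have e := mul_le_mul (hb t ht x).1 (hG t ht x).1 (abs_nonneg _) (mul_nonneg hC (r_pos x).le)
    have := (hb t ht x).2
    nlinarith
  · refine integrable_of_le_gauss (C := C + C * C') (s := 2) (c := ε / 2)
      ((continuous_const.mul (continuous_r_rpow 2)).mul (by fun_prop)) (by positivity) fun x => ?_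
    rw [abs_of_nonneg (mul_nonneg (mul_nonneg (by positivity) (r_rpow_pos x _).le)
      (Real.exp_pos _).le)]
  · refine HasDerivAt.congr_deriv ((hd x t).fun_mul (W0_hasDerivAt ε P u c a t x)) ?_
    simp only [map_add, map_mul]; ring

/-- Differentiation under the integral (`hasDerivAt_integral_of_dominated_loc_of_deriv_le`):
`d/dt ℓ_i = -a_i ℓ_i`, so `d/dt (-W0) = G0`; dominated by `C r e^{-ε|x|²/2}` for `t` in a bounded set. -/
theorem Zf_hasDerivAt {ε : ℝ} (hε : 0 < ε) (P : Pot) (u : ι → E n) (c a : ι → ℝ) (t : ℝ) :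
    HasDerivAt (Zf ε P u c a) (I0 ε P (ut u c a t) (G0 P (ut u c a t) a)) t := by
  have := I0_hasDerivAt hε P u c a t (fun _ => 1) (fun _ => 0) tm_one
    (fun x t => by simpa using hasDerivAt_const t (1 : ℝ)) (C := 1)
    (fun t _ x => ⟨by simpa using one_le_r x, by simp; positivity⟩)
  rw [zero_add, one_mul] at this
  exact this

/-- `d/dt G0 = -(G1 + G2)`. -/
theorem Zf_hasDerivAt2 {ε : ℝ} (hε : 0 < ε) (P : Pot) (u : ι → E n) (c a : ι → ℝ) (t : ℝ) :
    HasDerivAt (fun t => I0 ε P (ut u c a t) (G0 P (ut u c a t) a))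
      (I0 ε P (ut u c a t) (G0 P (ut u c a t) a ^ 2)
        - I0 ε P (ut u c a t) (G1 P (ut u c a t) a + G2 P (ut u c a t) a)) t := by
  obtain ⟨C, -, hG⟩ := G_bounds P u c a t
  have := I0_hasDerivAt hε P u c a t (fun t => G0 P (ut u c a t) a)
    (fun t => -(G1 P (ut u c a t) a + G2 P (ut u c a t) a)) (tm_G0 _ _ _)
    (fun x t => by rw [map_neg]; exact G0_hasDerivAt P u c a t x) (C := C)
    (fun t ht x => ⟨(hG t ht x).1, by rw [map_neg, abs_neg]; exact (hG t ht x).2⟩)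
  refine HasDerivAt.congr_deriv this ?_
  unfold I0
  rw [← integral_sub (conc_integrable hε P _ ((tm_G0 _ _ _).pow 2))
    (conc_integrable hε P _ ((tm_G1 _ _ _).add (tm_G2 _ _ _)))]
  congr 1; funext x
  simp only [map_add, map_mul, map_neg, map_pow]; ring

/-- `(log Z)'' = (Z Z'' - Z'²)/Z² ≤ 0` by `var_pot`; `concaveOn_of_deriv2_nonpos` (or antitone derivative). -/
theorem Zf_logconcave {ε : ℝ} (hε : 0 < ε) (P : Pot) (u : ι → E n) (c a : ι → ℝ) {t : ℝ}
    (h0 : 0 ≤ t) (h1 : t ≤ 1) :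
    Zf ε P u c a 0 ^ (1 - t) * Zf ε P u c a 1 ^ t ≤ Zf ε P u c a t := by
  have hp := Zf_pos hε P u c a
  have d1 : ∀ s, HasDerivAt (fun s => Real.log (Zf ε P u c a s))
      (I0 ε P (ut u c a s) (G0 P (ut u c a s) a) / Zf ε P u c a s) s := fun s =>
    (Zf_hasDerivAt hε P u c a s).log (hp s).ne'
  have d2 := fun s => (Zf_hasDerivAt2 hε P u c a s).fun_div (Zf_hasDerivAt hε P u c a s) (hp s).ne'
  have e1 : deriv (fun s => Real.log (Zf ε P u c a s)) =
      fun s => I0 ε P (ut u c a s) (G0 P (ut u c a s) a) / Zf ε P u c a s :=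
    funext fun s => (d1 s).deriv
  have hconc : ConcaveOn ℝ Set.univ (fun s => Real.log (Zf ε P u c a s)) := by
    refine concaveOn_univ_of_deriv2_nonpos (fun s => (d1 s).differentiableAt) ?_ fun s => ?_
    · rw [e1]; exact fun s => (d2 s).differentiableAt
    · simp only [Function.iterate_succ, Function.iterate_zero, Function.id_comp, Function.comp_apply]
      rw [e1, (d2 s).deriv]
      refine div_nonpos_of_nonpos_of_nonneg ?_ (sq_nonneg _)
      have := var_pot hε P (ut u c a s) a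
      unfold Zf
      nlinarith
  have h := hconc.2 (Set.mem_univ 0) (Set.mem_univ 1) (by linarith : 0 ≤ 1 - t) h0 (by ring)
  simp only [smul_eq_mul, mul_zero, mul_one, zero_add] at h
  rw [← Real.exp_log (hp t)]
  refine le_trans (le_of_eq ?_) (Real.exp_le_exp.2 h)
  rw [Real.exp_add, Real.rpow_def_of_pos (hp 0), Real.rpow_def_of_pos (hp 1), mul_comm (1 - t),
    mul_comm t]

/-- The symmetric polyhedron `{|u_i · x| ≤ h_i}`. -/
def slab (u : ι → E n) (h : ι → ℝ) : Set (E n) := {x | ∀ i, |u i ⬝ᵥ x| ≤ h i}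

/-- Gaussian-weighted volume. -/
def gvol (ε : ℝ) (A : Set (E n)) : ℝ := ∫ x in A, Real.exp (-(ε / 2 * ∑ a, x a ^ 2))

/-- `P` from `exists_pot`, `c_i = log (h0 i)`, `a_i = log (h1 i) - log (h0 i)`, so that
`exp (c_i + a_i t) = h0 i ^ (1-t) * h1 i ^ t`; for `P.scale k`, `k → ∞`,
`Zf → gvol ε (slab …)` by dominated convergence (the integrand tends to the indicator everywhere). -/
theorem slab_logconcave {ε : ℝ} (hε : 0 < ε) (u : ι → E n) (h0 h1 : ι → ℝ) (p0 : ∀ i, 0 < h0 i)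
    (p1 : ∀ i, 0 < h1 i) {t : ℝ} (t0 : 0 ≤ t) (t1 : t ≤ 1) :
    gvol ε (slab u h0) ^ (1 - t) * gvol ε (slab u h1) ^ t ≤
      gvol ε (slab u fun i => h0 i ^ (1 - t) * h1 i ^ t) := by
  obtain ⟨P, hP0, hP1⟩ := exists_pot
  set c : ι → ℝ := fun i => Real.log (h0 i) with hc
  set a : ι → ℝ := fun i => Real.log (h1 i) - Real.log (h0 i) with ha
  have hlim : ∀ s : ℝ, Tendsto (fun k : ℕ => Zf ε (P.scale k (Nat.cast_nonneg k)) u c a s) atTop
      (𝓝 (gvol ε (slab u fun i => h0 i ^ (1 - s) * h1 i ^ s))) := by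
    intro s
    have hexp : ∀ i, Real.exp (c i + a i * s) = h0 i ^ (1 - s) * h1 i ^ s := fun i => by
      rw [Real.rpow_def_of_pos (p0 i), Real.rpow_def_of_pos (p1 i), ← Real.exp_add]
      congr 1; simp only [hc, ha]; ring
    have hmem : ∀ i x, |ut u c a s i ⬝ᵥ x| ≤ 1 ↔ |u i ⬝ᵥ x| ≤ h0 i ^ (1 - s) * h1 i ^ s := by
      intro i x
      rw [ut_dot, abs_mul, abs_of_pos (Real.exp_pos _), ← hexp, Real.exp_neg,
        inv_mul_le_iff₀ (Real.exp_pos _), mul_one]
    have hmeas : MeasurableSet (slab u fun i => h0 i ^ (1 - s) * h1 i ^ s) := by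
      have : (slab u fun i => h0 i ^ (1 - s) * h1 i ^ s) =
          ⋂ i, {x | |u i ⬝ᵥ x| ≤ h0 i ^ (1 - s) * h1 i ^ s} := by ext x; simp [slab]
      rw [this]
      exact (isClosed_iInter fun i => isClosed_le (by fun_prop) continuous_const).measurableSet
    rw [gvol, ← integral_indicator hmeas]
    unfold Zf I0
    refine tendsto_integral_of_dominated_convergence
      (fun x => Real.exp (-(ε / 2 * ∑ a, x a ^ 2))) (fun k => ?_) ?_ (fun k => ?_) ?_
    · exact (conc_integrable hε _ _ tm_one).aestronglyMeasurable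
    · refine integrable_of_le_gauss (C := 1) (s := 0) (c := ε / 2) (by fun_prop) (by positivity) ?_
      intro x; simp
    · refine Eventually.of_forall fun x => ?_
      rw [map_one, one_mul, Real.norm_eq_abs, abs_of_pos (Real.exp_pos _)]
      exact conc_exp_W0_le _ _ _ _
    · refine Eventually.of_forall fun x => ?_
      have e : ∀ k : ℕ, ev x (1 : Sm n) *
          Real.exp (-W0 ε (P.scale k (Nat.cast_nonneg k)) (ut u c a s) x) =
          Real.exp (-(ε / 2 * ∑ a, x a ^ 2)) *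
            Real.exp (-(k * ∑ i, P.φ (ut u c a s i ⬝ᵥ x))) := fun k => by
        rw [map_one, one_mul, ← Real.exp_add]
        simp only [W0, Pot.scale, Finset.mul_sum]
        congr 1; ring
      simp only [e]
      by_cases hx : x ∈ slab u fun i => h0 i ^ (1 - s) * h1 i ^ s
      · have : ∑ i, P.φ (ut u c a s i ⬝ᵥ x) = 0 :=
          Finset.sum_eq_zero fun i _ => hP0 _ ((hmem i x).2 (hx i))
        simp [this, Set.indicator_of_mem hx]
      · rw [Set.indicator_of_notMem hx]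
        obtain ⟨i, hi⟩ : ∃ i, ¬ |u i ⬝ᵥ x| ≤ h0 i ^ (1 - s) * h1 i ^ s := by
          by_contra h; push Not at h; exact hx h
        have hpos : 0 < ∑ i, P.φ (ut u c a s i ⬝ᵥ x) :=
          lt_of_lt_of_le (hP1 _ (not_le.1 fun h => hi ((hmem i x).1 h)))
            (Finset.single_le_sum (f := fun i => P.φ (ut u c a s i ⬝ᵥ x))
              (fun i _ => P.nonneg _) (Finset.mem_univ i))
        have : Tendsto (fun k : ℕ => Real.exp (-(k * ∑ i, P.φ (ut u c a s i ⬝ᵥ x)))) atTop (𝓝 0) :=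
          Real.tendsto_exp_neg_atTop_nhds_zero.comp
            (tendsto_natCast_atTop_atTop.atTop_mul_const hpos)
        simpa using this.const_mul (Real.exp (-(ε / 2 * ∑ a, x a ^ 2)))
  have l0 := hlim 0
  have l1 := hlim 1
  simp only [sub_zero, Real.rpow_one, Real.rpow_zero, mul_one, sub_self, one_mul] at l0 l1
  have l2 := (l0.rpow_const (Or.inr (by linarith : 0 ≤ 1 - t))).mul (l1.rpow_const (Or.inr t0))
  exact le_of_tendsto_of_tendsto' l2 (hlim t) fun k => Zf_logconcave hε _ u c a t0 t1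

end Crest.Agent.R238
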