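import Crest.Agent.R238.Pot
import Crest.Agent.R238.Cutoff
import Crest.Agent.R238.Alg

/-!
# Row 238: replacing `ε|x|²/2 + ∑ φ(ℓ_i)` by a potential that is Gaussian near infinity
-/

set_option autoImplicit false
open MeasureTheory Matrix
open scoped ContDiff BigOperators

noncomputable section
namespace Crest.Agent.R238

variable {n : ℕ}

variable {ι : Type} [Fintype ι]

/-- The target potential. -/
def W0 (ε : ℝ) (P : Pot) (u : ι → E n) (x : E n) : ℝ :=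
  ε / 2 * ∑ a, x a ^ 2 + ∑ i, P.φ (u i ⬝ᵥ x)

theorem cut1_quad {A : RM n} {α β : ℝ} {x : E n}
    (h : ∀ a b, A a b = α * (x a * x b) + if a = b then β else 0) (v : E n) :
    v ⬝ᵥ (A *ᵥ v) = α * (x ⬝ᵥ v) ^ 2 + β * (v ⬝ᵥ v) := by
  have e : A = α • vecMulVec x x + β • (1 : RM n) := by
    ext a b
    rw [h]
    by_cases hab : a = b <;> simp [vecMulVec_apply, Matrix.one_apply, hab]
  rw [e, add_mulVec, smul_mulVec, smul_mulVec, one_mulVec, vecMulVec_mulVec, dotProduct_add,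
    dotProduct_smul, dotProduct_smul, op_smul_eq_smul, dotProduct_smul, dotProduct_comm v x]
  simp only [smul_eq_mul]
  ring

theorem cut1_nsq (x v : E n) : v ⬝ᵥ (evM x (hess nsq) *ᵥ v) = 2 * (v ⬝ᵥ v) := by
  rw [cut1_quad (α := 0) (β := 2) (x := x), zero_mul, zero_add]
  intro a b
  rw [evM_apply, hess_apply, pd_nsq, two_mul, map_add, pd_X]
  split_ifs <;> simp
  norm_num

theorem cut1_k {κ : ℝ → ℝ} (hκ : ContDiff ℝ ∞ κ) (c : ℝ) (x v : E n) :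
    v ⬝ᵥ (evM x (hess (cmp κ hκ (c • nsq))) *ᵥ v) =
      deriv (deriv κ) (c * ∑ a, x a ^ 2) * (2 * c) ^ 2 * (x ⬝ᵥ v) ^ 2 +
        deriv κ (c * ∑ a, x a ^ 2) * (2 * c) * (v ⬝ᵥ v) := by
  refine cut1_quad (fun a b => ?_) v
  have h1 : ∀ a : Fin n, pd a (c • nsq : Sm n) = (2 * c) • X a := fun a => by
    rw [Derivation.map_smul, pd_nsq]
    ext y
    simp
    ring
  rw [evM_apply, hess_apply, pd_cmp, pd_mul, pd_cmp, h1, h1, Derivation.map_smul, pd_X]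
  split_ifs <;> simp <;> ring

theorem cut1_err (χ Φ : Sm n) (x v : E n) :
    |v ⬝ᵥ (evM x (hess (χ * Φ)) *ᵥ v) - ev x χ * (v ⬝ᵥ (evM x (hess Φ) *ᵥ v))| ≤
      (d 2 χ x * |ev x Φ| + 2 * (d 1 χ x * d 1 Φ x)) * (v ⬝ᵥ v) := by
  have h := abs_quad_le_sum (evM x (hess (χ * Φ)) - ev x χ • evM x (hess Φ)) v
  rw [sub_mulVec, smul_mulVec, dotProduct_sub, dotProduct_smul, smul_eq_mul] at h
  refine h.trans (mul_le_mul_of_nonneg_right ?_ (dot_self_nonneg v))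
  calc _ ≤ ∑ a, ∑ b, (|ev x (pd b (pd a χ))| * |ev x Φ| + |ev x (pd b χ)| * |ev x (pd a Φ)| +
          |ev x (pd a χ)| * |ev x (pd b Φ)|) := by
        refine Finset.sum_le_sum fun a _ => Finset.sum_le_sum fun b _ => ?_
        have e : (evM x (hess (χ * Φ)) - ev x χ • evM x (hess Φ)) a b =
            ev x (pd b (pd a χ)) * ev x Φ + ev x (pd b χ) * ev x (pd a Φ) +
              ev x (pd a χ) * ev x (pd b Φ) := by
          simp only [Matrix.sub_apply, Matrix.smul_apply, evM_apply, hess_apply, pd_mul, map_add,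
            map_mul, smul_eq_mul, pd_comm b a χ]
          ring
        rw [e, ← abs_mul, ← abs_mul, ← abs_mul]
        exact abs_add_three _ _ _
    _ = _ := by
        simp only [d, Finset.sum_add_distrib, ← Finset.sum_mul, ← Finset.mul_sum]
        ring

theorem cut1_Phi (P : Pot) (u : ι → E n) : ∃ A B : ℝ, 0 ≤ A ∧ 0 ≤ B ∧
    (∀ R : ℝ, 1 ≤ R → ∀ x : E n, ∑ a, x a ^ 2 ≤ 2 * R ^ 2 → |ev x (∑ i, P.f0 (u i))| ≤ A * R) ∧
    ∀ x, d 1 (∑ i, P.f0 (u i)) x ≤ B := by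
  obtain ⟨S0, hS0, h0⟩ := P.exists_le_linear
  obtain ⟨S1, hS1, h1⟩ := P.exists_deriv_le
  refine ⟨∑ i, S0 * (1 + 2 * ∑ a, |u i a|), ∑ i, ∑ a, |u i a| * S1, by positivity, by positivity,
    fun R hR x hx => ?_, fun x => ?_⟩
  · rw [map_sum, Finset.sum_mul]
    refine (Finset.abs_sum_le_sum_abs _ _).trans (Finset.sum_le_sum fun i _ => ?_)
    rw [Pot.ev_f0, abs_of_nonneg (P.nonneg _), mul_assoc]
    refine (h0 _).trans (mul_le_mul_of_nonneg_left ?_ hS0)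
    have h2 : |u i ⬝ᵥ x| ≤ (∑ a, |u i a|) * (2 * R) := by
      rw [Finset.sum_mul]
      refine (Finset.abs_sum_le_sum_abs _ _).trans (Finset.sum_le_sum fun a _ => ?_)
      rw [abs_mul]
      refine mul_le_mul_of_nonneg_left ?_ (abs_nonneg _)
      have h3 : x a ^ 2 ≤ ∑ b, x b ^ 2 :=
        Finset.single_le_sum (f := fun b => x b ^ 2) (fun b _ => sq_nonneg _) (Finset.mem_univ a)
      exact abs_le_of_sq_le_sq (by nlinarith) (by linarith)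
    linarith
  · refine (d_sum_le 1 _ _ x).trans (Finset.sum_le_sum fun i _ => ?_)
    rw [d_succ]
    refine Finset.sum_le_sum fun a _ => ?_
    rw [d_zero_eq, P.pd_f0, ev_smul, abs_mul, Pot.ev_f1]
    exact mul_le_mul_of_nonneg_left (h1 _) (abs_nonneg _)

/-- With `Φ = ∑ f0 (u i)`, `κ, c` from `exists_kappa`, `k = cmp κ _ ((R²)⁻¹ • nsq)`:
`V = cut R * Φ + ((1-ε) R²/2) • k - ((1-ε)/2) • nsq`, so `Wp V = ε|x|²/2 + cut R Φ + (1-ε) R² k / 2`;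
`V` is constant for `|x|² ≥ 2R²` (`sym_of_eventually_const`).
`1 + hess V = ε + hess (cut R * Φ) + (1-ε)(κ' + 2 κ'' x xᵀ / R²)`. For `|x|² < R²` one has
`hess (cut R * Φ) = HP` at `x` (`d_cut_eq_zero`, `cut_eq_one`); for `|x|² ≥ R²`, `κ' = 1` and
`hess (cut R * Φ) = cut R • HP + O(1/R)` (`d_cut_le`, `|∇Φ| ≤ C`, `|Φ| ≤ C R` where `|x|² ≤ 2R²`), while
`HP ≤ S ∑ |u_i|² ≤ 1/2 - ε` (`quad_HP`, Cauchy–Schwarz). -/
theorem exists_V {ε S : ℝ} (hε : 0 < ε) (P : Pot) (u : ι → E n)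
    (hS : ∀ t, deriv (deriv P.φ) t ≤ S) (hsmall : ε + S * ∑ i, u i ⬝ᵥ u i ≤ 1 / 2) :
    ∃ R0 : ℝ, ∀ R, R0 ≤ R → ∃ V : Sm n, Sym 0 V ∧ IsEv V ∧ Low ε (1 + hess V - HP P u) ∧
      (∀ x, ∑ a, x a ^ 2 ≤ R ^ 2 / 4 → ev x (Wp V) = W0 ε P u x) ∧
      ∀ x, ε / 2 * ∑ a, x a ^ 2 ≤ ev x (Wp V) := by
  obtain ⟨κ, c, hκ, k0, k1, k2, k3, k4, k5⟩ := exists_kappa
  obtain ⟨C, hC, hcut⟩ := d_cut_le n
  obtain ⟨A, B, hA, hB, hΦ0, hΦ1⟩ := cut1_Phi P u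
  have hS0 : 0 ≤ S := (P.conv 0).trans (hS 0)
  have hε1 : ε ≤ 1 / 2 := by
    have : 0 ≤ S * ∑ i, u i ⬝ᵥ u i :=
      mul_nonneg hS0 (Finset.sum_nonneg fun i _ => dot_self_nonneg _)
    linarith
  refine ⟨max 1 (2 * (C * A + 2 * (C * B))), fun R hR => ?_⟩
  have hR1 : 1 ≤ R := (le_max_left _ _).trans hR
  have hR2 : 2 * (C * A + 2 * (C * B)) ≤ R := (le_max_right _ _).trans hR
  have hR0 : 0 < R := by linarith
  have hRR : 0 < R ^ 2 := by positivity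
  have hV : ∀ x : E n, ev x (cut R * ∑ i, P.f0 (u i) +
      ((1 - ε) * R ^ 2 / 2) • cmp κ hκ ((R ^ 2)⁻¹ • nsq) - ((1 - ε) / 2) • nsq) =
      ev x (cut R) * ∑ i, P.φ (u i ⬝ᵥ x) + (1 - ε) * R ^ 2 / 2 * κ ((R ^ 2)⁻¹ * ∑ a, x a ^ 2) -
        (1 - ε) / 2 * ∑ a, x a ^ 2 := fun x => by
    simp only [map_sub, map_add, map_mul, map_sum, ev_smul, ev_cmp, ev_nsq, Pot.ev_f0]
  refine ⟨cut R * ∑ i, P.f0 (u i) + ((1 - ε) * R ^ 2 / 2) • cmp κ hκ ((R ^ 2)⁻¹ • nsq) -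
    ((1 - ε) / 2) • nsq, ?_, ?_, fun x v => ?_, fun x hx => ?_, fun x => ?_⟩
  · refine sym_of_eventually_const (R := 2 * R) (c := -((1 - ε) * R ^ 2 / 2 * c)) fun x hx => ?_
    have h1 : (2 * R) ^ 2 ≤ r x ^ 2 := pow_le_pow_left₀ (by linarith) hx 2
    rw [r_sq] at h1
    have h2 : 2 * R ^ 2 ≤ ∑ a, x a ^ 2 := by nlinarith
    rw [hV, cut_eq_zero hR0 h2, k5 _ (by rw [le_inv_mul_iff₀ hRR]; linarith)]
    field_simp
    ring
  · refine (isEv_iff _).2 fun x => ?_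
    rw [hV, hV, (isEv_iff _).1 (isEv_cut R) x]
    simp only [dotProduct_neg, P.even, Pi.neg_apply, even_two.neg_pow]
  · have hv := dot_self_nonneg v
    have e1 := cut1_err (cut R) (∑ i, P.f0 (u i)) x v
    rw [hess_sum_f0] at e1
    have e2 : 0 ≤ v ⬝ᵥ (evM x (HP P u) *ᵥ v) := by
      rw [quad_HP]
      exact Finset.sum_nonneg fun i _ => mul_nonneg (P.conv _) (sq_nonneg _)
    have e3 : v ⬝ᵥ (evM x (HP P u) *ᵥ v) ≤ (1 / 2 - ε) * (v ⬝ᵥ v) := by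
      rw [quad_HP]
      calc _ ≤ ∑ i, S * ((u i ⬝ᵥ u i) * (v ⬝ᵥ v)) := Finset.sum_le_sum fun i _ =>
            mul_le_mul (hS _) (alg_cs _ _) (sq_nonneg _) hS0
        _ = (S * ∑ i, u i ⬝ᵥ u i) * (v ⬝ᵥ v) := by
            rw [← Finset.mul_sum, ← Finset.sum_mul, mul_assoc]
        _ ≤ _ := mul_le_mul_of_nonneg_right (by linarith) hv
    rw [hess_sub, hess_add, hess_smul, hess_smul]
    simp only [evM_sub, evM_add, evM_smul, evM_one, sub_mulVec, add_mulVec, smul_mulVec, one_mulVec,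
      dotProduct_sub, dotProduct_add, dotProduct_smul, smul_eq_mul, cut1_nsq, cut1_k]
    have e4 : 0 ≤ (1 - ε) * R ^ 2 / 2 * (deriv (deriv κ) ((R ^ 2)⁻¹ * ∑ a, x a ^ 2) *
        (2 * (R ^ 2)⁻¹) ^ 2 * (x ⬝ᵥ v) ^ 2) :=
      mul_nonneg (by have : 0 ≤ 1 - ε := by linarith
                     positivity) (mul_nonneg (mul_nonneg (k2 _) (sq_nonneg _)) (sq_nonneg _))
    have e5 : (1 - ε) * R ^ 2 / 2 * (deriv κ ((R ^ 2)⁻¹ * ∑ a, x a ^ 2) * (2 * (R ^ 2)⁻¹) * (v ⬝ᵥ v)) =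
        (1 - ε) * (deriv κ ((R ^ 2)⁻¹ * ∑ a, x a ^ 2) * (v ⬝ᵥ v)) := by field_simp
    rw [mul_add, e5]
    replace e1 := (abs_le.1 e1).1
    rcases lt_or_ge (∑ a, x a ^ 2) (R ^ 2) with h | h
    · rw [d_cut_eq_zero hR0 0 (Or.inl h), d_cut_eq_zero hR0 1 (Or.inl h), cut_eq_one hR0 h.le] at e1
      have e6 : 0 ≤ (1 - ε) * (deriv κ ((R ^ 2)⁻¹ * ∑ a, x a ^ 2) * (v ⬝ᵥ v)) :=
        mul_nonneg (by linarith) (mul_nonneg (k1 _) hv)
      linarith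
    · rw [k4 _ (by rw [le_inv_mul_iff₀ hRR]; linarith)]
      have e6 : d 2 (cut R) x * |ev x (∑ i, P.f0 (u i))| +
          2 * (d 1 (cut R) x * d 1 (∑ i, P.f0 (u i)) x) ≤ 1 / 2 := by
        rcases le_or_gt (∑ a, x a ^ 2) (2 * R ^ 2) with h' | h'
        · have a1 : d 2 (cut R) x * |ev x (∑ i, P.f0 (u i))| ≤ C / R ^ 2 * (A * R) :=
            mul_le_mul (hcut R hR0 x).2 (hΦ0 R hR1 x h') (abs_nonneg _) (by positivity)
          have a2 : d 1 (cut R) x * d 1 (∑ i, P.f0 (u i)) x ≤ C / R * B :=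
            mul_le_mul (hcut R hR0 x).1 (hΦ1 x) (d_nonneg _ _ _) (by positivity)
          have a3 : C / R ^ 2 * (A * R) + 2 * (C / R * B) = (C * A + 2 * (C * B)) / R := by
            field_simp
          have a4 : (C * A + 2 * (C * B)) / R ≤ 1 / 2 := by
            rw [div_le_iff₀ hR0]; linarith
          linarith
        · rw [d_cut_eq_zero hR0 0 (Or.inr h'), d_cut_eq_zero hR0 1 (Or.inr h')]
          norm_num
      have e7 := mul_le_mul_of_nonneg_right e6 hv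
      have e8 := mul_nonneg (cut_nonneg R x) e2
      linarith
  · rw [ev_Wp, hV, cut_eq_one hR0 (by linarith), k3 _ (by rw [inv_mul_le_iff₀ hRR]; linarith), W0]
    ring
  · rw [ev_Wp, hV]
    have h1 : 0 ≤ ev x (cut R) * ∑ i, P.φ (u i ⬝ᵥ x) :=
      mul_nonneg (cut_nonneg R x) (Finset.sum_nonneg fun i _ => P.nonneg _)
    have h2 : 0 ≤ (1 - ε) * R ^ 2 / 2 * κ ((R ^ 2)⁻¹ * ∑ a, x a ^ 2) :=
      mul_nonneg (by have : 0 ≤ 1 - ε := by linarith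
                     positivity) (k0 _)
    linarith

end Crest.Agent.R238
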