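import Crest.Agent.R238.Poinc
import Crest.Agent.R238.KEid

/-!
# Row 238: `L + 1` is injective on even functions, quantitatively
-/

set_option autoImplicit false
open MeasureTheory Matrix
open scoped ContDiff BigOperators

noncomputable section
namespace Crest.Agent.R238

variable {n : ℕ}

theorem KE.gap_alg (D : KE n) (ψ : Sm n) :
    ∑ a, gam D.τ (∑ b, D.τ a b * pd b ψ) (pd a ψ) = (D.τ * hess ψ * D.τ * hess ψ).trace +
      ∑ a, (∑ b, D.τ a b * pd b ψ) * con (pdM a D.τ) ψ := by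
  have e0 : ∑ a, gam D.τ (∑ b, D.τ a b * pd b ψ) (pd a ψ) =
      ∑ a, ∑ j, ∑ i, ∑ b, D.τ a b * pd b (pd i ψ) * D.τ i j * pd j (pd a ψ) +
      ∑ a, ∑ j, ∑ b, (∑ i, D.τ j i * pd i (D.τ a b)) * pd b ψ * pd j (pd a ψ) := by
    rw [← Finset.sum_add_distrib]
    refine Finset.sum_congr rfl fun a _ => ?_
    rw [gam, Finset.sum_comm, ← Finset.sum_add_distrib]
    refine Finset.sum_congr rfl fun j _ => ?_
    simp only [Finset.sum_mul]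
    rw [Finset.sum_comm (f := fun b i => D.τ j i * pd i (D.τ a b) * pd b ψ * pd j (pd a ψ)),
      ← Finset.sum_add_distrib]
    refine Finset.sum_congr rfl fun i _ => ?_
    rw [map_sum, Finset.mul_sum, Finset.sum_mul, ← Finset.sum_add_distrib]
    refine Finset.sum_congr rfl fun b _ => ?_
    rw [pd_mul, pd_comm i b, D.τ_apply_comm j i]
    ring
  rw [e0]
  congr 1
  · simp only [Matrix.trace, Matrix.diag, Matrix.mul_apply, hess_apply, Finset.sum_mul]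
  · have e1 : ∀ a, (∑ b, D.τ a b * pd b ψ) * con (pdM a D.τ) ψ =
        ∑ i, ∑ j, ∑ b, D.τ b a * pd a (D.τ i j) * pd b ψ * pd j (pd i ψ) := by
      intro a
      simp only [con, Finset.mul_sum, Finset.sum_mul, pdM_apply]
      refine Finset.sum_congr rfl fun i _ => Finset.sum_congr rfl fun j _ =>
        Finset.sum_congr rfl fun b _ => ?_
      rw [D.τ_apply_comm a b, pd_comm i j]
      ring
    simp only [e1]
    rw [Finset.sum_comm (f := fun a i => ∑ j, ∑ b, D.τ b a * pd a (D.τ i j) * pd b ψ * pd j (pd i ψ))]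
    refine Finset.sum_congr rfl fun i _ => ?_
    rw [Finset.sum_comm (f := fun a j => ∑ b, D.τ b a * pd a (D.τ i j) * pd b ψ * pd j (pd i ψ))]
    refine Finset.sum_congr rfl fun j _ => ?_
    rw [Finset.sum_comm (f := fun a b => D.τ b a * pd a (D.τ i j) * pd b ψ * pd j (pd i ψ))]
    refine Finset.sum_congr rfl fun b _ => ?_
    rw [← Finset.sum_mul, ← Finset.sum_mul]
    congr 2
    simp only [D.τ_apply_comm i]
    exact D.Phi_symm j b i ▸ by simp only [D.τ_apply_comm b i]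

/-- `I((Lψ)²) = -I(gam τ (Lψ) ψ) = -∑ I(w_a ∂_a Lψ)`, `w_a = ∑_b τ_ab ψ_b`,
`∂_a Lψ = Lψ_a - ψ_a + con (pdM a τ) ψ`; `-I(w_a Lψ_a) = I(gam τ w_a ψ_a)`; the two terms containing
`∂τ` cancel by `Phi_symm`. -/
theorem KE.bochner_fun (D : KE n) {ψ : Sm n} (hψ : Tm ψ) :
    Iw D.V (Lop D.τ ψ ^ 2) =
      Iw D.V (gam D.τ ψ ψ) + Iw D.V (D.τ * hess ψ * D.τ * hess ψ).trace := by
  have hτ : TmM D.τ := D.sym0τ.tmM
  have hV := D.symV
  have hw : ∀ a, Tm (∑ b, D.τ a b * pd b ψ) := fun a =>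
    Tm.sum _ fun b _ => (hτ a b).mul (hψ.pd b)
  have e1 : gam D.τ (Lop D.τ ψ) ψ = ∑ a, (∑ b, D.τ a b * pd b ψ) * Lop D.τ (pd a ψ) -
      gam D.τ ψ ψ + ∑ a, (∑ b, D.τ a b * pd b ψ) * con (pdM a D.τ) ψ := by
    simp only [gam, ← Finset.sum_add_distrib, ← Finset.sum_sub_distrib, Finset.sum_mul, pd_Lop]
    exact Finset.sum_congr rfl fun a _ => Finset.sum_congr rfl fun b _ => by ring
  have t1 : ∀ a, Tm ((∑ b, D.τ a b * pd b ψ) * Lop D.τ (pd a ψ)) := fun a =>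
    (hw a).mul (Tm.Lop hτ (hψ.pd a))
  have t2 : Tm (∑ a, (∑ b, D.τ a b * pd b ψ) * con (pdM a D.τ) ψ) :=
    Tm.sum _ fun a _ => (hw a).mul (Tm.con (hτ.pdM a) hψ)
  have t3 : Tm (D.τ * hess ψ * D.τ * hess ψ).trace := (((hτ.mul hψ.hess).mul hτ).mul hψ.hess).trace
  have t4 := Tm.gam hτ hψ hψ
  have e2 : Iw D.V (∑ a, (∑ b, D.τ a b * pd b ψ) * Lop D.τ (pd a ψ)) =
      -Iw D.V (∑ a, gam D.τ (∑ b, D.τ a b * pd b ψ) (pd a ψ)) := by
    rw [Iw_sum hV _ fun a _ => t1 a, Iw_sum hV _ fun a _ => Tm.gam hτ (hw a) (hψ.pd a),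
      ← Finset.sum_neg_distrib]
    exact Finset.sum_congr rfl fun a _ => D.Iw_mul_Lop (hw a) (hψ.pd a)
  rw [sq, D.Iw_mul_Lop (Tm.Lop hτ hψ) hψ, e1, Iw_add hV ((Tm.sum _ fun a _ => t1 a).sub t4) t2,
    Iw_sub hV (Tm.sum _ fun a _ => t1 a) t4, e2, D.gap_alg, Iw_add hV t3 t2]
  ring

theorem KE.gap_trace (D : KE n) {c : ℝ} (hc : 0 < c) (hl : Low c D.τ) {ψ : Sm n} (hψ : Tm ψ) :
    c ^ 2 * Iw D.V (q 2 ψ) ≤ Iw D.V (D.τ * hess ψ * D.τ * hess ψ).trace := by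
  have hτ : TmM D.τ := D.sym0τ.tmM
  rw [← Iw_smul]
  refine Iw_mono D.symV ((hψ.q 2).smul _) (((hτ.mul hψ.hess).mul hτ).mul hψ.hess).trace fun x => ?_
  have h := trace_conj_ge (τ := evM x D.τ) (S := evM x (hess ψ)) hc.le
    (by rw [← evM_transpose, D.τ_symm]) (hl x) (by rw [← evM_transpose, hess_transpose])
  rw [ev_smul, ev_trace, evM_mul, evM_mul, evM_mul, q_succ, map_sum]
  simp only [ev_q_one]
  rw [Finset.sum_comm]
  exact h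

/-- With `f = Lψ + ψ`: `I(f²) - I(ψ f) = I(Lψ · f) = I((Lψ)²) - I(gam τ ψ ψ) = I(tr(τD²ψτD²ψ))
≥ c² I(q 2 ψ) ≥ (c²/C_P) I(q 1 ψ)` (`trace_conj_ge`; `ψ_a` is odd, `Iw_odd`, `poincare`).
With `m = I(ψ)/I(1) = I(f)/I(1)`: `I(ψ²) = I((ψ-m)²) + m² I(1) ≤ C_P I(q 1 ψ) + I(f²)`
(`Iw_mul_sq_le`). Absorb `|I(ψ f)| ≤ t I(ψ²) + I(f²)/t`. -/
theorem gap (n : ℕ) {c : ℝ} (hc : 0 < c) (K : ℝ) : ∃ C, 0 ≤ C ∧ ∀ (D : KE n) (ψ : Sm n),
    Low c D.τ → (∀ x, |ev x D.V| ≤ K) → Tm ψ → IsEv ψ →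
    Iw D.V (ψ ^ 2) ≤ C * Iw D.V (Top D.τ 1 ψ ^ 2) := by
  obtain ⟨CP, hCP, HP⟩ := poincare n K
  obtain ⟨B, hB⟩ : ∃ B, B = CP ^ 2 / c ^ 2 := ⟨_, rfl⟩
  have hB0 : 0 ≤ B := by rw [hB]; positivity
  obtain ⟨t, ht⟩ : ∃ t, t = 1 / (2 * (B + 1)) := ⟨_, rfl⟩
  have ht0 : 0 < t := by rw [ht]; positivity
  have htB : B * t ≤ 1 / 2 := by
    rw [ht, mul_one_div, div_le_div_iff₀ (by positivity) (by positivity)]
    linarith
  refine ⟨2 * (B + B / (4 * t) + 1), by positivity, fun D ψ hl hK hψ hev => ?_⟩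
  have hτ : TmM D.τ := D.sym0τ.tmM
  have hV := D.symV
  have hL := Tm.Lop hτ hψ
  have ef : Top D.τ 1 ψ = Lop D.τ ψ + ψ := by rw [Top, one_smul]
  have hf : Tm (Top D.τ 1 ψ) := Tm.Top hτ 1 hψ
  have h1 : Iw D.V (Top D.τ 1 ψ ^ 2) - Iw D.V (ψ * Top D.τ 1 ψ) =
      Iw D.V (D.τ * hess ψ * D.τ * hess ψ).trace := by
    rw [← Iw_sub hV (hf.pow 2) (hψ.mul hf),
      show Top D.τ 1 ψ ^ 2 - ψ * Top D.τ 1 ψ = Lop D.τ ψ ^ 2 + ψ * Lop D.τ ψ by rw [ef]; ring,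
      Iw_add hV (hL.pow 2) (hψ.mul hL), D.bochner_fun hψ, D.Iw_mul_Lop hψ hψ]
    ring
  have h2 := D.gap_trace hc hl hψ
  have h3 : Iw D.V (q 1 ψ) ≤ CP * Iw D.V (q 2 ψ) := by
    rw [q_succ 0, q_succ 1, Iw_sum hV _ fun a _ => (hψ.pd a).q 0,
      Iw_sum hV _ fun a _ => (hψ.pd a).q 1, Finset.mul_sum]
    exact Finset.sum_le_sum fun a _ =>
      HP D.V (pd a ψ) hV hK (hψ.pd a) (Iw_odd D.evV (hev.pd a))
  have hZ := Iw_one_pos hV
  obtain ⟨m, hm⟩ : ∃ m, m = Iw D.V ψ / Iw D.V 1 := ⟨_, rfl⟩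
  have hm' : m * Iw D.V 1 = Iw D.V ψ := by rw [hm]; field_simp
  have ec : Iw D.V (cst m) = m * Iw D.V 1 := by rw [← Iw_cst_mul, mul_one]
  have h4 := HP D.V (ψ - cst m) hV hK (hψ.sub (tm_cst m)) (by
    rw [Iw_sub hV hψ (tm_cst m), ec, hm', sub_self])
  have eq1 : q 1 (ψ - cst m) = q 1 ψ := by
    simp only [q_succ, map_sub, pd_cst, sub_zero]
  have h5 : Iw D.V ((ψ - cst m) ^ 2) = Iw D.V (ψ ^ 2) - m * Iw D.V ψ := by
    rw [show (ψ - cst m) ^ 2 = ψ ^ 2 - cst m * ψ - cst m * ψ + cst m * cst m by ring,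
      Iw_add hV (((hψ.pow 2).sub ((tm_cst m).mul hψ)).sub ((tm_cst m).mul hψ))
        ((tm_cst m).mul (tm_cst m)),
      Iw_sub hV ((hψ.pow 2).sub ((tm_cst m).mul hψ)) ((tm_cst m).mul hψ),
      Iw_sub hV (hψ.pow 2) ((tm_cst m).mul hψ), Iw_cst_mul, Iw_cst_mul, ec, hm']
    ring
  have h6 : m * Iw D.V ψ ≤ Iw D.V (Top D.τ 1 ψ ^ 2) := by
    have a := Iw_mul_sq_le hV hf tm_one
    rw [mul_one, one_pow, ef, Iw_add hV hL hψ, D.Iw_Lop hψ, zero_add, ← ef] at a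
    refine le_of_mul_le_mul_right ?_ hZ
    calc m * Iw D.V ψ * Iw D.V 1 = Iw D.V ψ ^ 2 := by rw [mul_right_comm, hm', sq]
      _ ≤ _ := a
  have hA : 0 ≤ Iw D.V (ψ ^ 2) := Iw_nonneg _ fun x => by rw [map_pow]; exact sq_nonneg _
  have hF : 0 ≤ Iw D.V (Top D.τ 1 ψ ^ 2) := Iw_nonneg _ fun x => by rw [map_pow]; exact sq_nonneg _
  have h7 := Iw_mul_sq_le hV hψ hf
  rw [eq1, h5] at h4
  generalize Iw D.V (ψ ^ 2) = A at *
  generalize Iw D.V (Top D.τ 1 ψ ^ 2) = F at *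
  generalize Iw D.V (ψ * Top D.τ 1 ψ) = x at *
  have h8 : -x ≤ t * A + F / (4 * t) := by
    refine (neg_le_abs x).trans (abs_le_of_sq_le_sq' (h7.trans ?_) (by positivity) |> abs_le.2)
    have : (t * A + F / (4 * t)) ^ 2 - A * F = (t * A - F / (4 * t)) ^ 2 := by field_simp; ring
    linarith [sq_nonneg (t * A - F / (4 * t))]
  have h9 : CP * (CP * Iw D.V (q 2 ψ)) = B * (c ^ 2 * Iw D.V (q 2 ψ)) := by
    rw [hB]; field_simp
  have h10 := mul_le_mul_of_nonneg_left h3 hCP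
  have h11 : B * (c ^ 2 * Iw D.V (q 2 ψ)) ≤ B * (F + (t * A + F / (4 * t))) :=
    mul_le_mul_of_nonneg_left (by linarith) hB0
  have h12 := mul_le_mul_of_nonneg_right htB hA
  have h13 : B * (F + (t * A + F / (4 * t))) = B * F + B * t * A + B / (4 * t) * F := by ring
  linarith

theorem gap_Gn (n : ℕ) {c : ℝ} (hc : 0 < c) (K : ℝ) : ∃ C, 0 ≤ C ∧ ∀ (D : KE n) (ψ : Sm n),
    Low c D.τ → Y D.V ≤ K → Sym (9 / 8) ψ → IsEv ψ → Sym 0 (Top D.τ 1 ψ) →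
    Gn ψ ≤ C * Y (Top D.τ 1 ψ) := by
  obtain ⟨C, hC, H⟩ := gap n hc K
  obtain ⟨C', hC', H'⟩ := Gn_le_of_le_rpow n 0
  refine ⟨Real.exp K * Real.sqrt C * C', by positivity, fun D ψ hl hK hψ hev hf => ?_⟩
  have hV : ∀ x, |ev x D.V| ≤ K := fun x => (abs_le_Y D.symV x).trans hK
  have h1 := H D ψ hl hV hψ.tm hev
  have h2 := H' _ (Y (Top D.τ 1 ψ)) fun x => by simpa using abs_le_Y hf x
  have h3 := Iw_zero_le_Iw D.symV hV (hψ.tm.pow 2) fun x => by rw [map_pow]; exact sq_nonneg _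
  have h4 := Iw_le_Iw_zero D.symV hV (hf.tm.pow 2) fun x => by rw [map_pow]; exact sq_nonneg _
  rw [← Gn_sq_eq] at h3 h4
  have h5 : Gn ψ ≤ Real.exp K * Real.sqrt C * Gn (Top D.τ 1 ψ) := by
    refine (abs_le_of_sq_le_sq' ?_ (mul_nonneg (by positivity) (Gn_nonneg _))).2
    rw [mul_pow, mul_pow, Real.sq_sqrt hC]
    calc Gn ψ ^ 2 ≤ Real.exp K * (C * (Real.exp K * Gn (Top D.τ 1 ψ) ^ 2)) :=
          h3.trans (mul_le_mul_of_nonneg_left (h1.trans (mul_le_mul_of_nonneg_left h4 hC))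
            (Real.exp_pos K).le)
      _ = _ := by ring
  rw [mul_assoc]
  exact h5.trans (mul_le_mul_of_nonneg_left h2 (by positivity))

end Crest.Agent.R238
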