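import Crest.Agent.R238.Embed

/-!
# Row 238: the working norm `Y` on `Sym 0`
-/

set_option autoImplicit false
open MeasureTheory Matrix
open scoped ContDiff BigOperators

noncomputable section
namespace Crest.Agent.R238

variable {n : ℕ}

theorem σ0_lt (n : ℕ) : σ0 n < -(n : ℝ) / 2 := by unfold σ0; linarith

theorem Sym.adm_J0 {f : Sm n} (hf : Sym 0 f) (k : ℕ) : Adm (σ0 n) (J k f) :=
  hf.adm_J (by have := σ0_lt n; linarith) k

theorem ynorm_sup_nonneg (f : Sm n) : 0 ≤ ⨆ x, J (n + 1) f x :=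
  Real.iSup_nonneg fun x => J_nonneg _ f x

theorem ynorm_le_sup {f : Sm n} (hf : Sym 0 f) (x : E n) : J (n + 1) f x ≤ ⨆ x, J (n + 1) f x := by
  obtain ⟨C, hC⟩ := hf (n + 1)
  refine le_ciSup (f := fun x => J (n + 1) f x) ⟨C, ?_⟩ x
  rintro _ ⟨y, rfl⟩
  simpa using hC y

theorem ynorm_abs_J (k : ℕ) (f : Sm n) (x : E n) : |J k f x| = J k f x := abs_of_nonneg (J_nonneg k f x)

theorem Y_nonneg (f : Sm n) : 0 ≤ Y f := by
  exact add_nonneg (N_nonneg _ _ _) (ynorm_sup_nonneg f)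

theorem J_le_Y {f : Sm n} (hf : Sym 0 f) (x : E n) : J (n + 1) f x ≤ Y f := by
  exact (ynorm_le_sup hf x).trans (le_add_of_nonneg_left (N_nonneg _ _ _))

theorem abs_le_Y {f : Sm n} (hf : Sym 0 f) (x : E n) : |ev x f| ≤ Y f :=
  (abs_le_J _ f x).trans (J_le_Y hf x)

theorem N_le_Y (f : Sm n) : N (2 * n + 3) (σ0 n) f ≤ Y f := by
  exact le_add_of_nonneg_right (ynorm_sup_nonneg f)

theorem Y_le {f : Sm n} {A B : ℝ} (hA : N (2 * n + 3) (σ0 n) f ≤ A) (hB : ∀ x, J (n + 1) f x ≤ B) :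
    Y f ≤ A + B := by
  exact add_le_add hA (ciSup_le hB)

theorem Y_zero : Y (0 : Sm n) = 0 := by
  have h : ∀ k, J k (0 : Sm n) = fun _ => 0 := fun k => funext (J_zero k)
  simp [Y, N, h, nrm_zero]

theorem Y_add_le {f g : Sm n} (hf : Sym 0 f) (hg : Sym 0 g) : Y (f + g) ≤ Y f + Y g := by
  have h1 : N (2 * n + 3) (σ0 n) (f + g) ≤ N (2 * n + 3) (σ0 n) f + N (2 * n + 3) (σ0 n) g :=
    (nrm_mono ((hf.adm_J0 _).add (hg.adm_J0 _)) fun x => by
      rw [ynorm_abs_J]; exact J_add_le _ f g x).trans (nrm_add_le (hf.adm_J0 _) (hg.adm_J0 _))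
  have h2 := Y_le h1 fun x => (J_add_le _ f g x).trans
    (add_le_add (ynorm_le_sup hf x) (ynorm_le_sup hg x))
  unfold Y at h2 ⊢
  linarith

theorem Y_smul (c : ℝ) (f : Sm n) : Y (c • f) = |c| * Y f := by
  have h : ∀ k, J k (c • f) = fun x => |c| * J k f x := fun k => funext (J_smul k c f)
  unfold Y N
  rw [h, h, nrm_const_mul, abs_abs, mul_add, Real.mul_iSup_of_nonneg (abs_nonneg c)]

theorem Y_neg (f : Sm n) : Y (-f) = Y f := by
  have h : ∀ k, J k (-f) = J k f := fun k => funext (J_neg k f)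
  unfold Y N
  rw [h, h]

theorem Y_sub_le {f g : Sm n} (hf : Sym 0 f) (hg : Sym 0 g) : Y (f - g) ≤ Y f + Y g := by
  rw [sub_eq_add_neg, ← Y_neg g]
  exact Y_add_le hf hg.neg

theorem Y_sum_le {ι : Type*} (s : Finset ι) {f : ι → Sm n} (hf : ∀ i ∈ s, Sym 0 (f i)) :
    Y (∑ i ∈ s, f i) ≤ ∑ i ∈ s, Y (f i) := by
  classical
  induction s using Finset.induction_on with
  | empty => simp [Y_zero]
  | insert a s ha ih =>
    rw [Finset.sum_insert ha, Finset.sum_insert ha]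
    have h := fun i hi => hf i (Finset.mem_insert_of_mem hi)
    exact (Y_add_le (hf a (Finset.mem_insert_self _ _)) (Sym.sum s h)).trans
      (add_le_add le_rfl (ih h))

theorem ynorm_adm2 {f g : Sm n} (hf : Sym 0 f) (hg : Sym 0 g) :
    Adm (σ0 n) (fun x => Y f * J (2 * n + 3) g x + Y g * J (2 * n + 3) f x) :=
  ((hg.adm_J0 _).const_mul _).add ((hf.adm_J0 _).const_mul _)

theorem ynorm_nrm2 {f g : Sm n} (hf : Sym 0 f) (hg : Sym 0 g) :
    nrm (σ0 n) (fun x => Y f * J (2 * n + 3) g x + Y g * J (2 * n + 3) f x) ≤ 2 * (Y f * Y g) := by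
  refine (nrm_add_le ((hg.adm_J0 _).const_mul _) ((hf.adm_J0 _).const_mul _)).trans ?_
  rw [nrm_const_mul, nrm_const_mul, abs_of_nonneg (Y_nonneg f), abs_of_nonneg (Y_nonneg g)]
  have h1 := mul_le_mul_of_nonneg_left (N_le_Y g) (Y_nonneg f)
  have h2 := mul_le_mul_of_nonneg_left (N_le_Y f) (Y_nonneg g)
  unfold N at h1 h2
  linarith

theorem ynorm_pt2 {f g : Sm n} (hf : Sym 0 f) (hg : Sym 0 g) (k : ℕ) (x : E n) :
    J (n + 1) f x * J k g x + J k f x * J (n + 1) g x ≤ Y f * J k g x + Y g * J k f x := by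
  have h1 := mul_le_mul_of_nonneg_right (J_le_Y hf x) (J_nonneg k g x)
  have h2 := mul_le_mul_of_nonneg_right (J_le_Y hg x) (J_nonneg k f x)
  linarith

/-- `J_mul_split` with `m = n+1`, `k = 2n+3`, and `J_mul_le`. -/
theorem Y_mul_le (n : ℕ) : ∃ C, 0 ≤ C ∧ ∀ f g : Sm n, Sym 0 f → Sym 0 g → Y (f * g) ≤ C * (Y f * Y g) := by
  refine ⟨2 ^ (2 * n + 3) * 2 + 2 ^ (n + 1), by positivity, fun f g hf hg => ?_⟩
  have h1 : N (2 * n + 3) (σ0 n) (f * g) ≤ 2 ^ (2 * n + 3) * (2 * (Y f * Y g)) := by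
    refine (nrm_mono ((ynorm_adm2 hf hg).const_mul (2 ^ (2 * n + 3))) fun x => ?_).trans ?_
    · rw [ynorm_abs_J]
      exact (J_mul_split (m := n + 1) (by omega) f g x).trans
        (mul_le_mul_of_nonneg_left (ynorm_pt2 hf hg _ x) (by positivity))
    · rw [nrm_const_mul, abs_of_nonneg (by positivity)]
      exact mul_le_mul_of_nonneg_left (ynorm_nrm2 hf hg) (by positivity)
  have h2 : ∀ x, J (n + 1) (f * g) x ≤ 2 ^ (n + 1) * (Y f * Y g) := fun x =>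
    (J_mul_le _ f g x).trans (mul_le_mul_of_nonneg_left
      (mul_le_mul (J_le_Y hf x) (J_le_Y hg x) (J_nonneg _ _ _) (Y_nonneg f)) (by positivity))
  exact (Y_le h1 h2).trans (le_of_eq (by ring))

/-- Matrix products. -/
theorem YM_mul (n : ℕ) : ∃ C, 0 ≤ C ∧ ∀ (M P : Mat n) (K K' : ℝ), SymM 0 M → SymM 0 P →
    YM K M → YM K' P → YM (C * (K * K')) (M * P) := by
  obtain ⟨C, hC, h⟩ := Y_mul_le n
  refine ⟨n * C, by positivity, fun M P K K' hM hP h1 h2 a b => ?_⟩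
  rw [Matrix.mul_apply]
  refine (Y_sum_le _ fun c _ => (hM a c).mul_zero (hP c b)).trans ?_
  refine (Finset.sum_le_card_nsmul _ _ (C * (K * K')) fun c _ => (h _ _ (hM a c) (hP c b)).trans
    (mul_le_mul_of_nonneg_left (mul_le_mul (h1 a c) (h2 c b) (Y_nonneg _)
      ((Y_nonneg _).trans (h1 a c))) hC)).trans (le_of_eq ?_)
  simp [mul_assoc]

theorem Y_con_le (n : ℕ) : ∃ C, 0 ≤ C ∧ ∀ (M : Mat n) (f : Sm n) (K K' : ℝ), SymM 0 M →
    SymM 0 (hess f) → 0 ≤ K → 0 ≤ K' → YM K M → YM K' (hess f) → Y (con M f) ≤ C * (K * K') := by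
  obtain ⟨C, hC, h⟩ := Y_mul_le n
  refine ⟨n * (n * C), by positivity, fun M f K K' hM hf hK _ h1 h2 => ?_⟩
  unfold con
  have hs : ∀ a b, Sym 0 (M a b * pd a (pd b f)) := fun a b => (hM a b).mul_zero (hf a b)
  refine (Y_sum_le _ fun a _ => Sym.sum _ fun b _ => hs a b).trans ?_
  refine (Finset.sum_le_card_nsmul _ _ (n * (C * (K * K'))) fun a _ => ?_).trans (le_of_eq ?_)
  · refine (Y_sum_le _ fun b _ => hs a b).trans ?_
    refine (Finset.sum_le_card_nsmul _ _ (C * (K * K')) fun b _ => (h _ _ (hM a b) (hf a b)).trans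
      (mul_le_mul_of_nonneg_left (mul_le_mul (h1 a b) (h2 a b) (Y_nonneg _) hK) hC)).trans
      (le_of_eq ?_)
    simp
  · simp [mul_assoc]

theorem YM_one (n : ℕ) : ∃ C, 0 ≤ C ∧ YM C (1 : Mat n) := by
  refine ⟨Y (1 : Sm n), Y_nonneg _, fun a b => ?_⟩
  rw [Matrix.one_apply]
  split_ifs
  · exact le_rfl
  · rw [Y_zero]; exact Y_nonneg _

theorem exists_YM (M : Mat n) : ∃ K, 0 ≤ K ∧ YM K M := by
  refine ⟨∑ a, ∑ b, Y (M a b), Finset.sum_nonneg fun a _ => Finset.sum_nonneg fun b _ => Y_nonneg _,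
    fun a b => ?_⟩
  exact (Finset.single_le_sum (f := fun b => Y (M a b)) (fun b _ => Y_nonneg _)
    (Finset.mem_univ b)).trans (Finset.single_le_sum (f := fun a => ∑ b, Y (M a b))
      (fun a _ => Finset.sum_nonneg fun b _ => Y_nonneg _) (Finset.mem_univ a))

theorem ynorm_sum2 {F : Fin n → Fin n → ℝ} {K : ℝ} (h : ∀ a b, F a b ≤ K) :
    ∑ a, ∑ b, F a b ≤ (n : ℝ) ^ 2 * K := by
  refine (Finset.sum_le_sum fun a _ => Finset.sum_le_sum fun b _ => h a b).trans (le_of_eq ?_)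
  simp; ring

theorem YM.JM_le {K : ℝ} {M : Mat n} (hM : SymM 0 M) (h : YM K M) (x : E n) :
    JM (n + 1) M x ≤ (n : ℝ) ^ 2 * K := by
  exact ynorm_sum2 fun a b => (J_le_Y (hM a b) x).trans (h a b)

theorem YM.nrm_JM_le {K : ℝ} {M : Mat n} (hM : SymM 0 M) (h : YM K M) :
    nrm (σ0 n) (JM (2 * n + 3) M) ≤ (n : ℝ) ^ 2 * K := by
  refine le_trans ?_ (ynorm_sum2 fun a b => (N_le_Y (M a b)).trans (h a b))
  refine (nrm_sum_le (F := fun a x => ∑ b, J (2 * n + 3) (M a b) x) Finset.univ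
    fun a _ => Adm.sum _ fun b _ => (hM a b).adm_J0 _).trans (Finset.sum_le_sum fun a _ => ?_)
  exact nrm_sum_le (F := fun b x => J (2 * n + 3) (M a b) x) Finset.univ fun b _ => (hM a b).adm_J0 _

theorem ynorm_prim_pt {ι : Type} {s : Finset ι} {η : Sm n} {P Q : ι → Sm n} {S : ℝ}
    (hP : ∀ i ∈ s, Sym 0 (P i)) (hQ : ∀ i ∈ s, Sym 0 (Q i))
    (hη : ∀ a, pd a η = ∑ i ∈ s, P i * pd a (Q i)) (hS : ∀ x, |ev x η| ≤ S) {k : ℕ}
    (hk : k + 1 ≤ 2 * (n + 1) + 1) (x : E n) :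
    J (k + 1) η x ≤ S + n * 2 ^ k *
      ∑ i ∈ s, (Y (P i) * J (k + 1) (Q i) x + Y (Q i) * J (k + 1) (P i) x) := by
  rw [J_succ, Finset.mul_sum]
  refine add_le_add (hS x) ((Finset.sum_le_card_nsmul _ _ (2 ^ k *
    ∑ i ∈ s, (Y (P i) * J (k + 1) (Q i) x + Y (Q i) * J (k + 1) (P i) x)) fun a _ => ?_).trans
    (le_of_eq (by simp [mul_assoc])))
  rw [hη]
  refine (mul_le_mul_of_nonneg_left (J_sum_le _ _ _ x) (r_pos x).le).trans ?_
  rw [Finset.mul_sum, Finset.mul_sum]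
  exact Finset.sum_le_sum fun i hi => (J_mul_pd_split hk a _ _ x).trans
    (mul_le_mul_of_nonneg_left (ynorm_pt2 (hP i hi) (hQ i hi) _ x) (by positivity))

/-- A function whose gradient is `∑ P_i ∇Q_i`: `J_succ` and `J_mul_pd_split` (with `m = n+1` for
both `k + 1 = 2n+3` and `k + 1 = n+1`). -/
theorem Y_prim (n : ℕ) : ∃ C, 0 ≤ C ∧ ∀ {ι : Type} (s : Finset ι) (η : Sm n) (P Q : ι → Sm n) (S : ℝ),
    (∀ i ∈ s, Sym 0 (P i)) → (∀ i ∈ s, Sym 0 (Q i)) → (∀ a, pd a η = ∑ i ∈ s, P i * pd a (Q i)) →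
    (∀ x, |ev x η| ≤ S) → Sym 0 η ∧ Y η ≤ C * (S + ∑ i ∈ s, Y (P i) * Y (Q i)) := by
  have hc := nrm_nonneg (σ0 n) (fun _ : E n => (1 : ℝ))
  set c := nrm (σ0 n) (fun _ : E n => (1 : ℝ)) with hcdef
  refine ⟨c + 1 + n * 2 ^ (2 * n + 2) * 2 + n * 2 ^ n * 2, by positivity,
    fun {ι} s η P Q S hP hQ hη hS => ⟨?_, ?_⟩⟩
  · refine sym_of_pd ⟨S, fun x => by simpa using hS x⟩ fun a => ?_
    rw [hη]
    exact Sym.sum _ fun i hi => (hP i hi).zero_mul ((hQ i hi).pd a)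
  have hS0 : 0 ≤ S := (abs_nonneg _).trans (hS 0)
  have hT0 : 0 ≤ ∑ i ∈ s, Y (P i) * Y (Q i) :=
    Finset.sum_nonneg fun i _ => mul_nonneg (Y_nonneg _) (Y_nonneg _)
  have hA := Adm.sum s fun i hi => ynorm_adm2 (hP i hi) (hQ i hi)
  have hA0 : Adm (σ0 n) (fun _ : E n => S * 1) := adm_const (σ0_lt n) _
  have h1 : N (2 * n + 3) (σ0 n) η ≤
      S * c + n * 2 ^ (2 * n + 2) * (2 * ∑ i ∈ s, Y (P i) * Y (Q i)) := by
    refine (nrm_mono (hA0.add (hA.const_mul (n * 2 ^ (2 * n + 2)))) fun x => ?_).trans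
      ((nrm_add_le hA0 (hA.const_mul _)).trans ?_)
    · rw [ynorm_abs_J, mul_one]
      exact ynorm_prim_pt hP hQ hη hS (k := 2 * n + 2) (by omega) x
    · rw [nrm_const_mul, nrm_const_mul, abs_of_nonneg hS0, abs_of_nonneg (by positivity)]
      refine add_le_add le_rfl (mul_le_mul_of_nonneg_left ?_ (by positivity))
      refine (nrm_sum_le s fun i hi => ynorm_adm2 (hP i hi) (hQ i hi)).trans ?_
      rw [Finset.mul_sum]
      exact Finset.sum_le_sum fun i hi => ynorm_nrm2 (hP i hi) (hQ i hi)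
  have h2 : ∀ x, J (n + 1) η x ≤ S + n * 2 ^ n * (2 * ∑ i ∈ s, Y (P i) * Y (Q i)) := by
    intro x
    refine (ynorm_prim_pt hP hQ hη hS (k := n) (by omega) x).trans
      (add_le_add le_rfl (mul_le_mul_of_nonneg_left ?_ (by positivity)))
    rw [Finset.mul_sum]
    refine Finset.sum_le_sum fun i hi => ?_
    have a1 := mul_le_mul_of_nonneg_left (J_le_Y (hQ i hi) x) (Y_nonneg (P i))
    have a2 := mul_le_mul_of_nonneg_left (J_le_Y (hP i hi) x) (Y_nonneg (Q i))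
    linarith
  refine (Y_le h1 h2).trans ?_
  generalize ∑ i ∈ s, Y (P i) * Y (Q i) = T at hT0 ⊢
  have e1 : (0:ℝ) ≤ n * 2 ^ (2 * n + 2) := by positivity
  have e2 : (0:ℝ) ≤ n * 2 ^ n := by positivity
  generalize (n:ℝ) * 2 ^ (2 * n + 2) = u at e1 ⊢
  generalize (n:ℝ) * 2 ^ n = w at e2 ⊢
  nlinarith [mul_nonneg hc hT0, mul_nonneg e1 hS0, mul_nonneg e2 hS0]

/-- `embed_J` with `j = n+3`: two more derivatives at the price of the weight `r^{3/4}`. -/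
theorem d_le_Y (n : ℕ) : ∃ C, 0 ≤ C ∧ ∀ f : Sm n, Sym 0 f → ∀ i ≤ n + 3, ∀ x,
    d i f x ≤ C * Y f * r x ^ (3 / 4 - (i : ℝ)) := by
  obtain ⟨C, hC, h⟩ := embed_J n (n + 3) (σ0 n)
  refine ⟨C, hC, fun f hf i hi x => ?_⟩
  have h1 := h 0 f hf (by have := σ0_lt n; linarith) x
  rw [show n + 3 + n = 2 * n + 3 by ring, show σ0 n + n / 2 = -(3 / 4) by unfold σ0; ring] at h1
  have h2 := (mul_le_mul_of_nonneg_right (d_le_J hi f x) (r_rpow_pos x (-(3 / 4))).le).trans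
    (h1.trans (mul_le_mul_of_nonneg_left (N_le_Y f) hC))
  have h3 := mul_le_mul_of_nonneg_right h2 (r_rpow_pos x (3 / 4 - (i : ℝ))).le
  refine le_trans (le_of_eq ?_) h3
  have e : r x ^ i * r x ^ (-(3 / 4) : ℝ) * r x ^ (3 / 4 - (i : ℝ)) = 1 := by
    rw [← Real.rpow_natCast, ← r_rpow_add, ← r_rpow_add,
      show (i : ℝ) + -(3 / 4) + (3 / 4 - i) = 0 by ring, Real.rpow_zero]
  linear_combination (-d i f x) * e

end Crest.Agent.R238
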