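import Crest.Agent.R238.Energy
import Crest.Agent.R238.YNorm

/-!
# Row 238: higher order (tame) linear estimates
-/

set_option autoImplicit false
open MeasureTheory Matrix
open scoped ContDiff BigOperators

noncomputable section
namespace Crest.Agent.R238

variable {n : ℕ}

/-- `∑_{i ≤ k} r^i (d_{i+2} ψ + d_{i+1} ψ)`. -/
def J2 (k : ℕ) (ψ : Sm n) (x : E n) : ℝ :=
  ∑ i ∈ Finset.range (k + 1), r x ^ i * (d (i + 2) ψ x + d (i + 1) ψ x)

/-- The terms of the commutator in which more than `m` derivatives fall on `τ`. -/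
def Th (m k : ℕ) (τ : Mat n) (ψ : Sm n) (x : E n) : ℝ :=
  ∑ i ∈ Finset.range (k + 1), ∑ j ∈ Finset.range (k + 1),
    if m < i ∧ i + j ≤ k then (r x ^ i * dM i τ x) * (r x ^ j * d (j + 2) ψ x) else 0

theorem J2_succ (k : ℕ) (ψ : Sm n) (x : E n) :
    J2 (k + 1) ψ x = d 2 ψ x + d 1 ψ x + r x * ∑ a, J2 k (pd a ψ) x := by
  unfold J2
  rw [Finset.sum_range_succ', Finset.sum_comm, Finset.mul_sum, pow_zero, one_mul, add_comm]
  congr 1
  refine Finset.sum_congr rfl fun i _ => ?_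
  rw [← Finset.mul_sum, Finset.sum_add_distrib, ← d_succ, ← d_succ]
  ring

theorem J2_eq (k : ℕ) (ψ : Sm n) (x : E n) :
    J2 k ψ x = JM k (hess ψ) x + ∑ a, J k (pd a ψ) x := by
  unfold J2 J
  rw [JM_eq, Finset.sum_comm, ← Finset.sum_add_distrib]
  refine Finset.sum_congr rfl fun i _ => ?_
  rw [dM_hess, ← Finset.mul_sum, ← d_succ]
  ring

theorem Sym.adm_J2 {μ σ : ℝ} {ψ : Sm n} (hψ : Sym μ ψ) (h : μ + σ - 1 < -(n : ℝ) / 2) (k : ℕ) :
    Adm σ (J2 k ψ) := by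
  rw [show J2 k ψ = fun x => JM k (hess ψ) x + ∑ a, J k (pd a ψ) x from funext (J2_eq k ψ)]
  exact (hψ.hess.adm_JM (by linarith) k).add
    (Adm.sum _ fun a _ => (hψ.pd a).adm_J (by linarith) k)

theorem lin_A_nonneg (i : ℕ) (τ : Mat n) (x : E n) : 0 ≤ r x ^ i * dM i τ x :=
  mul_nonneg (pow_nonneg (r_pos x).le _) (dM_nonneg _ _ _)

theorem lin_B_nonneg (i j : ℕ) (ψ : Sm n) (x : E n) : 0 ≤ r x ^ i * d j ψ x :=
  mul_nonneg (pow_nonneg (r_pos x).le _) (d_nonneg _ _ _)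

theorem lin_JM_hess (k : ℕ) (ψ : Sm n) (x : E n) :
    JM k (hess ψ) x = ∑ j ∈ Finset.range (k + 1), r x ^ j * d (j + 2) ψ x := by
  simp only [JM_eq, dM_hess]

theorem lin_JM_le_J2 (k : ℕ) (ψ : Sm n) (x : E n) : JM k (hess ψ) x ≤ J2 k ψ x := by
  rw [J2_eq]
  exact le_add_of_nonneg_right (Finset.sum_nonneg fun a _ => J_nonneg _ _ _)

theorem lin_J_le_J2 (k : ℕ) (a : Fin n) (ψ : Sm n) (x : E n) : J k (pd a ψ) x ≤ J2 k ψ x := by
  rw [J2_eq]
  exact (Finset.single_le_sum (f := fun a => J k (pd a ψ) x) (fun a _ => J_nonneg _ _ _)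
    (Finset.mem_univ a)).trans (le_add_of_nonneg_left (JM_nonneg _ _ _))

theorem lin_J2_nonneg (k : ℕ) (ψ : Sm n) (x : E n) : 0 ≤ J2 k ψ x :=
  (JM_nonneg _ _ _).trans (lin_JM_le_J2 k ψ x)

theorem lin_d_le_J2 (k : ℕ) (ψ : Sm n) (x : E n) : d 2 ψ x + d 1 ψ x ≤ J2 k ψ x := by
  have := Finset.single_le_sum (f := fun i => r x ^ i * (d (i + 2) ψ x + d (i + 1) ψ x))
    (s := Finset.range (k + 1))
    (fun i _ => mul_nonneg (pow_nonneg (r_pos x).le _) (add_nonneg (d_nonneg _ _ _) (d_nonneg _ _ _)))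
    (Finset.mem_range.2 k.succ_pos)
  simpa [J2] using this

theorem lin_ite_nonneg {P : Prop} [Decidable P] {a b : ℝ} (ha : 0 ≤ a) (hb : 0 ≤ b) :
    0 ≤ if P then a * b else 0 := by
  split_ifs
  · exact mul_nonneg ha hb
  · exact le_rfl

theorem lin_Th_nonneg (m k : ℕ) (τ : Mat n) (ψ : Sm n) (x : E n) : 0 ≤ Th m k τ ψ x :=
  Finset.sum_nonneg fun _ _ => Finset.sum_nonneg fun _ _ =>
    lin_ite_nonneg (lin_A_nonneg _ _ _) (lin_B_nonneg _ _ _ _)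

theorem lin_Th_le {m k p : ℕ} (h : k ≤ p + m + 1) (τ : Mat n) (ψ : Sm n) (x : E n) :
    Th m k τ ψ x ≤ JM k τ x * JM p (hess ψ) x := by
  rw [JM_eq, lin_JM_hess, Finset.sum_mul]
  refine Finset.sum_le_sum fun i _ => ?_
  rw [← Finset.sum_filter, ← Finset.mul_sum]
  refine mul_le_mul_of_nonneg_left (Finset.sum_le_sum_of_subset_of_nonneg (fun j hj => ?_)
    fun j _ _ => lin_B_nonneg _ _ _ _) (lin_A_nonneg _ _ _)
  have := (Finset.mem_filter.1 hj).2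
  rw [Finset.mem_range]
  omega

theorem lin_Th_eq_zero {m k : ℕ} (h : k ≤ m) (τ : Mat n) (ψ : Sm n) (x : E n) :
    Th m k τ ψ x = 0 :=
  Finset.sum_eq_zero fun _ _ => Finset.sum_eq_zero fun _ _ => if_neg (by omega)

theorem lin_continuous_Th (m k : ℕ) (τ : Mat n) (ψ : Sm n) : Continuous (Th m k τ ψ) := by
  unfold Th
  refine continuous_finsetSum _ fun i _ => continuous_finsetSum _ fun j _ => ?_
  split_ifs
  · exact ((continuous_r.pow _).mul (continuous_dM _ _)).mul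
      ((continuous_r.pow _).mul (continuous_d _ _))
  · exact continuous_const

theorem lin_Th_mono (m k : ℕ) (τ : Mat n) (ψ : Sm n) (x : E n) :
    Th m k τ ψ x ≤ Th m (k + 1) τ ψ x := by
  unfold Th
  rw [Finset.sum_range_succ _ (k + 1)]
  refine le_add_of_le_of_nonneg (Finset.sum_le_sum fun i _ => ?_) (Finset.sum_nonneg fun _ _ =>
    lin_ite_nonneg (lin_A_nonneg _ _ _) (lin_B_nonneg _ _ _ _))
  rw [Finset.sum_range_succ _ (k + 1)]
  refine le_add_of_le_of_nonneg (Finset.sum_le_sum fun j _ => ?_)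
    (lin_ite_nonneg (lin_A_nonneg _ _ _) (lin_B_nonneg _ _ _ _))
  split_ifs with h1 h2
  · exact le_rfl
  · omega
  · exact mul_nonneg (lin_A_nonneg _ _ _) (lin_B_nonneg _ _ _ _)
  · exact le_rfl

theorem lin_Th_pd (m k : ℕ) (a : Fin n) (τ : Mat n) (ψ : Sm n) (x : E n) :
    r x * Th m k τ (pd a ψ) x ≤ Th m (k + 1) τ ψ x := by
  unfold Th
  rw [Finset.sum_range_succ _ (k + 1), Finset.mul_sum]
  refine le_add_of_le_of_nonneg (Finset.sum_le_sum fun i _ => ?_) (Finset.sum_nonneg fun _ _ =>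
    lin_ite_nonneg (lin_A_nonneg _ _ _) (lin_B_nonneg _ _ _ _))
  rw [Finset.sum_range_succ' _ (k + 1), Finset.mul_sum]
  refine le_add_of_le_of_nonneg (Finset.sum_le_sum fun j _ => ?_)
    (lin_ite_nonneg (lin_A_nonneg _ _ _) (lin_B_nonneg _ _ _ _))
  split_ifs with h1 h2
  · rw [mul_left_comm, ← mul_assoc (r x), ← pow_succ']
    exact mul_le_mul_of_nonneg_left (mul_le_mul_of_nonneg_left (d_pd_le _ _ _ _)
      (pow_nonneg (r_pos x).le _)) (lin_A_nonneg _ _ _)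
  · omega
  · rw [mul_zero]
    exact mul_nonneg (lin_A_nonneg _ _ _) (lin_B_nonneg _ _ _ _)
  · rw [mul_zero]

theorem lin_split (m k : ℕ) {A B : ℕ → ℝ} (hA : ∀ i, 0 ≤ A i) (hB : ∀ i, 0 ≤ B i) :
    ∑ p ∈ Finset.range (k + 1), ∑ i ∈ Finset.range (p + 1), A (i + 1) * B (p - i) ≤
      (∑ i ∈ Finset.range (m + 1), A i) * (∑ j ∈ Finset.range (k + 1), B j) +
        ∑ i ∈ Finset.range (k + 1 + 1), ∑ j ∈ Finset.range (k + 1 + 1),
          if m < i ∧ i + j ≤ k + 1 then A i * B j else 0 := by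
  have hS : 0 ≤ ∑ j ∈ Finset.range (k + 1), B j := Finset.sum_nonneg fun j _ => hB j
  have h1 : ∑ i ∈ Finset.range (k + 1), (if i < m then A (i + 1) else 0) ≤
      ∑ i ∈ Finset.range (m + 1), A i := by
    rw [← Finset.sum_filter, Finset.sum_range_succ' A]
    refine le_add_of_le_of_nonneg (Finset.sum_le_sum_of_subset_of_nonneg (fun i hi => ?_)
      fun _ _ _ => hA _) (hA 0)
    exact Finset.mem_range.2 (Finset.mem_filter.1 hi).2
  rw [Finset.sum_range_diag_flip (k + 1) fun i j => A (i + 1) * B j,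
    Finset.sum_range_succ' _ (k + 1)]
  refine le_trans ?_ (add_le_add (mul_le_mul_of_nonneg_right h1 hS) (le_add_of_nonneg_right
    (Finset.sum_nonneg fun _ _ => lin_ite_nonneg (hA _) (hB _))))
  rw [Finset.sum_mul, ← Finset.sum_add_distrib]
  refine Finset.sum_le_sum fun i _ => ?_
  by_cases h : i < m
  · rw [if_pos h, ← Finset.mul_sum]
    refine le_add_of_le_of_nonneg (mul_le_mul_of_nonneg_left
      (Finset.sum_le_sum_of_subset_of_nonneg (Finset.range_mono (Nat.sub_le _ _))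
        fun _ _ _ => hB _) (hA _)) (Finset.sum_nonneg fun _ _ => lin_ite_nonneg (hA _) (hB _))
  · rw [if_neg h, zero_mul, zero_add, ← Finset.sum_filter]
    refine Finset.sum_le_sum_of_subset_of_nonneg (fun j hj => ?_)
      fun _ _ _ => mul_nonneg (hA _) (hB _)
    rw [Finset.mem_range] at hj
    rw [Finset.mem_filter, Finset.mem_range]
    omega

theorem lin_con_le (m k : ℕ) (a : Fin n) {τ : Mat n} (ψ : Sm n) {x : E n} {K : ℝ}
    (hK : JM m τ x ≤ K) :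
    r x * J k (con (pdM a τ) ψ) x ≤ 2 ^ k * (K * J2 k ψ x + Th m (k + 1) τ ψ x) := by
  have hr := (r_pos x).le
  have h1 := lin_split m k (A := fun i => r x ^ i * dM i τ x) (B := fun j => r x ^ j * d (j + 2) ψ x)
    (fun i => lin_A_nonneg _ _ _) fun j => lin_B_nonneg _ _ _ _
  rw [← JM_eq, ← lin_JM_hess] at h1
  have h2 : JM m τ x * JM k (hess ψ) x ≤ K * J2 k ψ x :=
    mul_le_mul hK (lin_JM_le_J2 _ _ _) (JM_nonneg _ _ _) ((JM_nonneg _ _ _).trans hK)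
  refine le_trans ?_ (mul_le_mul_of_nonneg_left (h1.trans (add_le_add h2 le_rfl)) (by positivity))
  unfold J
  rw [Finset.mul_sum, Finset.mul_sum]
  refine Finset.sum_le_sum fun p hp => ?_
  have hp' : p ≤ k := Nat.lt_succ_iff.1 (Finset.mem_range.1 hp)
  calc r x * (r x ^ p * d p (con (pdM a τ) ψ) x)
      ≤ r x * (r x ^ p * (2 ^ p * ∑ i ∈ Finset.range (p + 1),
          dM i (pdM a τ) x * d (p - i + 2) ψ x)) :=
        mul_le_mul_of_nonneg_left (mul_le_mul_of_nonneg_left (d_con_le _ _ _ _) (by positivity)) hr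
    _ = 2 ^ p * ∑ i ∈ Finset.range (p + 1),
          r x ^ (i + 1) * dM i (pdM a τ) x * (r x ^ (p - i) * d (p - i + 2) ψ x) := by
        simp only [Finset.mul_sum]
        refine Finset.sum_congr rfl fun i hi => ?_
        have : r x ^ p = r x ^ i * r x ^ (p - i) := by
          rw [← pow_add, Nat.add_sub_cancel' (Nat.lt_succ_iff.1 (Finset.mem_range.1 hi))]
        rw [this]
        ring
    _ ≤ _ := by
        refine mul_le_mul (pow_le_pow_right₀ one_le_two hp') (Finset.sum_le_sum fun i _ => ?_)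
          (Finset.sum_nonneg fun i _ => mul_nonneg (mul_nonneg (by positivity) (dM_nonneg _ _ _))
            (lin_B_nonneg _ _ _ _)) (by positivity)
        refine mul_le_mul_of_nonneg_right (mul_le_mul_of_nonneg_left ?_ (by positivity))
          (lin_B_nonneg _ _ _ _)
        rw [dM_succ]
        exact Finset.single_le_sum (f := fun c => dM i (pdM c τ) x) (fun c _ => dM_nonneg _ _ _)
          (Finset.mem_univ a)

theorem adm_Th {μ σ : ℝ} {τ : Mat n} {ψ : Sm n} (hτ : SymM 0 τ) (hψ : Sym μ ψ)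
    (h : μ + σ - 1 < -(n : ℝ) / 2) (m k : ℕ) : Adm σ (Th m k τ ψ) := by
  obtain ⟨C, -, hC⟩ := hτ.JM_le k
  refine ((hψ.hess.adm_JM (σ := σ) (by linarith) k).const_mul C).of_le
    (lin_continuous_Th _ _ _ _) fun x => ?_
  rw [abs_of_nonneg (lin_Th_nonneg _ _ _ _ _)]
  refine (lin_Th_le (p := k) (by omega) τ ψ x).trans
    (mul_le_mul_of_nonneg_right ?_ (JM_nonneg _ _ _))
  simpa using hC x

/-- Induction on `k` generalizing `l σ` (the constant) and `ψ μ ν`. `k = 0` is `energy`. Step: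
`J2_succ`, `nrm_r_mul`; apply the hypothesis to `∂_aψ` with `(l-1, σ+1, μ-1, max (ν-1) (μ-3))`,
`Top τ (l-1) (∂_aψ) = ∂_a f - con (pdM a τ) ψ`; `N k (σ+1) (∂_a f) ≤ N (k+1) σ f`;
`r J k (con (pdM a τ) ψ) ≤ 2^k (K · J2 k ψ + Th m (k+1) τ ψ)` (`d_con_le`; terms with `i+1 ≤ m`
derivatives on `τ` are bounded by `K`), `nrm σ (J2 k ψ)` is bounded by the hypothesis for `ψ` itself;
`Gn (∂_aψ) ≤ C nrm σ (d 1 ψ)` (`Gn_le_nrm`); `r Th m k τ (∂_aψ) ≤ Th m (k+1) τ ψ`, `Th m k ≤ Th m (k+1)`. -/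
theorem lin_tame (n : ℕ) {c : ℝ} (hc : 0 < c) (K : ℝ) {m : ℕ} (hm : 1 ≤ m) (k : ℕ) {l σ : ℝ}
    (hp : 0 < 1 - l - n / 2 - σ) :
    ∃ C, 0 ≤ C ∧ ∀ (τ : Mat n) (ψ : Sm n) (μ ν : ℝ), τᵀ = τ → Low c τ → SymM 0 τ →
      (∀ x, JM m τ x ≤ K) → Sym μ ψ → μ + σ - 1 < -(n : ℝ) / 2 →
      Sym ν (Top τ l ψ) → ν + σ < -(n : ℝ) / 2 →
      nrm σ (J2 k ψ) ≤ C * (N k σ (Top τ l ψ) + Gn ψ + nrm σ (Th m k τ ψ)) := by
  induction k generalizing l σ with
  | zero =>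
    obtain ⟨C, hC0, hC⟩ := energy n hc K hp
    refine ⟨C, hC0, fun τ ψ μ ν h1 h2 h3 h4 h5 h6 h7 h8 => ?_⟩
    have e1 : J2 0 ψ = fun x => d 2 ψ x + d 1 ψ x := by
      funext x; simp [J2]
    have e2 : J 0 (Top τ l ψ) = d 0 (Top τ l ψ) := funext fun x => J_zero_eq _ x
    rw [e1, N, e2]
    refine (nrm_add_le (h5.adm_d 2 (by push_cast; linarith)) (h5.adm_d 1 (by push_cast; linarith))).trans
      ((hC τ ψ μ ν h1 h2 h3 (fun x => (JM_mono hm τ x).trans (h4 x)) h5 h6 h7 h8).trans ?_)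
    exact mul_le_mul_of_nonneg_left (le_add_of_nonneg_right (nrm_nonneg _ _)) hC0
  | succ k ih =>
    obtain ⟨C₁, hC₁, H₁⟩ := ih hp
    obtain ⟨C₂, hC₂, H₂⟩ := ih (l := l - 1) (σ := σ + 1) (by linarith)
    obtain ⟨C₃, hC₃, H₃⟩ := Gn_le_nrm n σ
    refine ⟨C₁ + n * (C₂ * (2 + 2 ^ k * (|K| * C₁ + 1) + C₃ * C₁)), by positivity,
      fun τ ψ μ ν h1 h2 h3 h4 h5 h6 h7 h8 => ?_⟩
    have aJ := h5.adm_J2 h6 k
    have aT := adm_Th h3 h5 h6 m (k + 1)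
    have aF := h7.adm_J h8 (k + 1)
    have n1 := N_nonneg (k + 1) σ (Top τ l ψ)
    have n2 : 0 ≤ Gn ψ := Real.sqrt_nonneg _
    have n3 := nrm_nonneg σ (Th m (k + 1) τ ψ)
    set A := N (k + 1) σ (Top τ l ψ) + Gn ψ + nrm σ (Th m (k + 1) τ ψ) with hA
    have hA0 : 0 ≤ A := by positivity
    have hG : nrm σ (J2 k ψ) ≤ C₁ * A := by
      refine (H₁ τ ψ μ ν h1 h2 h3 h4 h5 h6 h7 h8).trans (mul_le_mul_of_nonneg_left ?_ hC₁)
      refine add_le_add (add_le_add (N_mono k.le_succ h7 h8) le_rfl) (nrm_mono aT fun x => ?_)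
      rw [abs_of_nonneg (lin_Th_nonneg _ _ _ _ _)]
      exact lin_Th_mono _ _ _ _ _
    have hstep : ∀ a, nrm (σ + 1) (J2 k (pd a ψ)) ≤
        C₂ * (2 + 2 ^ k * (|K| * C₁ + 1) + C₃ * C₁) * A := by
      intro a
      have e : Top τ (l - 1) (pd a ψ) = pd a (Top τ l ψ) - con (pdM a τ) ψ := by
        rw [pd_Top, add_sub_cancel_right]
      have s1 : Sym (max (ν - 1) (μ - 3)) (Top τ (l - 1) (pd a ψ)) := by
        rw [e]
        exact ((h7.pd a).mono (le_max_left _ _)).sub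
          ((h5.con (h3.pdM a)).mono (le_trans (by linarith) (le_max_right _ _)))
      have s2 : max (ν - 1) (μ - 3) + (σ + 1) < -(n : ℝ) / 2 := by
        rcases max_choice (ν - 1) (μ - 3) with h | h <;> rw [h] <;> linarith
      refine (H₂ τ (pd a ψ) (μ - 1) _ h1 h2 h3 h4 (h5.pd a) (by linarith) s1 s2).trans ?_
      rw [mul_assoc]
      refine mul_le_mul_of_nonneg_left ?_ hC₂
      have b1 : N k (σ + 1) (Top τ (l - 1) (pd a ψ)) ≤ N (k + 1) σ (Top τ l ψ) +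
          2 ^ k * (|K| * nrm σ (J2 k ψ) + nrm σ (Th m (k + 1) τ ψ)) := by
        have a1 := ((aJ.const_mul |K|).add aT).const_mul (2 ^ k)
        rw [N, ← nrm_r_mul]
        refine (nrm_mono (aF.add a1) fun x => ?_).trans ((nrm_add_le aF a1).trans ?_)
        · rw [abs_of_nonneg (mul_nonneg (r_pos x).le (J_nonneg _ _ _)), e]
          refine (mul_le_mul_of_nonneg_left (J_sub_le _ _ _ _) (r_pos x).le).trans ?_
          rw [mul_add]
          exact add_le_add (J_pd_le _ _ _ _) (lin_con_le m k a ψ ((h4 x).trans (le_abs_self K)))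
        · refine add_le_add le_rfl ?_
          rw [nrm_const_mul, abs_of_nonneg (by positivity)]
          refine mul_le_mul_of_nonneg_left ((nrm_add_le (aJ.const_mul |K|) aT).trans ?_)
            (by positivity)
          rw [nrm_const_mul, abs_abs]
      have b2 : Gn (pd a ψ) ≤ C₃ * nrm σ (J2 k ψ) :=
        H₃ _ _ aJ fun x => (abs_le_J k _ x).trans (lin_J_le_J2 k a ψ x)
      have b3 : nrm (σ + 1) (Th m k τ (pd a ψ)) ≤ nrm σ (Th m (k + 1) τ ψ) := by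
        rw [← nrm_r_mul]
        refine nrm_mono aT fun x => ?_
        rw [abs_of_nonneg (mul_nonneg (r_pos x).le (lin_Th_nonneg _ _ _ _ _))]
        exact lin_Th_pd _ _ _ _ _ _
      have b4 := mul_le_mul_of_nonneg_left hG hC₃
      have b5 := mul_le_mul_of_nonneg_left hG (abs_nonneg K)
      have b6 : |K| * nrm σ (J2 k ψ) + nrm σ (Th m (k + 1) τ ψ) ≤ (|K| * C₁ + 1) * A := by
        linarith
      have b7 := mul_le_mul_of_nonneg_left b6 (by positivity : (0 : ℝ) ≤ 2 ^ k)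
      linarith
    have aS : ∀ a, Adm (σ + 1) (J2 k (pd a ψ)) := fun a => (h5.pd a).adm_J2 (by linarith) k
    have aR := (Adm.sum Finset.univ fun a _ => aS a).r_mul
    calc nrm σ (J2 (k + 1) ψ) ≤ nrm σ (fun x => J2 k ψ x + r x * ∑ a, J2 k (pd a ψ) x) := by
          refine nrm_mono (aJ.add aR) fun x => ?_
          rw [abs_of_nonneg (lin_J2_nonneg _ _ _), J2_succ]
          exact add_le_add (lin_d_le_J2 _ _ _) le_rfl
      _ ≤ C₁ * A + ∑ a, nrm (σ + 1) (J2 k (pd a ψ)) := by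
          refine (nrm_add_le aJ aR).trans (add_le_add hG ?_)
          rw [nrm_r_mul]
          exact nrm_sum_le _ fun a _ => aS a
      _ ≤ C₁ * A + ∑ _a : Fin n, C₂ * (2 + 2 ^ k * (|K| * C₁ + 1) + C₃ * C₁) * A :=
          add_le_add le_rfl (Finset.sum_le_sum fun a _ => hstep a)
      _ = _ := by
          rw [Finset.sum_const, Finset.card_univ, Fintype.card_fin, nsmul_eq_mul]
          ring

theorem lin_adm_J2 {ψ : Sm n} (hψ : Sym (9 / 8) ψ) (k : ℕ) : Adm (σ0 n) (J2 k ψ) :=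
  hψ.adm_J2 (by unfold σ0; linarith) k

theorem lin_embed (n p : ℕ) : ∃ C, 0 ≤ C ∧ ∀ ψ : Sm n, Sym (9 / 8) ψ → ∀ a b x,
    J p (hess ψ a b) x ≤ C * nrm (σ0 n) (J2 (p + 1 + n) ψ) := by
  obtain ⟨C, hC0, hC⟩ := embed_J n (p + 1) (σ0 n)
  refine ⟨C, hC0, fun ψ hψ a b x => ?_⟩
  have h1 := hC _ _ (hψ.pd b) (by unfold σ0; linarith) x
  have h2 : N (p + 1 + n) (σ0 n) (pd b ψ) ≤ nrm (σ0 n) (J2 (p + 1 + n) ψ) :=
    nrm_mono (lin_adm_J2 hψ _) fun x => by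
      rw [abs_of_nonneg (J_nonneg _ _ _)]
      exact lin_J_le_J2 _ _ _ _
  have h3 : 1 ≤ r x * r x ^ (σ0 n + n / 2) := by
    rw [mul_comm, ← Real.rpow_add_one (r_pos x).ne']
    exact Real.one_le_rpow (one_le_r x) (by unfold σ0; linarith)
  have h4 := mul_le_mul_of_nonneg_right (J_pd_le p a (pd b ψ) x) (r_rpow_pos x (σ0 n + n / 2)).le
  have h5 := mul_le_mul_of_nonneg_left h3 (J_nonneg p (pd a (pd b ψ)) x)
  have h6 := mul_le_mul_of_nonneg_left h2 hC0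
  rw [hess_apply]
  linarith

theorem lin_G (n : ℕ) {c : ℝ} (hc : 0 < c) (K : ℝ) {l : ℝ} (hl : l ≤ 1) (k : ℕ) (hk : k ≤ 2 * n + 3) :
    ∃ C, 0 ≤ C ∧ ∀ (τ : Mat n) (ψ : Sm n), τᵀ = τ → Low c τ → SymM 0 τ → YM K τ →
      Sym (9 / 8) ψ → Sym 0 (Top τ l ψ) →
      nrm (σ0 n) (J2 k ψ) ≤ C * (Y (Top τ l ψ) + Gn ψ) := by
  have key : ∀ k ≤ 2 * n + 3, ∃ C, 0 ≤ C ∧ ∀ (τ : Mat n) (ψ : Sm n), τᵀ = τ → Low c τ → SymM 0 τ →
      YM K τ → Sym (9 / 8) ψ → Sym 0 (Top τ l ψ) → nrm (σ0 n) (J2 k ψ) ≤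
        C * (Y (Top τ l ψ) + Gn ψ + nrm (σ0 n) (Th (n + 1) k τ ψ)) := by
    intro k hk
    obtain ⟨C, hC0, hC⟩ := lin_tame n hc ((n : ℝ) ^ 2 * K) (m := n + 1) (by omega) k (l := l)
      (σ := σ0 n) (by unfold σ0; linarith)
    refine ⟨C, hC0, fun τ ψ h1 h2 h3 h4 h5 h6 => ?_⟩
    have h7 : 0 + σ0 n < -(n : ℝ) / 2 := by rw [zero_add]; exact σ0_lt n
    refine (hC τ ψ _ _ h1 h2 h3 (h4.JM_le h3) h5 (by unfold σ0; linarith) h6 h7).trans
      (mul_le_mul_of_nonneg_left (add_le_add (add_le_add ?_ le_rfl) le_rfl) hC0)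
    exact (N_mono hk h6 h7).trans (N_le_Y _)
  induction k with
  | zero =>
    obtain ⟨C, hC0, hC⟩ := key 0 hk
    refine ⟨C, hC0, fun τ ψ h1 h2 h3 h4 h5 h6 => ?_⟩
    have := hC τ ψ h1 h2 h3 h4 h5 h6
    rwa [show Th (n + 1) 0 τ ψ = fun _ => 0 from funext (lin_Th_eq_zero (by omega) τ ψ), nrm_zero,
      add_zero] at this
  | succ k ih =>
    obtain ⟨C, hC0, hC⟩ := key (k + 1) hk
    rcases le_or_gt k n with hkn | hkn
    · refine ⟨C, hC0, fun τ ψ h1 h2 h3 h4 h5 h6 => ?_⟩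
      have := hC τ ψ h1 h2 h3 h4 h5 h6
      rwa [show Th (n + 1) (k + 1) τ ψ = fun _ => 0 from funext (lin_Th_eq_zero (by omega) τ ψ),
        nrm_zero, add_zero] at this
    obtain ⟨p, rfl⟩ : ∃ p, k = p + 1 + n := ⟨k - (n + 1), by omega⟩
    obtain ⟨C₁, hC₁, H₁⟩ := ih (by omega)
    obtain ⟨C₂, hC₂, H₂⟩ := lin_embed n p
    refine ⟨C * (1 + (n : ℝ) ^ 2 * (C₂ * C₁) * ((n : ℝ) ^ 2 * |K|)), by positivity,
      fun τ ψ h1 h2 h3 h4 h5 h6 => ?_⟩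
    refine (hC τ ψ h1 h2 h3 h4 h5 h6).trans ?_
    rw [mul_assoc]
    refine mul_le_mul_of_nonneg_left ?_ hC0
    have hA : 0 ≤ Y (Top τ l ψ) + Gn ψ := add_nonneg (Y_nonneg _) (Real.sqrt_nonneg _)
    set A := Y (Top τ l ψ) + Gn ψ
    have b1 : ∀ x, JM p (hess ψ) x ≤ (n : ℝ) ^ 2 * (C₂ * (C₁ * A)) := fun x =>
      ynorm_sum2 fun a b => (H₂ ψ h5 a b x).trans
        (mul_le_mul_of_nonneg_left (H₁ τ ψ h1 h2 h3 h4 h5 h6) hC₂)
    have b2 : nrm (σ0 n) (Th (n + 1) (p + 1 + n + 1) τ ψ) ≤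
        (n : ℝ) ^ 2 * (C₂ * (C₁ * A)) * ((n : ℝ) ^ 2 * |K|) := by
      have a1 : Adm (σ0 n) (JM (2 * n + 3) τ) := h3.adm_JM (by rw [zero_add]; exact σ0_lt n) _
      refine (nrm_mono (a1.const_mul ((n : ℝ) ^ 2 * (C₂ * (C₁ * A)))) fun x => ?_).trans ?_
      · rw [abs_of_nonneg (lin_Th_nonneg _ _ _ _ _), mul_comm]
        exact (lin_Th_le (p := p) (by omega) τ ψ x).trans
          (mul_le_mul (JM_mono hk τ x) (b1 x) (JM_nonneg _ _ _) (JM_nonneg _ _ _))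
      · rw [nrm_const_mul, abs_of_nonneg (by positivity)]
        exact mul_le_mul_of_nonneg_left ((h4.nrm_JM_le h3).trans
          (mul_le_mul_of_nonneg_left (le_abs_self K) (by positivity))) (by positivity)
    linarith

/-- With `m = n+1`, `σ = σ0 n`, `μ = 9/8`, `ν = 0`, `G k = nrm σ0 (J2 k ψ)`: by `embed_J` for `∂_aψ`,
`r^j d_{j+2}ψ ≤ r⁻¹ ∑_a J (j+1) (∂_aψ) ≤ C r^{-1/4} G (j+1+n)`. Hence `Th (n+1) k ≤ C G (k-1) · JM k τ`
for `k ≤ 2n+3` (it vanishes for `k ≤ n+1`; otherwise `j ≤ k-n-2`), so `G k ≤ C (Y f + Gn ψ)` by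
induction on `k ≤ 2n+3`; the sup part of `Y` again by `embed_J` (`j ≤ n+1`). -/
theorem lin_Y (n : ℕ) {c : ℝ} (hc : 0 < c) (K : ℝ) {l : ℝ} (hl : l ≤ 1) :
    ∃ C, 0 ≤ C ∧ ∀ (τ : Mat n) (ψ : Sm n), τᵀ = τ → Low c τ → SymM 0 τ → YM K τ →
      Sym (9 / 8) ψ → Sym 0 (Top τ l ψ) → YM (C * (Y (Top τ l ψ) + Gn ψ)) (hess ψ) := by
  obtain ⟨C₁, hC₁, H₁⟩ := lin_G n hc K hl (2 * n + 3) le_rfl
  obtain ⟨C₂, hC₂, H₂⟩ := lin_G n hc K hl (n + 1 + 1 + n) (by omega)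
  obtain ⟨C₃, hC₃, H₃⟩ := lin_embed n (n + 1)
  refine ⟨C₁ + C₃ * C₂, by positivity, fun τ ψ h1 h2 h3 h4 h5 h6 a b => ?_⟩
  rw [add_mul, mul_assoc]
  refine Y_le (le_trans ?_ (H₁ τ ψ h1 h2 h3 h4 h5 h6)) fun x => (H₃ ψ h5 a b x).trans
    (mul_le_mul_of_nonneg_left (H₂ τ ψ h1 h2 h3 h4 h5 h6) hC₃)
  refine nrm_mono (lin_adm_J2 h5 _) fun x => ?_
  rw [abs_of_nonneg (J_nonneg _ _ _)]
  exact (J_le_JM _ _ a b x).trans (lin_JM_le_J2 _ _ _)

end Crest.Agent.R238
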