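import Crest.Agent.R238.Bern1
import Crest.Agent.R238.Bern2
import Crest.Agent.R238.C2
import Crest.Agent.R238.Calabi
import Crest.Agent.R238.Lin

/-!
# Row 238: the full a priori estimate
-/

set_option autoImplicit false
open MeasureTheory Matrix
open scoped ContDiff BigOperators

noncomputable section
namespace Crest.Agent.R238

variable {n : ℕ}

theorem nl_ind (n : ℕ) {c : ℝ} (hc : 0 < c) {K : ℝ} (l : ℕ) : ∃ C, K ≤ C ∧ ∀ D : KE n,
    Ell c K D.τ → (∀ i < 2, ∀ x, d (i + 2) D.ζ x ≤ K * r x ^ (-1 / 2 - (i : ℝ))) →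
    (∀ i < l + 2, ∀ x, d (i + 2) D.V x ≤ K * r x ^ (-1 / 2 - (i : ℝ))) →
    ∀ i < l + 2, ∀ x, d (i + 2) D.ζ x ≤ C * r x ^ (-1 / 2 - (i : ℝ)) := by
  induction l with
  | zero => exact ⟨K, le_rfl, fun D _ h _ => h⟩
  | succ l ih =>
    obtain ⟨C, hC, h⟩ := ih
    obtain ⟨C', hC', h'⟩ := bern_step n hc C (show 2 ≤ l + 2 by omega)
    refine ⟨max C C', hC.trans (le_max_left _ _), fun D hE h1 h2 i hi x => ?_⟩
    have h3 := h D hE h1 fun i hi => h2 i (by omega)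
    rcases Nat.lt_succ_iff_lt_or_eq.1 hi with h4 | rfl
    · exact (h3 i h4 x).trans
        (mul_le_mul_of_nonneg_right (le_max_left _ _) (r_rpow_pos x _).le)
    · exact (h' D (hE.mono le_rfl hC) h3 (fun i hi x => (h2 i (by omega) x).trans
        (mul_le_mul_of_nonneg_right hC (r_rpow_pos x _).le)) x).trans
        (mul_le_mul_of_nonneg_right (le_max_right _ _) (r_rpow_pos x _).le)

theorem nl_le_of_rpow {a K s : ℝ} {x : E n} (hK : 0 ≤ K) (hs : s ≤ 0) (h : a ≤ K * r x ^ s) :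
    a ≤ K := h.trans (mul_le_of_le_one_right hK (r_rpow_le_one x hs))

/-- `d_le_Y` bounds `d (i+2) V ≤ C K r^{-1/2-i}` for `i ≤ n+1` (and `d 2 V`, `d 3 V ≤ C K`); then
`c2_bounds`, `c2_decay`, `calabi`, `bern_one`, and `bern_step` by induction on `l ≤ n+1` (enlarging the
constant at each step with `Ell.mono`). -/
theorem apriori_sup (n : ℕ) {ε : ℝ} (hε : 0 < ε) (K : ℝ) : ∃ c K', 0 < c ∧ 0 ≤ K' ∧ ∀ D : KE n,
    Low ε D.H → Y D.V ≤ K → Ell c K' D.τ ∧ Ell c K' D.g ∧ ∀ x, JM (n + 1) (hess D.ζ) x ≤ K' := by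
  obtain ⟨C₀, hC₀, h₀⟩ := d_le_Y n
  obtain ⟨K₁, hK₁, hV⟩ : ∃ K₁, 0 ≤ K₁ ∧ ∀ D : KE n, Y D.V ≤ K →
      ∀ i < n + 2, ∀ x, d (i + 2) D.V x ≤ K₁ * r x ^ (-1 / 2 - (i : ℝ)) := by
    refine ⟨C₀ * |K|, by positivity, fun D hD i hi x => (h₀ _ D.symV _ (by omega) x).trans ?_⟩
    refine mul_le_mul (mul_le_mul_of_nonneg_left (hD.trans (le_abs_self K)) hC₀)
      (r_rpow_mono x ?_) (r_rpow_pos x _).le (by positivity)
    push_cast
    linarith
  obtain ⟨c, K₂, hc, hK₂, h₂⟩ := c2_bounds n hε K₁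
  obtain ⟨C₂, hC₂, h₃⟩ := c2_decay n (K₁ + K₂)
  obtain ⟨C₃, hC₃, h₄⟩ := calabi n hc (K₁ + K₂)
  obtain ⟨C₄, hC₄, h₅⟩ := bern_one n hc (K₁ + K₂ + C₂ + C₃)
  obtain ⟨C₅, hC₅, h₆⟩ := nl_ind n hc (K := K₁ + K₂ + C₂ + C₄) n
  have hC₅0 : 0 ≤ C₅ := by linarith
  refine ⟨c, K₂ + ((n : ℝ) + 2) * C₅, hc, by positivity, fun D hH hY => ?_⟩
  have hle : ∀ {a A B s : ℝ} {x : E n}, a ≤ A * r x ^ s → A ≤ B → a ≤ B * r x ^ s :=
    fun h1 h2 => h1.trans (mul_le_mul_of_nonneg_right h2 (r_rpow_pos _ _).le)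
  have v2 : ∀ x, d 2 D.V x ≤ K₁ * r x ^ (-1 / 2 : ℝ) := fun x => by
    simpa using hV D hY 0 (by omega) x
  have v3 : ∀ x, d 3 D.V x ≤ K₁ * r x ^ (-3 / 2 : ℝ) := fun x => by
    have h1 := hV D hY 1 (by omega) x
    rwa [show (-1 / 2 - ((1 : ℕ) : ℝ)) = -3 / 2 by norm_num] at h1
  obtain ⟨eτ, eg⟩ := h₂ D hH fun x => nl_le_of_rpow hK₁ (by norm_num) (v2 x)
  have z2 := h₃ D (eτ.mono hc.le (by linarith)) (eg.mono hc.le (by linarith))
    fun x => hle (v2 x) (by linarith)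
  have z3 := h₄ D (eg.mono le_rfl (by linarith)) (hH.mono hε.le)
    fun x => (nl_le_of_rpow hK₁ (by norm_num) (v3 x)).trans (by linarith)
  have z4 := h₅ D (eτ.mono le_rfl (by linarith)) (fun x => hle (z2 x) (by linarith))
    (fun x => (z3 x).trans (by linarith)) (fun x => hle (v2 x) (by linarith))
    (fun x => hle (v3 x) (by linarith))
  have z5 := h₆ D (eτ.mono le_rfl (by linarith)) (fun i hi x => ?_)
    (fun i hi x => hle (hV D hY i hi x) (by linarith))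
  · have hp : 0 ≤ ((n : ℝ) + 2) * C₅ := by positivity
    refine ⟨eτ.mono le_rfl (by linarith), eg.mono le_rfl (by linarith), fun x => ?_⟩
    refine le_trans ?_ (le_add_of_nonneg_left hK₂)
    rw [JM_eq]
    refine (Finset.sum_le_card_nsmul _ _ C₅ fun i hi => ?_).trans (le_of_eq ?_)
    · rw [dM_hess]
      refine nl_le_of_rpow (x := x) (s := -1 / 2) hC₅0 (by norm_num) ?_
      calc _ ≤ r x ^ i * (C₅ * r x ^ (-1 / 2 - (i : ℝ))) :=
            mul_le_mul_of_nonneg_left (z5 i (Finset.mem_range.1 hi) x) (pow_pos (r_pos x) i).le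
        _ = C₅ * (r x ^ (i : ℝ) * r x ^ (-1 / 2 - (i : ℝ))) := by rw [Real.rpow_natCast]; ring
        _ = _ := by rw [← r_rpow_add]; congr 2; ring
    · rw [Finset.card_range, nsmul_eq_mul]
      push_cast
      ring
  · interval_cases i
    · simpa using hle (z2 x) (show C₂ ≤ K₁ + K₂ + C₂ + C₄ by linarith)
    · rw [show (-1 / 2 - ((1 : ℕ) : ℝ)) = -3 / 2 by norm_num]
      exact hle (z4 x) (by linarith)

theorem nl_JM_one_add (k : ℕ) (A : Mat n) (x : E n) :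
    JM k (1 + A) x ≤ (n : ℝ) ^ 2 * 1 + JM k A x := by
  have h1 : JM k (1 : Mat n) x ≤ (n : ℝ) ^ 2 * 1 := ynorm_sum2 fun a b => by
    rw [Matrix.one_apply]
    split_ifs
    · exact (J_one k x).le
    · rw [J_zero]; exact zero_le_one
  refine le_trans ?_ (add_le_add h1 le_rfl)
  unfold JM
  simp only [← Finset.sum_add_distrib]
  exact Finset.sum_le_sum fun a _ => Finset.sum_le_sum fun b _ => J_add_le k _ _ x

theorem nl_JM_succ (k : ℕ) (f : Sm n) (x : E n) :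
    JM (k + 1) (hess f) x ≤ JM 0 (hess f) x + ∑ e, r x * J2 k (pd e f) x := by
  have h1 : JM (k + 1) (hess f) x = JM 0 (hess f) x + ∑ e, r x * JM k (hess (pd e f)) x := by
    simp only [← pdM_hess]
    unfold JM
    simp only [J_succ, J_zero_eq, Finset.sum_add_distrib, Finset.mul_sum, pdM_apply]
    congr 1
    rw [Finset.sum_congr rfl fun a _ => Finset.sum_comm, Finset.sum_comm]
  rw [h1]
  refine add_le_add le_rfl (Finset.sum_le_sum fun e _ => ?_)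
  refine mul_le_mul_of_nonneg_left ?_ (r_pos x).le
  rw [J2_eq]
  exact le_add_of_nonneg_right (Finset.sum_nonneg fun a _ => J_nonneg _ _ _)

theorem nl_Th_le {k : ℕ} (hk : k ≤ 2 * n + 2) (τ : Mat n) (f : Sm n) (e : Fin n) (x : E n) {K : ℝ}
    (h : JM (n + 1) (hess f) x ≤ K) :
    |r x * Th (n + 1) k τ (pd e f) x| ≤ ((k : ℝ) + 1) * K * JM k τ x := by
  have hK : 0 ≤ K := (JM_nonneg _ _ _).trans h
  have hr := r_pos x
  have h0 : 0 ≤ Th (n + 1) k τ (pd e f) x :=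
    Finset.sum_nonneg fun i _ => Finset.sum_nonneg fun j _ => by
      have := dM_nonneg i τ x
      have := d_nonneg (j + 2) (pd e f) x
      split_ifs
      · positivity
      · exact le_rfl
  rw [abs_of_nonneg (by positivity), Th, JM_eq, Finset.mul_sum, Finset.mul_sum]
  refine Finset.sum_le_sum fun i _ => ?_
  have h1 := dM_nonneg i τ x
  rw [Finset.mul_sum]
  refine (Finset.sum_le_card_nsmul _ _ (K * (r x ^ i * dM i τ x)) fun j _ => ?_).trans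
    (le_of_eq ?_)
  · split_ifs with hij
    · have h2 : r x ^ (j + 1) * d (j + 2) (pd e f) x ≤ K := by
        refine le_trans ?_ ((dM_le_JM (show j + 1 ≤ n + 1 by omega) (hess f) x).trans h)
        rw [dM_hess]
        exact mul_le_mul_of_nonneg_left (d_pd_le _ _ _ _) (by positivity)
      calc _ = r x ^ (j + 1) * d (j + 2) (pd e f) x * (r x ^ i * dM i τ x) := by ring
        _ ≤ _ := by gcongr
    · rw [mul_zero]
      positivity
  · rw [Finset.card_range, nsmul_eq_mul]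
    push_cast
    ring

theorem nl_L2 (n : ℕ) {c : ℝ} (hc : 0 < c) {K : ℝ} (hK : 0 ≤ K) (k : ℕ) (hk : k ≤ 2 * n + 3) :
    ∃ C, 0 ≤ C ∧ ∀ D : KE n, Ell c K D.τ →
    Y D.V ≤ K → (∀ x, JM (n + 1) (hess D.ζ) x ≤ K) → nrm (σ0 n) (JM k (hess D.ζ)) ≤ C := by
  have hσ := σ0_lt n
  induction k with
  | zero =>
    refine ⟨nrm (σ0 n) (fun _ : E n => K), nrm_nonneg _ _, fun D _ _ hA => ?_⟩
    refine nrm_mono (adm_const hσ K) fun x => ?_
    rw [abs_of_nonneg (JM_nonneg _ _ _)]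
    exact (JM_mono (Nat.zero_le _) _ _).trans (hA x)
  | succ k ih =>
    obtain ⟨C₀, hC₀, ih⟩ := ih (by omega)
    obtain ⟨C₁, hC₁, h₁⟩ := JM_inv_le ((n : ℝ) ^ 2 * K + ((n : ℝ) ^ 2 * 1 + K)) (n + 1) (n + 1)
      (by omega)
    obtain ⟨C₂, hC₂, h₂⟩ := JM_inv_le ((n : ℝ) ^ 2 * K + ((n : ℝ) ^ 2 * 1 + K)) (n + 1) k
      (by omega)
    obtain ⟨C₃, hC₃, h₃⟩ := lin_tame n hc (C₁ * (1 + ((n : ℝ) ^ 2 * 1 + K)))
      (show 1 ≤ n + 1 by omega) k (l := 0) (σ := σ0 n + 1) (by unfold σ0; linarith)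
    obtain ⟨C₄, hC₄, h₄⟩ := Gn_le_of_le_rpow n 1
    obtain ⟨B, hB, hB'⟩ : ∃ B : ℝ, 0 ≤ B ∧ B = ((k : ℝ) + 1) * K * C₂ := ⟨_, by positivity, rfl⟩
    refine ⟨nrm (σ0 n) (fun _ : E n => K) + n * (C₃ * (K + C₄ * K +
      (nrm (σ0 n) (fun _ : E n => B * (1 + (n : ℝ) ^ 2 * 1)) + B * C₀))), ?_,
      fun D hE hV hA => ?_⟩
    · have := nrm_nonneg (σ0 n) (fun _ : E n => K)
      have := nrm_nonneg (σ0 n) (fun _ : E n => B * (1 + (n : ℝ) ^ 2 * 1))
      positivity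
    have hτ0 : ∀ x, dM 0 D.τ x ≤ (n : ℝ) ^ 2 * K + ((n : ℝ) ^ 2 * 1 + K) := fun x =>
      (hE.dM_zero_le x).trans (le_add_of_nonneg_right (by positivity))
    have hg : ∀ x, JM (n + 1) D.g x ≤ (n : ℝ) ^ 2 * 1 + K := fun x =>
      (nl_JM_one_add _ _ x).trans (add_le_add le_rfl (hA x))
    have hg' : ∀ x, JM (n + 1) D.g x ≤ (n : ℝ) ^ 2 * K + ((n : ℝ) ^ 2 * 1 + K) := fun x =>
      (hg x).trans (le_add_of_nonneg_left (by positivity))
    have hτ : ∀ x, JM (n + 1) D.τ x ≤ C₁ * (1 + ((n : ℝ) ^ 2 * 1 + K)) := fun x =>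
      (h₁ D.τ D.g x D.τg (hτ0 x) (hg' x)).trans
        (mul_le_mul_of_nonneg_left (add_le_add le_rfl (hg x)) hC₁)
    have hadm : ∀ e, Adm (σ0 n) fun x => r x * J2 k (pd e D.ζ) x := fun e =>
      ((D.symζ.pd e).adm_J2 (by unfold σ0; linarith) k).r_mul
    have hAa : Adm (σ0 n) (JM k (hess D.ζ)) := D.symA.adm_JM (by linarith) k
    have hmain : ∀ e, nrm (σ0 n) (fun x => r x * J2 k (pd e D.ζ) x) ≤ C₃ * (K + C₄ * K +
        (nrm (σ0 n) (fun _ : E n => B * (1 + (n : ℝ) ^ 2 * 1)) + B * C₀)) := by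
      intro e
      have hT : Top D.τ 0 (pd e D.ζ) = -pd e D.V := by rw [Top_zero_eq, D.L_pd]
      rw [nrm_r_mul]
      refine (h₃ D.τ (pd e D.ζ) _ (0 - 1) hE.symm hE.low D.sym0τ hτ (D.symζ.pd e)
        (by unfold σ0; linarith) (hT ▸ (D.symV.pd e).neg) (by linarith)).trans ?_
      refine mul_le_mul_of_nonneg_left (add_le_add (add_le_add ?_ ?_) ?_) hC₃
      · have h5 : N k (σ0 n + 1) (-pd e D.V) = N k (σ0 n + 1) (pd e D.V) := by
          unfold N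
          rw [show J k (-pd e D.V) = J k (pd e D.V) from funext fun x => J_neg _ _ x]
        rw [hT, h5]
        exact (N_pd_le k e D.symV (by linarith)).trans
          ((N_mono hk D.symV (by linarith)).trans ((N_le_Y _).trans hV))
      · refine h₄ _ _ fun x => ?_
        have h5 := abs_sub_le_of_d_one (f := pd e D.ζ) (K := K) (fun y => ?_) x
        · rwa [(D.evζ.pd e).ev_zero, sub_zero, ← Real.rpow_one (r x)] at h5
        · have h6 := (dM_le_JM (Nat.zero_le (n + 1)) (hess D.ζ) y).trans (hA y)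
          rw [pow_zero, one_mul, dM_hess] at h6
          exact (d_pd_le _ _ _ _).trans h6
      · rw [← nrm_r_mul]
        refine (nrm_mono ((adm_const hσ (B * (1 + (n : ℝ) ^ 2 * 1))).add (hAa.const_mul B))
          fun x => ?_).trans ((nrm_add_le (adm_const hσ _) (hAa.const_mul B)).trans ?_)
        · refine (nl_Th_le (by omega) D.τ D.ζ e x (hA x)).trans ?_
          have h5 : JM k D.τ x ≤ C₂ * (1 + ((n : ℝ) ^ 2 * 1 + JM k (hess D.ζ) x)) :=
            (h₂ D.τ D.g x D.τg (hτ0 x) (hg' x)).trans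
              (mul_le_mul_of_nonneg_left (add_le_add le_rfl (nl_JM_one_add _ _ x)) hC₂)
          refine (mul_le_mul_of_nonneg_left h5 (by positivity)).trans (le_of_eq ?_)
          rw [hB']
          ring
        · rw [nrm_const_mul _ B (JM k (hess D.ζ)), abs_of_nonneg hB]
          exact add_le_add le_rfl (mul_le_mul_of_nonneg_left (ih D hE hV hA) hB)
    have hs := Adm.sum Finset.univ fun e _ => hadm e
    refine (nrm_mono ((adm_const hσ K).add hs) fun x => ?_).trans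
      ((nrm_add_le (adm_const hσ K) hs).trans (add_le_add le_rfl ?_))
    · rw [abs_of_nonneg (JM_nonneg _ _ _)]
      exact (nl_JM_succ k _ x).trans
        (add_le_add ((JM_mono (Nat.zero_le _) _ _).trans (hA x)) le_rfl)
    · refine (nrm_sum_le _ fun e _ => hadm e).trans
        ((Finset.sum_le_card_nsmul _ _ _ fun e _ => hmain e).trans (le_of_eq ?_))
      rw [Finset.card_univ, Fintype.card_fin, nsmul_eq_mul]

/-- Bootstrapping `nrm σ0 (JM k (hess ζ)) ≤ C` for `k ≤ 2n+3` by induction. `JM (n+1) τ ≤ C` by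
`JM_inv_le`. Step `k → k+1`: `JM (k+1) A ≤ JM 0 A + r ∑_e JM k (hess ζ_e)` (`J_succ`, `pdM_hess`),
`lin_tame` for `ψ = ζ_e ∈ Sym (1/8)`, `l = 0`, `σ = σ0 + 1`, `m = n+1`, `Top τ 0 ζ_e = -V_e ∈ Sym (-1)`;
`N k (σ0+1) V_e ≤ N (k+1) σ0 V ≤ Y V`; `Gn ζ_e ≤ C` (`ζ_e` is odd, `abs_sub_le_of_d_one`,
`Gn_le_of_le_rpow`); `r Th (n+1) k τ ζ_e ≤ C JM k τ ≤ C (1 + JM k g)` because there
`j + 1 ≤ k - (n+1) ≤ n+1` and `r^{j+1} d (j+3) ζ ≤ JM (n+1) A`. -/
theorem apriori_L2 (n : ℕ) {c : ℝ} (hc : 0 < c) (K : ℝ) : ∃ C, 0 ≤ C ∧ ∀ D : KE n, Ell c K D.τ →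
    Y D.V ≤ K → (∀ x, JM (n + 1) (hess D.ζ) x ≤ K) →
    nrm (σ0 n) (JM (2 * n + 3) (hess D.ζ)) ≤ C := by
  rcases lt_or_ge K 0 with hK | hK
  · exact ⟨0, le_rfl, fun D _ hV _ => absurd ((Y_nonneg _).trans hV) (not_le.2 hK)⟩
  · exact nl_L2 n hc hK _ le_rfl

theorem apriori (n : ℕ) {ε : ℝ} (hε : 0 < ε) (K : ℝ) : ∃ c K', 0 < c ∧ 0 ≤ K' ∧ ∀ D : KE n,
    Low ε D.H → Y D.V ≤ K → Low c D.τ ∧ Low c D.g ∧ YM K' D.τ ∧ YM K' (hess D.ζ) := by
  obtain ⟨c, K₁, hc, hK₁, h₁⟩ := apriori_sup n hε K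
  obtain ⟨C, hC, h₂⟩ := apriori_L2 n hc (max K K₁)
  obtain ⟨C₁, hC₁, h₃⟩ := YM_one n
  obtain ⟨C₂, hC₂, h₄⟩ := inv_YM n hc (C₁ + (C + K₁))
  refine ⟨c, C₂ + (C + K₁), hc, by positivity, fun D hH hV => ?_⟩
  obtain ⟨eτ, eg, hA⟩ := h₁ D hH hV
  have h5 := h₂ D (eτ.mono le_rfl (le_max_right _ _)) (hV.trans (le_max_left _ _))
    fun x => (hA x).trans (le_max_right _ _)
  have h6 : YM (C + K₁) (hess D.ζ) := fun a b => by
    refine Y_le (le_trans ?_ h5) fun x => (J_le_JM _ _ a b x).trans (hA x)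
    refine nrm_mono (D.symA.adm_JM (by linarith [σ0_lt n]) _) fun x => ?_
    rw [ynorm_abs_J]
    exact J_le_JM _ _ a b x
  have h7 : YM (C₁ + (C + K₁)) D.g := fun a b =>
    (Y_add_le (symM_one a b) ((D.symA.mono (by norm_num)) a b)).trans
      (add_le_add (h₃ a b) (h6 a b))
  have h8 := h₄ D.τ D.g D.g_symm D.τg eg.low D.sym0g h7
  exact ⟨eτ.low, eg.low, fun a b => (h8 a b).trans (by linarith),
    fun a b => (h6 a b).trans (by linarith)⟩

end Crest.Agent.R238
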