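import Crest.Agent.R238.MehlerB
import Crest.Agent.R238.Lin
import Crest.Agent.R238.MaxP

/-!
# Row 238: the continuity method for the linear equation
-/

set_option autoImplicit false
open MeasureTheory Matrix
open scoped ContDiff BigOperators

noncomputable section
namespace Crest.Agent.R238

variable {n : ℕ}

theorem solv_one_one : Solv (1 : Mat n) 1 True := by
  intro f hf he η hη
  obtain ⟨ψ, h1, h2, h3⟩ := mehler_one hf (he trivial)
  exact ⟨ψ, h1, fun _ => h2, h3 ▸ hf, by rw [h3, sub_self, Y_zero]; exact hη.le⟩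

theorem solv_one_neg {δ : ℝ} (hδ : 0 < δ) : Solv (1 : Mat n) (-δ) False := by
  intro f hf _ η hη
  obtain ⟨ψ, h1, h3⟩ := mehler_neg hδ hf
  exact ⟨ψ, h1.mono (by norm_num), False.elim, h3 ▸ hf,
    by rw [h3, sub_self, Y_zero]; exact hη.le⟩

/-- Neumann iteration. Claim: for all `j` and all admissible `f` there is an admissible `ψ` with
`Y (T'ψ - f) ≤ (3/4)^j Y f`. One step: if `Y f = 0` take `ψ = 0`; otherwise solve `Y (Tψ - f) ≤ Y f / 8`,
then `Y (T'ψ - f) ≤ Y f / 8 + (Y f + Y f / 8) / 2` (`Top_sub_Top`); apply the hypothesis to `f - T'ψ`. -/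
theorem solv_step {τ τ' : Mat n} {l : ℝ} {e : Prop} (hs : SymM 0 (τ' - τ))
    (he : e → ∀ a b, IsEv (τ' a b))
    (hsmall : ∀ ψ : Sm n, Sym (9 / 8) ψ → (e → IsEv ψ) → Sym 0 (Top τ l ψ) →
      Y (con (τ' - τ) ψ) ≤ Y (Top τ l ψ) / 2)
    (h : Solv τ l e) : Solv τ' l e := by
  have one : ∀ f : Sm n, Sym 0 f → (e → IsEv f) → ∃ ψ : Sm n, Sym (9 / 8) ψ ∧ (e → IsEv ψ) ∧
      Sym 0 (Top τ' l ψ) ∧ Y (Top τ' l ψ - f) ≤ 3 / 4 * Y f := by
    intro f hf hef
    rcases (Y_nonneg f).eq_or_lt with h0 | h0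
    · refine ⟨0, sym_zero _, fun _ => isEv_zero, by rw [Top_zero]; exact sym_zero _, ?_⟩
      rw [Top_zero, zero_sub, Y_neg, ← h0]
      norm_num
    · obtain ⟨ψ, h1, h2, h3, h4⟩ := h f hf hef (Y f / 8) (by positivity)
      have hc : Sym 0 (con (τ' - τ) ψ) := (Sym.con hs h1).mono (by norm_num)
      have e1 : Top τ' l ψ = Top τ l ψ + con (τ' - τ) ψ := by rw [← Top_sub_Top τ τ' l]; ring
      refine ⟨ψ, h1, h2, e1 ▸ h3.add hc, ?_⟩
      have e2 : Top τ' l ψ - f = (Top τ l ψ - f) + con (τ' - τ) ψ := by rw [e1]; ring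
      have h5 := Y_add_le (h3.sub hf) hc
      have h6 := Y_add_le (h3.sub hf) hf
      rw [sub_add_cancel] at h6
      have h7 := hsmall ψ h1 h2 h3
      rw [e2]
      linarith
  have iter : ∀ j : ℕ, ∀ f : Sm n, Sym 0 f → (e → IsEv f) → ∃ ψ : Sm n, Sym (9 / 8) ψ ∧
      (e → IsEv ψ) ∧ Sym 0 (Top τ' l ψ) ∧ Y (Top τ' l ψ - f) ≤ (3 / 4) ^ j * Y f := by
    intro j
    induction j with
    | zero =>
      intro f hf _
      refine ⟨0, sym_zero _, fun _ => isEv_zero, by rw [Top_zero]; exact sym_zero _, ?_⟩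
      rw [Top_zero, zero_sub, Y_neg]
      simp
    | succ j ih =>
      intro f hf hef
      obtain ⟨ψ, h1, h2, h3, h4⟩ := one f hf hef
      obtain ⟨φ, g1, g2, g3, g4⟩ := ih (f - Top τ' l ψ) (hf.sub h3)
        (fun h' => (hef h').sub (IsEv.Top (he h') l (h2 h')))
      refine ⟨ψ + φ, h1.add g1, fun h' => (h2 h').add (g2 h'), by rw [Top_add]; exact h3.add g3, ?_⟩
      have e1 : Top τ' l (ψ + φ) - f = Top τ' l φ - (f - Top τ' l ψ) := by rw [Top_add]; ring
      have e2 : Y (f - Top τ' l ψ) = Y (Top τ' l ψ - f) := by rw [← Y_neg, neg_sub]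
      rw [e1, pow_succ, mul_assoc]
      refine g4.trans ?_
      rw [e2]
      exact mul_le_mul_of_nonneg_left h4 (by positivity)
  intro f hf hef η hη
  have hY := Y_nonneg f
  obtain ⟨j, hj⟩ := exists_pow_lt_of_lt_one (show 0 < η / (Y f + 1) by positivity)
    (show (3 / 4 : ℝ) < 1 by norm_num)
  obtain ⟨ψ, h1, h2, h3, h4⟩ := iter j f hf hef
  refine ⟨ψ, h1, h2, h3, h4.trans ?_⟩
  rw [lt_div_iff₀ (by positivity)] at hj
  have : (0 : ℝ) ≤ (3 / 4) ^ j := by positivity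
  nlinarith

/-- Continuation along `τ_θ = 1 + θ • (τ - 1)`, `θ = j / N`: all `τ_θ` are symmetric, `≥ min c 1`, with
bounded entries and bounded `Y` norms; `lin_Y` (`l = -δ`), `resolvent` and `Gn_le_of_le_rpow n 0` give
`YM (C Y(T_θψ)) (hess ψ)` uniformly in `θ`, and `Y_con_le` gives the smallness for large `N`. -/
theorem solv_neg {τ : Mat n} {c δ : ℝ} (hc : 0 < c) (hδ : 0 < δ) (hτ : τᵀ = τ) (hl : Low c τ)
    (hs : SymM 0 τ) : Solv τ (-δ) False := by
  set A : Mat n := τ - 1 with hA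
  have hAs : SymM 0 A := hs.sub symM_one
  obtain ⟨K0, hK0, hY0⟩ := exists_YM A
  obtain ⟨K1, hK1, hY1⟩ := exists_YM (1 : Mat n)
  have hc' : 0 < min c 1 := lt_min hc one_pos
  obtain ⟨C1, hC1, h1⟩ := lin_Y n hc' (K1 + K0) (l := -δ) (by linarith)
  obtain ⟨C2, hC2, h2⟩ := Gn_le_of_le_rpow n 0
  obtain ⟨C3, hC3, h3⟩ := Y_con_le n
  have symm : ∀ θ : ℝ, (1 + θ • A)ᵀ = 1 + θ • A := fun θ => by
    rw [transpose_add, transpose_smul, hA, transpose_sub, hτ, transpose_one]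
  have sym0 : ∀ θ : ℝ, SymM 0 (1 + θ • A) := fun θ => symM_one.add (hAs.smul θ)
  have low : ∀ θ : ℝ, 0 ≤ θ → θ ≤ 1 → Low (min c 1) (1 + θ • A) := fun θ a b x v => by
    rw [evM_add, evM_smul, hA, evM_sub, evM_one, add_mulVec, smul_mulVec, sub_mulVec, one_mulVec,
      dotProduct_add, dotProduct_smul, dotProduct_sub, smul_eq_mul]
    have e1 := hl x v
    have e2 := dot_self_nonneg v
    have e3 := mul_le_mul_of_nonneg_right (min_le_left c 1) e2
    have e4 := mul_le_mul_of_nonneg_right (min_le_right c 1) e2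
    nlinarith
  have ym : ∀ θ : ℝ, 0 ≤ θ → θ ≤ 1 → YM (K1 + K0) (1 + θ • A) := fun θ a b i j => by
    have e1 := Y_add_le (symM_one i j) ((hAs.smul θ) i j)
    have e2 : Y ((θ • A) i j) ≤ K0 := by
      rw [Matrix.smul_apply, Y_smul, abs_of_nonneg a]
      have := hY0 i j
      have := Y_nonneg (A i j)
      nlinarith
    have := hY1 i j
    rw [Matrix.add_apply]
    linarith
  have bound : ∀ θ : ℝ, 0 ≤ θ → θ ≤ 1 → ∀ ψ : Sm n, Sym (9 / 8) ψ →
      Sym 0 (Top (1 + θ • A) (-δ) ψ) →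
      YM (C1 * (1 + C2 / δ) * Y (Top (1 + θ • A) (-δ) ψ)) (hess ψ) := by
    intro θ a b ψ hψ hT i j
    have hE : Ell 0 (K1 + K0) (1 + θ • A) := ⟨symm θ, (low θ a b).mono hc'.le,
      fun x i j => (abs_le_Y (sym0 θ i j) x).trans (ym θ a b i j)⟩
    have hG := h2 ψ (Y (Top (1 + θ • A) (-δ) ψ) / δ) fun x => by
      rw [Real.rpow_zero, mul_one]
      exact resolvent hδ hE hψ (fun x => abs_le_Y hT x) x
    refine (h1 _ ψ (symm θ) (low θ a b) (sym0 θ) (ym θ a b) hψ hT i j).trans ?_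
    rw [mul_assoc]
    refine mul_le_mul_of_nonneg_left ?_ hC1
    have : C2 * (Y (Top (1 + θ • A) (-δ) ψ) / δ) = C2 / δ * Y (Top (1 + θ • A) (-δ) ψ) := by ring
    linarith
  obtain ⟨N, hN⟩ := exists_nat_gt (2 * (C3 * K0 * (C1 * (1 + C2 / δ))))
  have hN0 : (0 : ℝ) < N := lt_of_le_of_lt (by positivity) hN
  have key : ∀ j : ℕ, j ≤ N → Solv (1 + ((j : ℝ) / N) • A) (-δ) False := by
    intro j
    induction j with
    | zero => intro _; simpa using solv_one_neg hδ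
    | succ j ih =>
      intro hj
      have hjN : (j : ℝ) / N ≤ 1 := by
        rw [div_le_one hN0]; exact_mod_cast (by omega : j ≤ N)
      have e : (1 + (((j + 1 : ℕ) : ℝ) / N) • A) - (1 + ((j : ℝ) / N) • A) = (1 / (N : ℝ)) • A := by
        rw [add_sub_add_left_eq_sub, ← sub_smul]
        congr 1
        push_cast
        ring
      refine solv_step (by rw [e]; exact hAs.smul _) False.elim (fun ψ hψ _ hT => ?_)
        (ih (by omega))
      rw [e]
      have hY := Y_nonneg (Top (1 + ((j : ℝ) / N) • A) (-δ) ψ)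
      refine (h3 _ ψ (1 / (N : ℝ) * K0) _ (hAs.smul _) ((Sym.hess hψ).mono (by norm_num))
        (by positivity) (by positivity) (fun a b => ?_)
        (bound _ (by positivity) hjN ψ hψ hT)).trans ?_
      · rw [Matrix.smul_apply, Y_smul, abs_of_nonneg (by positivity)]
        exact mul_le_mul_of_nonneg_left (hY0 a b) (by positivity)
      · have : C3 * K0 * (C1 * (1 + C2 / δ)) / N ≤ 1 / 2 := by
          rw [div_le_iff₀ hN0]; linarith
        calc C3 * (1 / (N : ℝ) * K0 * (C1 * (1 + C2 / δ) * Y (Top (1 + ((j : ℝ) / N) • A) (-δ) ψ)))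
            = C3 * K0 * (C1 * (1 + C2 / δ)) / N * Y (Top (1 + ((j : ℝ) / N) • A) (-δ) ψ) := by ring
          _ ≤ 1 / 2 * Y (Top (1 + ((j : ℝ) / N) • A) (-δ) ψ) := by gcongr
          _ = _ := by ring
  have := key N le_rfl
  rwa [div_self hN0.ne', one_smul, hA, add_sub_cancel] at this

end Crest.Agent.R238
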