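import Crest.Agent.R238.StepA
import Crest.Agent.R238.NL
import Crest.Agent.R238.Gap
import Crest.Agent.R238.Solv

/-!
# Row 238: existence of solutions for potentials arbitrarily close to a given one
-/

set_option autoImplicit false
open MeasureTheory Matrix
open scoped ContDiff BigOperators

noncomputable section
namespace Crest.Agent.R238

variable {n : ℕ}

theorem exist_low_conv {ε s : ℝ} {M : Mat n} (hε : ε ≤ 1) (h0 : 0 ≤ s) (h1 : s ≤ 1)
    (h : Low ε (1 + M)) : Low ε (1 + s • M) := by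
  intro x v
  have h2 := h x v
  have h3 : 0 ≤ v ⬝ᵥ v := Finset.sum_nonneg fun a _ => mul_self_nonneg _
  rw [evM_add, evM_one, Matrix.add_mulVec, Matrix.one_mulVec, dotProduct_add] at h2
  rw [evM_add, evM_one, evM_smul, Matrix.add_mulVec, Matrix.one_mulVec, dotProduct_add,
    Matrix.smul_mulVec, dotProduct_smul, smul_eq_mul]
  have h4 := mul_le_mul_of_nonneg_left h2 h0
  have h5 := mul_nonneg (mul_nonneg (sub_nonneg.2 h1) (sub_nonneg.2 hε)) h3
  nlinarith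

theorem exist_hess_le {f : Sm n} (hf : Sym 0 f) (x : E n) (a b : Fin n) :
    |ev x (hess f a b)| ≤ Y f := by
  have hn : 2 ≤ n + 1 := by have := a.pos; omega
  exact (d_pd_pd_le 0 a b f x).trans ((d_le_J' hn f x).trans (J_le_Y hf x))

/-- The trivial solution `ζ = 0`, `V = 0`, `τ = 1`. -/
theorem exists_KE_zero (n : ℕ) : ∃ D : KE n, D.V = 0 ∧ D.τ = 1 := by
  refine ⟨{ ζ := 0, V := 0, τ := 1, symζ := sym_zero _, symV := sym_zero _, symτ := ?_, inv := ?_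
            pos := ?_, eqn := ?_, evζ := isEv_zero, evV := isEv_zero }, rfl, rfl⟩
  · intro a b
    rw [sub_self]
    exact sym_zero _
  · rw [hess_zero, add_zero, mul_one]
  · intro x
    rw [hess_zero, add_zero, evM_one]
    exact Matrix.PosDef.one
  · rw [hess_zero, add_zero, Matrix.det_one]
    ext x
    simp [eul]

/-- `apriori`, `lin_Y` + `gap_Gn` give `YM (C₁ Y(Tψ)) (hess ψ)` for all admissible even `ψ`. Solve
`Y (Tψ - (-V0)) ≤ e`, take `φ = h • ψ`, `β = h C₁ (K + 1)`, `stepA`;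
`V' - V - h V0 = (V' - V + Tφ) - h (Tψ + V0)`. `Solv` is transferred by `solv_step` with `Y_con_le`. -/
theorem step (n : ℕ) {ε : ℝ} (hε : 0 < ε) (K : ℝ) : ∃ h0 C, 0 < h0 ∧ 0 ≤ C ∧
    ∀ (D : KE n) (V0 : Sm n) (h e : ℝ), Low ε D.H → Y D.V ≤ K → Solv D.τ 1 True →
      Sym 0 V0 → IsEv V0 → Y V0 ≤ K → 0 < h → h ≤ h0 → 0 < e → e ≤ 1 →
      ∃ D' : KE n, Solv D'.τ 1 True ∧ Y (D'.V - D.V - h • V0) ≤ h * e + C * h ^ 2 := by
  obtain ⟨c, K', hc, -, hap⟩ := apriori n hε K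
  obtain ⟨C₁, hC₁, hlin⟩ := lin_Y n hc K' (l := 1) le_rfl
  obtain ⟨C₂, hC₂, hgap⟩ := gap_Gn n hc K
  obtain ⟨β0, C₃, hβ0, hC₃, hA⟩ := stepA n hc K'
  obtain ⟨C₄, hC₄, hcon⟩ := Y_con_le n
  obtain ⟨A, hAe⟩ : ∃ A, A = C₁ * (1 + C₂) := ⟨_, rfl⟩
  have hA0 : 0 ≤ A := by rw [hAe]; positivity
  obtain ⟨B, hBe⟩ : ∃ B, B = A * (|K| + 1) := ⟨_, rfl⟩
  have hB0 : 0 ≤ B := by rw [hBe]; positivity
  obtain ⟨G, hGe⟩ : ∃ G, G = C₄ * C₃ * B * A := ⟨_, rfl⟩
  have hG0 : 0 ≤ G := by rw [hGe]; positivity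
  refine ⟨min (β0 / (B + 1)) (1 / (2 * (G + 1))), C₃ * B ^ 2, by positivity, by positivity,
    fun D V0 h e hH hY hS hV he hY0 hh hh0 he0 he1 => ?_⟩
  obtain ⟨hτ, hg, hYτ, hYζ⟩ := hap D hH hY
  have hest : ∀ ψ : Sm n, Sym (9 / 8) ψ → IsEv ψ → Sym 0 (Top D.τ 1 ψ) →
      YM (A * Y (Top D.τ 1 ψ)) (hess ψ) := by
    intro ψ h1 h2 h3 a b
    refine (hlin D.τ ψ D.τ_symm hτ D.sym0τ hYτ h1 h3 a b).trans ?_
    have := hgap D ψ hτ hY h1 h2 h3
    rw [hAe, mul_assoc]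
    exact mul_le_mul_of_nonneg_left (by linarith) hC₁
  obtain ⟨ψ, h1, h2, h3, h4⟩ := hS (-V0) hV.neg (fun _ => he.neg) e he0
  have h5 : Y (Top D.τ 1 ψ) ≤ |K| + 1 := by
    have e1 : Top D.τ 1 ψ = (Top D.τ 1 ψ - -V0) - V0 := by ring
    have := Y_sub_le (h3.sub hV.neg) hV
    rw [← e1] at this
    linarith [le_abs_self K]
  have hb1 : h * B ≤ β0 := by
    have := (le_div_iff₀ (by positivity)).1 (hh0.trans (min_le_left _ _))
    nlinarith
  have hb2 : G * h ≤ 1 / 2 := by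
    have := (le_div_iff₀ (by positivity)).1 (hh0.trans (min_le_right _ _))
    nlinarith
  obtain ⟨D', h6, h7⟩ := hA D (h • ψ) (h * B) hg hYτ hYζ (h1.smul h) ((h2 trivial).smul h)
    (by rw [Top_smul]; exact h3.smul h) (by positivity) hb1 (by
      intro a b
      rw [hess_smul, Matrix.smul_apply, Y_smul, abs_of_pos hh]
      refine mul_le_mul_of_nonneg_left ((hest ψ h1 (h2 trivial) h3 a b).trans ?_) hh.le
      rw [hBe]
      exact mul_le_mul_of_nonneg_left h5 hA0)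
  refine ⟨D', solv_step (D'.sym0τ.sub D.sym0τ) (fun _ => D'.τ_isEv) (fun χ k1 k2 k3 => ?_) hS, ?_⟩
  · have k4 := Y_nonneg (Top D.τ 1 χ)
    have k5 := hcon (D'.τ - D.τ) χ _ _ (D'.sym0τ.sub D.sym0τ) (k1.hess.mono (by norm_num))
      (by positivity) (by positivity) h6 (hest χ k1 (k2 trivial) k3)
    refine k5.trans ?_
    have k6 : C₄ * (C₃ * (h * B) * (A * Y (Top D.τ 1 χ))) = G * h * Y (Top D.τ 1 χ) := by
      rw [hGe]; ring
    rw [k6]
    have := mul_le_mul_of_nonneg_right hb2 k4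
    linarith
  · have e1 : D'.V - D.V - h • V0 =
        (D'.V - D.V + Top D.τ 1 (h • ψ)) - h • (Top D.τ 1 ψ - -V0) := by
      rw [Top_smul, smul_sub, smul_neg]; ring
    have k1 : Sym 0 (D'.V - D.V + Top D.τ 1 (h • ψ)) :=
      (D'.symV.sub D.symV).add (by rw [Top_smul]; exact h3.smul h)
    have k2 := Y_sub_le k1 ((h3.sub hV.neg).smul h)
    rw [Y_smul, abs_of_pos hh, ← e1] at k2
    have k3 := mul_le_mul_of_nonneg_left h4 hh.le
    have k4 : C₃ * (h * B) ^ 2 = C₃ * B ^ 2 * h ^ 2 := by ring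
    linarith

/-- Euler scheme. WLOG `ε ≤ 1`, `δ ≤ 1`, `n δ ≤ ε/2`. With `K = Y V0 + 1`, `h = 1/N ≤ h0`, `C h ≤ δ/2`,
`e = δ/2`: by induction on `j ≤ N` there is `D_j` with `Solv D_j.τ 1 True` and
`Y (D_j.V - (j h) • V0) ≤ j h δ`; `Low (ε/2) D_j.H` since `1 + s • hess V0 ≥ ε` for `s ∈ [0,1]` and the
entries of `hess (D_j.V - s • V0)` are `≤ δ` (`d 2 ≤ J (n+1) ≤ Y` when `n ≥ 1`; `Low.add_small`). -/
theorem exists_KE {V0 : Sm n} (hV : Sym 0 V0) (he : IsEv V0) {ε : ℝ} (hε : 0 < ε)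
    (hH : Low ε (1 + hess V0)) {δ : ℝ} (hδ : 0 < δ) : ∃ D : KE n, Y (D.V - V0) ≤ δ := by
  obtain ⟨ε', hε0, hε1, hε2⟩ : ∃ ε', 0 < ε' ∧ ε' ≤ 1 ∧ ε' ≤ ε :=
    ⟨min 1 ε, lt_min one_pos hε, min_le_left _ _, min_le_right _ _⟩
  obtain ⟨δ', hδ0, hδ1, hδ2, hδ3⟩ : ∃ δ', 0 < δ' ∧ δ' ≤ 1 ∧ δ' ≤ δ ∧ n * δ' ≤ ε' / 2 := by
    refine ⟨min 1 (min δ (ε' / (2 * (n + 1)))), by positivity, min_le_left _ _,
      (min_le_right _ _).trans (min_le_left _ _), ?_⟩
    have h1 : min 1 (min δ (ε' / (2 * (n + 1)))) ≤ ε' / (2 * (n + 1)) :=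
      (min_le_right _ _).trans (min_le_right _ _)
    have h2 : 0 < min 1 (min δ (ε' / (2 * ((n : ℝ) + 1)))) := by positivity
    have := (le_div_iff₀ (by positivity)).1 h1
    nlinarith
  obtain ⟨h0, C, hh0, hC, hst⟩ := step n (half_pos hε0) (Y V0 + 1)
  obtain ⟨N, hN⟩ := exists_nat_gt (max (1 / h0) (2 * C / δ'))
  have hN1 : 1 / h0 < N := (le_max_left _ _).trans_lt hN
  have hN2 : 2 * C / δ' < N := (le_max_right _ _).trans_lt hN
  have hN0 : (0 : ℝ) < N := (one_div_pos.2 hh0).trans hN1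
  obtain ⟨h, hh⟩ : ∃ h : ℝ, h = 1 / N := ⟨_, rfl⟩
  have hp : 0 < h := by rw [hh]; positivity
  have hNh : N * h = 1 := by rw [hh]; field_simp
  have hle : h ≤ h0 := by
    rw [hh, div_le_iff₀ hN0]
    have := (div_lt_iff₀ hh0).1 hN1
    linarith
  have hCh : C * h ≤ δ' / 2 := by
    rw [hh, mul_one_div, div_le_iff₀ hN0]
    have := (div_lt_iff₀ hδ0).1 hN2
    linarith
  have key : ∀ j : ℕ, j ≤ N → ∃ D : KE n, Solv D.τ 1 True ∧
      Y (D.V - ((j : ℝ) * h) • V0) ≤ j * h * δ' := by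
    intro j
    induction j with
    | zero =>
      intro _
      obtain ⟨D, h1, h2⟩ := exists_KE_zero n
      refine ⟨D, h2 ▸ solv_one_one, ?_⟩
      rw [h1, Nat.cast_zero, zero_mul, zero_smul, sub_zero, Y_zero, zero_mul]
    | succ j ih =>
      intro hj
      obtain ⟨D, h1, h2⟩ := ih (by omega)
      have hs0 : 0 ≤ (j : ℝ) * h := by positivity
      have hs1 : (j : ℝ) * h ≤ 1 := by
        rw [← hNh]
        exact mul_le_mul_of_nonneg_right (by exact_mod_cast (by omega : j ≤ N)) hp.le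
      have hW : Sym 0 (D.V - ((j : ℝ) * h) • V0) := D.symV.sub (hV.smul _)
      have h3 : Y (D.V - ((j : ℝ) * h) • V0) ≤ δ' :=
        h2.trans (mul_le_of_le_one_left hδ0.le hs1)
      have h4 : Low (ε' / 2) D.H := by
        have k1 := (exist_low_conv hε1 hs0 hs1 (hH.mono hε2)).add_small
          fun x a b => (exist_hess_le hW x a b).trans h3
        have e1 : 1 + ((j : ℝ) * h) • hess V0 + hess (D.V - ((j : ℝ) * h) • V0) = D.H := by
          rw [hess_sub, hess_smul, KE.H]; abel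
        rw [e1] at k1
        exact k1.mono (by linarith)
      have h5 : Y D.V ≤ Y V0 + 1 := by
        have k1 := Y_add_le hW (hV.smul ((j : ℝ) * h))
        rw [sub_add_cancel, Y_smul, abs_of_nonneg hs0] at k1
        have k2 := mul_le_of_le_one_left (Y_nonneg V0) hs1
        linarith
      obtain ⟨D', h6, h7⟩ := hst D V0 h (δ' / 2) h4 h5 h1 hV he (by linarith) hp hle
        (half_pos hδ0) (by linarith)
      refine ⟨D', h6, ?_⟩
      have e1 : D'.V - (((j + 1 : ℕ) : ℝ) * h) • V0 =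
          (D'.V - D.V - h • V0) + (D.V - ((j : ℝ) * h) • V0) := by
        rw [Nat.cast_succ, add_mul, one_mul, add_smul]; ring
      have k1 := Y_add_le ((D'.symV.sub D.symV).sub (hV.smul h)) hW
      rw [← e1] at k1
      have k2 := mul_le_mul_of_nonneg_right hCh hp.le
      push_cast at k1 ⊢
      nlinarith
  obtain ⟨D, -, h2⟩ := key N le_rfl
  rw [hNh, one_smul, one_mul] at h2
  exact ⟨D, h2.trans hδ2⟩

end Crest.Agent.R238
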