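import Crest.Agent.R238.VarS

/-!
# Row 238: the variance inequality for a solution of the moment equation
-/

set_option autoImplicit false
open MeasureTheory Matrix
open scoped ContDiff BigOperators

noncomputable section
namespace Crest.Agent.R238

variable {n : ℕ}

variable {ι : Type} [Fintype ι]

theorem KE.var_Q_symm (D : KE n) (ψ : Sm n) :
    ((Matrix.of fun j l => pd l (∑ m, D.τ j m * pd m ψ) : Mat n) * D.τ)ᵀ =
      (Matrix.of fun j l => pd l (∑ m, D.τ j m * pd m ψ) : Mat n) * D.τ := by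
  have key : ∀ j k, ((Matrix.of fun j l => pd l (∑ m, D.τ j m * pd m ψ) : Mat n) * D.τ) j k =
      ∑ m, (∑ l, D.τ k l * pd l (D.τ j m)) * pd m ψ + (D.τ * hess ψ * D.τ) j k := by
    intro j k
    simp only [Matrix.mul_apply, Matrix.of_apply, map_sum, pd_mul, Finset.sum_mul, hess_apply,
      Finset.sum_add_distrib, add_mul]
    congr 1
    · rw [Finset.sum_comm]
      refine Finset.sum_congr rfl fun m _ => Finset.sum_congr rfl fun l _ => ?_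
      rw [D.τ_apply_comm k l]; ring
    · refine Finset.sum_congr rfl fun l _ => Finset.sum_congr rfl fun m _ => ?_
      rw [pd_comm l m]
  ext j k : 1
  rw [Matrix.transpose_apply, key, key]
  congr 1
  · exact Finset.sum_congr rfl fun m _ => by rw [D.Phi_symm]
  · exact congrFun (congrFun (D.conj_symm (hess_transpose ψ)) j) k

/-- For `w_j = ∑_m τ_jm ψ_m` the matrix `Q_jk = ∑_l ∂_l w_j τ_lk` is symmetric (`Phi_symm`),
`∑_j gam τ w_j χ_j = tr(Q · sD χ)`, `tr(QgQg) = ∑ ∂_a w_b ∂_b w_a`; pointwise `two_trace_le`. -/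
theorem KE.pt_Q (D : KE n) (ψ : Sm n) (χ : Fin n → Sm n) (x : E n) :
    2 * ev x (∑ j, gam D.τ (∑ m, D.τ j m * pd m ψ) (χ j)) ≤
      ev x (∑ a, ∑ b, pd a (∑ m, D.τ b m * pd m ψ) * pd b (∑ m, D.τ a m * pd m ψ))
      + ev x (D.τ * sD χ * D.τ * sD χ).trace := by
  set A : Mat n := Matrix.of fun j l => pd l (∑ m, D.τ j m * pd m ψ) with hA
  have hQ : (A * D.τ)ᵀ = A * D.τ := D.var_Q_symm ψ
  have h1 : ∑ j, gam D.τ (∑ m, D.τ j m * pd m ψ) (χ j) = (A * D.τ * sD χ).trace := by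
    rw [Matrix.trace_mul_comm, ← sum_mul_eq_trace hQ]
    simp only [sD, Matrix.of_apply]
    rw [sum_symm_half hQ fun i j => pd i (χ j), Finset.sum_comm]
    refine Finset.sum_congr rfl fun j _ => ?_
    unfold gam
    rw [Finset.sum_comm]
    refine Finset.sum_congr rfl fun b _ => ?_
    rw [show (A * D.τ) b j = (A * D.τ) j b from congrFun (congrFun hQ j) b, Matrix.mul_apply,
      Finset.sum_mul]
    refine Finset.sum_congr rfl fun c _ => ?_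
    rw [hA, Matrix.of_apply]; ring
  have h2 : ∑ a, ∑ b, pd a (∑ m, D.τ b m * pd m ψ) * pd b (∑ m, D.τ a m * pd m ψ) =
      (A * D.τ * D.g * (A * D.τ) * D.g).trace := by
    rw [Matrix.mul_assoc A D.τ D.g, D.τg, Matrix.mul_one, Matrix.mul_assoc, Matrix.mul_assoc, D.τg,
      Matrix.mul_one]
    simp only [Matrix.trace, Matrix.diag, Matrix.mul_apply, hA, Matrix.of_apply]
    exact Finset.sum_congr rfl fun a _ => Finset.sum_congr rfl fun b _ => mul_comm _ _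
  rw [h1, h2]
  simp only [ev_trace, evM_mul]
  rw [← evM_mul x A D.τ]
  exact two_trace_le (D.g_posDef x) (by rw [← evM_mul, D.τg, evM_one])
    (by rw [← evM_transpose, hQ]) (by rw [← evM_transpose, sD_symm])

/-- `β_j = ∑ a_i ℓ_i φ''_i u_ij`. -/
def var_beta (P : Pot) (u : ι → E n) (a : ι → ℝ) (j : Fin n) : Sm n :=
  ∑ i, (a i * u i j) • (lin (u i) * P.f2 (u i))

theorem var_tm_beta (P : Pot) (u : ι → E n) (a : ι → ℝ) (j : Fin n) : Tm (var_beta P u a j) :=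
  Tm.sum _ fun i _ => ((sym_lin (u i)).tm.mul (P.tm_f2 _)).smul _

theorem var_pd_G0 (P : Pot) (u : ι → E n) (a : ι → ℝ) (j : Fin n) :
    pd j (G0 P u a) = bV P u a j + var_beta P u a j := by
  simp only [G0, bV, var_beta, map_sum, Derivation.map_smul, pd_mul, pd_lin, Pot.pd_f1,
    ← Finset.sum_add_distrib]
  refine Finset.sum_congr rfl fun i _ => ?_
  ext x
  simp
  ring

theorem var_pt {H : Mat n} {ε : ℝ} (hε : 0 < ε) (P : Pot) (u : ι → E n) (a : ι → ℝ)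
    (hH : Low ε (H - HP P u)) (e w : Fin n → Sm n) (x : E n) :
    ev x (2 * ∑ j, var_beta P u a j * w j + 2 * ∑ j, e j * w j - ∑ j, ∑ k, H j k * w j * w k) ≤
      ev x (G2 P u a + ε⁻¹ • ∑ j, e j ^ 2) := by
  set v : E n := fun j => ev x (w j) with hv
  have h1 := hH x v
  rw [evM_sub, Matrix.sub_mulVec, dotProduct_sub, quad_HP] at h1
  have h2 : ev x (∑ j, ∑ k, H j k * w j * w k) = v ⬝ᵥ (evM x H *ᵥ v) := by
    simp only [map_sum, map_mul, dotProduct, Matrix.mulVec, evM_apply, Finset.mul_sum, hv]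
    exact Finset.sum_congr rfl fun j _ => Finset.sum_congr rfl fun k _ => by ring
  have h3 : ev x (∑ j, var_beta P u a j * w j) =
      ∑ i, a i * (u i ⬝ᵥ x) * deriv (deriv P.φ) (u i ⬝ᵥ x) * (u i ⬝ᵥ v) := by
    simp only [var_beta, map_sum, map_mul, ev_smul, ev_lin, Pot.ev_f2, Finset.sum_mul]
    rw [Finset.sum_comm]
    refine Finset.sum_congr rfl fun i _ => ?_
    conv_rhs => rw [show u i ⬝ᵥ v = ∑ j, u i j * ev x (w j) from rfl, Finset.mul_sum]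
    exact Finset.sum_congr rfl fun j _ => by ring
  have h4 : ev x (G2 P u a) = ∑ i, a i ^ 2 * ((u i ⬝ᵥ x) ^ 2 * deriv (deriv P.φ) (u i ⬝ᵥ x)) := by
    simp only [G2, map_sum, map_mul, map_pow, ev_smul, ev_lin, Pot.ev_f2]
  have h5 : 2 * ∑ i, a i * (u i ⬝ᵥ x) * deriv (deriv P.φ) (u i ⬝ᵥ x) * (u i ⬝ᵥ v) ≤
      ∑ i, a i ^ 2 * ((u i ⬝ᵥ x) ^ 2 * deriv (deriv P.φ) (u i ⬝ᵥ x)) +
        ∑ i, deriv (deriv P.φ) (u i ⬝ᵥ x) * (u i ⬝ᵥ v) ^ 2 := by
    rw [Finset.mul_sum, ← Finset.sum_add_distrib]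
    refine Finset.sum_le_sum fun i _ => ?_
    nlinarith [mul_nonneg (P.conv (u i ⬝ᵥ x)) (sq_nonneg (a i * (u i ⬝ᵥ x) - u i ⬝ᵥ v))]
  have h6 : 2 * ev x (∑ j, e j * w j) ≤ ε⁻¹ * ev x (∑ j, e j ^ 2) + ε * (v ⬝ᵥ v) := by
    simp only [map_sum, map_mul, map_pow, dotProduct, Finset.mul_sum, ← Finset.sum_add_distrib, hv]
    refine Finset.sum_le_sum fun j _ => ?_
    have h7 : 0 ≤ ε⁻¹ * (ev x (e j) - ε * ev x (w j)) ^ 2 := by positivity
    have h8 : ε⁻¹ * (ev x (e j) - ε * ev x (w j)) ^ 2 = ε⁻¹ * ev x (e j) ^ 2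
        - 2 * (ev x (e j) * ev x (w j)) + ε * (ev x (w j) * ev x (w j)) := by
      field_simp
      ring
    linarith
  rw [map_sub, map_add, map_add, map_mul, map_mul, ev_smul, h2, h3, h4, ev_ofNat]
  linarith

theorem KE.var_main (D : KE n) {c ε : ℝ} (hc : 0 < c) (hl : Low c D.τ) (hε : 0 < ε) (P : Pot)
    (u : ι → E n) (a : ι → ℝ) (hH : Low ε (D.H - HP P u)) (m : ℝ)
    (hm : Iw D.V (G0 P u a - cst m) = 0) {t : ℝ} (ht : 0 < t) :
    Iw D.V ((G0 P u a - cst m) ^ 2) ≤ Iw D.V (G1 P u a + G2 P u a) + (2 + ε⁻¹) * t := by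
  have hV := D.symV
  have hτ := D.sym0τ.tmM
  set G := G0 P u a - cst m with hG
  have tG : Tm G := (tm_G0 P u a).sub (tm_cst m)
  obtain ⟨ψ, tψ, hψ, -⟩ := D.approx_solve hc hl tG.neg (by rw [Iw_neg, hm, neg_zero]) ht
  obtain ⟨χ, tχ, hS, he⟩ := D.var_S hc hl P u a (hH.mono hε.le) ht
  set w : Fin n → Sm n := fun j => ∑ m, D.τ j m * pd m ψ with hw
  have tw : ∀ j, Tm (w j) := fun j => Tm.sum _ fun m _ => (hτ j m).mul (tψ.pd m)
  set e : Fin n → Sm n := fun j => Lop D.τ (χ j) + bV P u a j with he'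
  have te : ∀ j, Tm (e j) := fun j => (Tm.Lop hτ (tχ j)).add (tm_bV P u a j)
  have tL : Tm (Lop D.τ ψ) := Tm.Lop hτ tψ
  have tβ : Tm (∑ j, var_beta P u a j * w j) := Tm.sum _ fun j _ => (var_tm_beta P u a j).mul (tw j)
  have tew : Tm (∑ j, e j * w j) := Tm.sum _ fun j _ => (te j).mul (tw j)
  have tH : Tm (∑ j, ∑ k, D.H j k * w j * w k) :=
    Tm.sum _ fun j _ => Tm.sum _ fun k _ => ((D.sym0H.tmM j k).mul (tw j)).mul (tw k)
  have tA : Tm (∑ j, ∑ k, pd j (w k) * pd k (w j)) :=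
    Tm.sum _ fun j _ => Tm.sum _ fun k _ => ((tw k).pd j).mul ((tw j).pd k)
  have tS : Tm (D.τ * sD χ * D.τ * sD χ).trace :=
    (((hτ.mul (tmM_sD tχ)).mul hτ).mul (tmM_sD tχ)).trace
  have tgam : Tm (∑ j, gam D.τ (w j) (χ j)) := Tm.sum _ fun j _ => Tm.gam hτ (tw j) (tχ j)
  have te2 : Tm (∑ j, e j ^ 2) := Tm.sum _ fun j _ => (te j).pow 2
  have twL : Tm (∑ j, w j * Lop D.τ (χ j)) := Tm.sum _ fun j _ => (tw j).mul (Tm.Lop hτ (tχ j))
  have h1 : Iw D.V ((Lop D.τ ψ - -G) ^ 2) =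
      Iw D.V (G ^ 2) + 2 * Iw D.V (G * Lop D.τ ψ) + Iw D.V (Lop D.τ ψ ^ 2) := by
    rw [← Iw_two_mul, ← Iw_add hV (tG.pow 2) ((tm_ofNat 2).mul (tG.mul tL)),
      ← Iw_add hV ((tG.pow 2).add ((tm_ofNat 2).mul (tG.mul tL))) (tL.pow 2)]
    congr 1
    ring
  have h2 : Iw D.V (Lop D.τ ψ ^ 2) =
      Iw D.V (∑ j, ∑ k, pd j (w k) * pd k (w j)) + Iw D.V (∑ j, ∑ k, D.H j k * w j * w k) := by
    rw [D.Lop_eq_div ψ]
    exact reilly hV tw
  have h3 : gam D.τ G ψ =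
      ∑ j, e j * w j - ∑ j, w j * Lop D.τ (χ j) + ∑ j, var_beta P u a j * w j := by
    rw [← Finset.sum_sub_distrib, ← Finset.sum_add_distrib]
    refine Finset.sum_congr rfl fun j _ => ?_
    have : pd j G = bV P u a j + var_beta P u a j := by
      rw [hG, map_sub, pd_cst, sub_zero, var_pd_G0]
    have h4 : ∑ b, D.τ j b * pd j G * pd b ψ = pd j G * w j := by
      rw [hw, Finset.mul_sum]
      exact Finset.sum_congr rfl fun b _ => by ring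
    rw [h4, this, he']
    ring
  have h4 : Iw D.V (∑ j, w j * Lop D.τ (χ j)) = -Iw D.V (∑ j, gam D.τ (w j) (χ j)) := by
    rw [Iw_sum hV _ fun j _ => (tw j).mul (Tm.Lop hτ (tχ j)),
      Iw_sum hV _ fun j _ => Tm.gam hτ (tw j) (tχ j), ← Finset.sum_neg_distrib]
    exact Finset.sum_congr rfl fun j _ => D.Iw_mul_Lop (tw j) (tχ j)
  have h5 := D.Iw_mul_Lop tG tψ
  rw [h3, Iw_add hV (tew.sub twL) tβ, Iw_sub hV tew twL, h4] at h5
  have h6 : 2 * Iw D.V (∑ j, gam D.τ (w j) (χ j)) ≤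
      Iw D.V (∑ j, ∑ k, pd j (w k) * pd k (w j)) + Iw D.V (D.τ * sD χ * D.τ * sD χ).trace := by
    rw [← Iw_two_mul, ← Iw_add hV tA tS]
    refine Iw_mono hV ((tm_ofNat 2).mul tgam) (tA.add tS) fun x => ?_
    rw [map_mul, map_add, ev_ofNat]
    exact D.pt_Q ψ χ x
  have h7 := Iw_mono hV ((((tm_ofNat 2).mul tβ).add ((tm_ofNat 2).mul tew)).sub tH)
    ((tm_G2 P u a).add (te2.smul ε⁻¹)) (var_pt hε P u a hH e w)
  rw [Iw_sub hV (((tm_ofNat 2).mul tβ).add ((tm_ofNat 2).mul tew)) tH,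
    Iw_add hV ((tm_ofNat 2).mul tβ) ((tm_ofNat 2).mul tew), Iw_two_mul, Iw_two_mul,
    Iw_add hV (tm_G2 P u a) (te2.smul ε⁻¹), Iw_smul] at h7
  have h8 : ε⁻¹ * Iw D.V (∑ j, e j ^ 2) ≤ ε⁻¹ * t :=
    mul_le_mul_of_nonneg_left he (inv_pos.2 hε).le
  rw [Iw_add hV (tm_G1 P u a) (tm_G2 P u a)]
  linarith

/-- Let `G = G0 - mean`, `t > 0`, `ψ` with `I((Lψ + G)²) ≤ t` (`approx_solve` for `-G`), `w = τ∇ψ`, `χ` from
`var_S`, `e = Lχ + b`. Then `I(G²) - I((G + Lψ)²) = -2 I(G Lψ) - I((Lψ)²)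
= 2 I(∑ ∂_jG0 w_j) - I(∑ ∂_a w_b ∂_b w_a) - I(H w w)` (`Iw_mul_Lop`, `Lop_eq_div`, `reilly`),
`∂_jG0 = b_j + β_j`, `β_j = ∑ a_i ℓ_i φ''_i u_ij`, `I(b·w) = I(e·w) + ∑ I(gam τ w_j χ_j)`, `pt_Q`, and
pointwise `2 β·w + 2 e·w - H w w ≤ G2 + |e|²/ε` (`quad_HP`). So
`I(G²) ≤ I(G1) + I(G2) + 2t + t/ε`; let `t → 0`; `I(1) I(G²) = I(1) I(G0²) - I(G0)²`. -/
theorem KE.var (D : KE n) {c ε : ℝ} (hc : 0 < c) (hl : Low c D.τ) (hε : 0 < ε) (P : Pot)
    (u : ι → E n) (a : ι → ℝ) (hH : Low ε (D.H - HP P u)) :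
    Iw D.V 1 * Iw D.V (G0 P u a ^ 2) - Iw D.V (G0 P u a) ^ 2 ≤
      Iw D.V 1 * Iw D.V (G1 P u a + G2 P u a) := by
  have hV := D.symV
  have hZ := Iw_one_pos hV
  set m := Iw D.V (G0 P u a) / Iw D.V 1 with hm
  have hcst : ∀ k : ℝ, Iw D.V (cst k) = k * Iw D.V 1 := fun k => by
    rw [← Iw_cst_mul, mul_one]
  have h0 : Iw D.V (G0 P u a - cst m) = 0 := by
    rw [Iw_sub hV (tm_G0 P u a) (tm_cst m), hcst, hm, div_mul_cancel₀ _ hZ.ne', sub_self]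
  have h1 : Iw D.V ((G0 P u a - cst m) ^ 2) ≤ Iw D.V (G1 P u a + G2 P u a) := by
    refine le_of_forall_pos_le_add fun δ hδ => ?_
    have hp : 0 < 2 + ε⁻¹ := by positivity
    have := D.var_main hc hl hε P u a hH m h0 (div_pos hδ hp)
    rwa [mul_div_cancel₀ _ hp.ne'] at this
  have h2 : (G0 P u a - cst m) ^ 2 = G0 P u a ^ 2 - cst (2 * m) * G0 P u a + cst (m ^ 2) := by
    simp only [cst, map_mul, map_pow, map_ofNat]
    ring
  rw [h2, Iw_add hV (((tm_G0 P u a).pow 2).sub ((tm_cst _).mul (tm_G0 P u a))) (tm_cst _),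
    Iw_sub hV ((tm_G0 P u a).pow 2) ((tm_cst _).mul (tm_G0 P u a)), Iw_cst_mul, hcst] at h1
  have h3 : Iw D.V (G0 P u a) = m * Iw D.V 1 := by rw [hm, div_mul_cancel₀ _ hZ.ne']
  have h4 := mul_le_mul_of_nonneg_left h1 hZ.le
  rw [h3] at h4 ⊢
  linarith

end Crest.Agent.R238
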