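import Crest.Agent.R238.Cut1
import Crest.Agent.R238.Var
import Crest.Agent.R238.Exist

/-!
# Row 238: the variance inequality for `e^{-ε|x|²/2 - ∑ φ(ℓ_i)}`
-/

set_option autoImplicit false
open MeasureTheory Matrix
open scoped ContDiff BigOperators

noncomputable section
namespace Crest.Agent.R238

variable {n : ℕ}

variable {ι : Type} [Fintype ι]

/-- Integration against `e^{-W0}`. -/
def I0 (ε : ℝ) (P : Pot) (u : ι → E n) (f : Sm n) : ℝ := ∫ x, ev x f * Real.exp (-W0 ε P u x)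

theorem cut2_low_HP (P : Pot) (u : ι → E n) {c : ℝ} {M : Mat n} (h : Low c (M - HP P u)) :
    Low c M := by
  intro x v
  have h1 := h x v
  rw [evM_sub, Matrix.sub_mulVec, dotProduct_sub, quad_HP] at h1
  have h2 : 0 ≤ ∑ i, deriv (deriv P.φ) (u i ⬝ᵥ x) * (u i ⬝ᵥ v) ^ 2 :=
    Finset.sum_nonneg fun i _ => mul_nonneg (P.conv _) (sq_nonneg _)
  linarith

theorem cut2_hess_le {f : Sm n} (hf : Sym 0 f) (x : E n) (a b : Fin n) :
    |ev x (hess f a b)| ≤ Y f := by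
  have hn : 2 ≤ n + 1 := by have := a.pos; omega
  calc |ev x (hess f a b)| = d 0 (pd a (pd b f)) x := rfl
    _ ≤ d (0 + 2) f x := d_pd_pd_le 0 a b f x
    _ ≤ J (n + 1) f x := d_le_J' hn f x
    _ ≤ Y f := J_le_Y hf x

/-- One approximation step. -/
theorem cut2_step {ε S : ℝ} (hε : 0 < ε) (P : Pot) (u : ι → E n)
    (hS : ∀ t, deriv (deriv P.φ) t ≤ S) (hsmall : ε + S * ∑ i, u i ⬝ᵥ u i ≤ 1 / 2) (j : ℕ) :
    ∃ D : KE n, (∃ c, 0 < c ∧ Low c D.τ) ∧ Low (ε / 2) (D.H - HP P u) ∧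
      (∀ x, ∑ a, x a ^ 2 ≤ (j : ℝ) ^ 2 / 4 →
        |ev x (Wp D.V) - W0 ε P u x| ≤ 1 / ((j : ℝ) + 1)) ∧
      ∀ x, ε / 2 * ∑ a, x a ^ 2 - 1 ≤ ev x (Wp D.V) := by
  obtain ⟨R0, hR0⟩ := exists_V hε P u hS hsmall
  obtain ⟨V, hV, he, hlow, hW, hW'⟩ := hR0 (max R0 j) (le_max_left _ _)
  have hn : (0 : ℝ) ≤ n := Nat.cast_nonneg n
  have hj : (0 : ℝ) ≤ j := Nat.cast_nonneg j
  have hδ : 0 < min (ε / (2 * n + 2)) (1 / ((j : ℝ) + 1)) := lt_min (by positivity) (by positivity)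
  obtain ⟨D, hD⟩ := exists_KE hV he hε (cut2_low_HP P u hlow) hδ
  have hsym : Sym 0 (D.V - V) := D.symV.sub hV
  have hD1 : Y (D.V - V) ≤ ε / (2 * n + 2) := hD.trans (min_le_left _ _)
  have hD2 : Y (D.V - V) ≤ 1 / ((j : ℝ) + 1) := hD.trans (min_le_right _ _)
  have hD3 : Y (D.V - V) ≤ 1 := hD2.trans (by rw [div_le_one (by positivity)]; linarith)
  have hlow2 : Low (ε / 2) (D.H - HP P u) := by
    have h1 := hlow.add_small (B := hess (D.V - V)) (β := ε / (2 * n + 2))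
      fun x a b => (cut2_hess_le hsym x a b).trans hD1
    have h2 : 1 + hess V - HP P u + hess (D.V - V) = D.H - HP P u := by
      rw [hess_sub, KE.H]; abel
    rw [h2] at h1
    refine h1.mono ?_
    have h3 : (n : ℝ) * (ε / (2 * n + 2)) ≤ ε / 2 := by
      rw [← mul_div_assoc, div_le_div_iff₀ (by positivity) (by positivity)]
      nlinarith
    linarith
  have hdiff : ∀ x, ev x (Wp D.V) - ev x (Wp V) = ev x (D.V - V) := by
    intro x; rw [ev_Wp, ev_Wp, map_sub]; ring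
  refine ⟨D, ?_, hlow2, fun x hx => ?_, fun x => ?_⟩
  · obtain ⟨c, K', hc, -, h⟩ := apriori n (half_pos hε) (Y D.V)
    exact ⟨c, hc, (h D (cut2_low_HP P u hlow2) le_rfl).1⟩
  · have h1 : ∑ a, x a ^ 2 ≤ (max R0 j) ^ 2 / 4 := by
      refine hx.trans ?_
      have : (j : ℝ) ^ 2 ≤ (max R0 j) ^ 2 := pow_le_pow_left₀ hj (le_max_right _ _) 2
      linarith
    rw [← hW x h1, hdiff]
    exact (abs_le_Y hsym x).trans hD2
  · have h1 := hW' x
    have h2 := (abs_le.1 ((abs_le_Y hsym x).trans hD3)).1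
    have h3 := hdiff x
    linarith

theorem cut2_tendsto {ε : ℝ} (hε : 0 < ε) (P : Pot) (u : ι → E n) (V : ℕ → Sm n)
    (h1 : ∀ (j : ℕ) (x : E n), ∑ a, x a ^ 2 ≤ (j : ℝ) ^ 2 / 4 →
        |ev x (Wp (V j)) - W0 ε P u x| ≤ 1 / ((j : ℝ) + 1))
    (h2 : ∀ j x, ε / 2 * ∑ a, x a ^ 2 - 1 ≤ ev x (Wp (V j))) {f : Sm n} (hf : Tm f) :
    Filter.Tendsto (fun j => Iw (V j) f) Filter.atTop (nhds (I0 ε P u f)) := by
  obtain ⟨C, s, hC, -, hCs⟩ := hf.abs_le
  unfold Iw I0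
  refine tendsto_integral_of_dominated_convergence
    (fun x => C * Real.exp 1 * r x ^ s * Real.exp (-(ε / 2 * ∑ a, x a ^ 2))) ?_ ?_ ?_ ?_
  · intro j
    exact (int_weight_cont (V j) f).aestronglyMeasurable
  · refine integrable_of_le_gauss (C := C * Real.exp 1) (s := s) (c := ε / 2) ?_ (half_pos hε)
      fun x => ?_
    · have := continuous_r_rpow (n := n) s
      fun_prop
    · have := r_rpow_pos x s
      exact le_of_eq (abs_of_nonneg (by positivity))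
  · intro j
    refine Filter.Eventually.of_forall fun x => ?_
    rw [Real.norm_eq_abs, abs_mul, abs_of_pos (Real.exp_pos _)]
    have h3 : Real.exp (-ev x (Wp (V j))) ≤ Real.exp 1 * Real.exp (-(ε / 2 * ∑ a, x a ^ 2)) := by
      rw [← Real.exp_add]
      exact Real.exp_le_exp.2 (by linarith [h2 j x])
    have h4 := r_rpow_pos x s
    calc |ev x f| * Real.exp (-ev x (Wp (V j)))
        ≤ (C * r x ^ s) * (Real.exp 1 * Real.exp (-(ε / 2 * ∑ a, x a ^ 2))) :=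
          mul_le_mul (hCs x) h3 (Real.exp_pos _).le (by positivity)
      _ = _ := by ring
  · refine Filter.Eventually.of_forall fun x => ?_
    refine Filter.Tendsto.const_mul _ ?_
    refine (Real.continuous_exp.tendsto _).comp (Filter.Tendsto.neg ?_)
    rw [tendsto_iff_norm_sub_tendsto_zero]
    refine squeeze_zero' (Filter.Eventually.of_forall fun j => norm_nonneg _) ?_
      tendsto_one_div_add_atTop_nhds_zero_nat
    obtain ⟨N, hN⟩ := exists_nat_ge (4 * ∑ a, x a ^ 2 + 1)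
    filter_upwards [Filter.eventually_ge_atTop N] with j hj
    refine h1 j x ?_
    have hj' : (N : ℝ) ≤ j := Nat.cast_le.2 hj
    have h0 : 0 ≤ ∑ a, x a ^ 2 := by positivity
    nlinarith

/-- For `j : ℕ` take `R_j = max R0 j`, `V_j` from `exists_V`, `D_j` from `exists_KE` with
`δ_j = min (ε/(2n+2)) (1/(j+1))` (`Low ε (1 + hess V_j)` since `HP ≥ 0`); `Low (ε/2) (D_j.H - HP)`
(`Low.add_small`; entries of `hess (D_j.V - V_j)` are `≤ d 2 ≤ J (n+1) ≤ Y` once `n ≥ 1`), `Low c D_j.τ` from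
`apriori`; apply `KE.var`. For tempered `f`, `Iw D_j.V f → I0 f` by dominated convergence
(`Wp D_j.V → W0` pointwise, `Wp D_j.V ≥ ε|x|²/2 - 1`, `integrable_of_le_gauss`). -/
theorem var_small {ε S : ℝ} (hε : 0 < ε) (P : Pot) (u : ι → E n) (a : ι → ℝ)
    (hS : ∀ t, deriv (deriv P.φ) t ≤ S) (hsmall : ε + S * ∑ i, u i ⬝ᵥ u i ≤ 1 / 2) :
    I0 ε P u 1 * I0 ε P u (G0 P u a ^ 2) - I0 ε P u (G0 P u a) ^ 2 ≤
      I0 ε P u 1 * I0 ε P u (G1 P u a + G2 P u a) := by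
  choose D hτ hH h1 h2 using cut2_step hε P u hS hsmall
  have ht : ∀ {f : Sm n}, Tm f →
      Filter.Tendsto (fun j => Iw (D j).V f) Filter.atTop (nhds (I0 ε P u f)) :=
    fun hf => cut2_tendsto hε P u (fun j => (D j).V) h1 h2 hf
  refine le_of_tendsto_of_tendsto'
    (((ht tm_one).mul (ht ((tm_G0 P u a).pow 2))).sub ((ht (tm_G0 P u a)).pow 2))
    ((ht tm_one).mul (ht ((tm_G1 P u a).add (tm_G2 P u a)))) fun j => ?_
  obtain ⟨c, hc, hl⟩ := hτ j
  exact (D j).var hc hl (half_pos hε) P u a (hH j)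

theorem cut2_scale {ε ρ : ℝ} (hρ : 0 < ρ) (P : Pot) (u : ι → E n) (f g : Sm n)
    (h : ∀ y, ev (ρ • y) f = ev y g) :
    I0 ε P u f = ρ ^ n * I0 (ε * ρ ^ 2) P (fun i => ρ • u i) g := by
  unfold I0
  have h1 := Measure.integral_comp_smul (volume : Measure (E n))
    (fun x => ev x f * Real.exp (-W0 ε P u x)) ρ
  have h2 : ∀ y : E n, W0 ε P u (ρ • y) = W0 (ε * ρ ^ 2) P (fun i => ρ • u i) y := by
    intro y
    unfold W0
    simp only [Pi.smul_apply, smul_eq_mul, mul_pow, ← Finset.mul_sum, dotProduct_smul,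
      smul_dotProduct]
    ring
  simp only [h, h2] at h1
  rw [h1, Module.finrank_fin_fun, abs_of_pos (by positivity), smul_eq_mul, ← mul_assoc,
    mul_inv_cancel₀ (by positivity), one_mul]

/-- Scaling: for `ρ > 0`, substituting `x = ρ • y` (`Measure.integral_comp_smul`) multiplies each of the
integrals for `(ε, u)` by `ρ^n` and turns them into those for `(ε ρ², ρ • u)`; take `ρ` small. -/
theorem var_pot {ε : ℝ} (hε : 0 < ε) (P : Pot) (u : ι → E n) (a : ι → ℝ) :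
    I0 ε P u 1 * I0 ε P u (G0 P u a ^ 2) - I0 ε P u (G0 P u a) ^ 2 ≤
      I0 ε P u 1 * I0 ε P u (G1 P u a + G2 P u a) := by
  obtain ⟨S, hS0, hS⟩ := P.exists_deriv2_le
  have hU : 0 ≤ ∑ i, u i ⬝ᵥ u i := Finset.sum_nonneg fun i _ => dot_self_nonneg _
  set A : ℝ := ε + S * ∑ i, u i ⬝ᵥ u i with hA
  have hA0 : 0 < A := by positivity
  obtain ⟨ρ, hρ, hρA⟩ : ∃ ρ : ℝ, 0 < ρ ∧ ρ ^ 2 * A ≤ 1 / 2 := by
    refine ⟨1 / (1 + A), by positivity, ?_⟩
    rw [div_pow, div_mul_eq_mul_div, div_le_div_iff₀ (by positivity) (by positivity)]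
    nlinarith [sq_nonneg (A - 1)]
  have hsmall : ε * ρ ^ 2 + S * ∑ i, (ρ • u i) ⬝ᵥ (ρ • u i) ≤ 1 / 2 := by
    have : ∑ i, (ρ • u i) ⬝ᵥ (ρ • u i) = ρ ^ 2 * ∑ i, u i ⬝ᵥ u i := by
      rw [Finset.mul_sum]
      refine Finset.sum_congr rfl fun i _ => ?_
      rw [dotProduct_smul, smul_dotProduct, smul_eq_mul, smul_eq_mul]; ring
    rw [this]
    calc _ = ρ ^ 2 * A := by rw [hA]; ring
      _ ≤ 1 / 2 := hρA
  have key := var_small (ε := ε * ρ ^ 2) (by positivity) P (fun i => ρ • u i) a hS hsmall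
  have hd : ∀ (i : ι) (y : E n), u i ⬝ᵥ (ρ • y) = (ρ • u i) ⬝ᵥ y := fun i y => by
    rw [dotProduct_smul, smul_dotProduct]
  have e0 : ∀ y : E n, ev (ρ • y) (G0 P u a) = ev y (G0 P (fun i => ρ • u i) a) := by
    intro y
    simp only [G0, map_sum, ev_smul, map_mul, ev_lin, Pot.ev_f1, hd]
  have e1 : ∀ y : E n, ev (ρ • y) (G1 P u a) = ev y (G1 P (fun i => ρ • u i) a) := by
    intro y
    simp only [G1, map_sum, ev_smul, map_mul, ev_lin, Pot.ev_f1, hd]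
  have e2 : ∀ y : E n, ev (ρ • y) (G2 P u a) = ev y (G2 P (fun i => ρ • u i) a) := by
    intro y
    simp only [G2, map_sum, ev_smul, map_mul, map_pow, ev_lin, Pot.ev_f2, hd]
  rw [cut2_scale hρ P u 1 1 (fun y => by simp),
    cut2_scale hρ P u (G0 P u a ^ 2) (G0 P (fun i => ρ • u i) a ^ 2)
      (fun y => by rw [map_pow, map_pow, e0]),
    cut2_scale hρ P u (G0 P u a) _ e0,
    cut2_scale hρ P u (G1 P u a + G2 P u a)
      (G1 P (fun i => ρ • u i) a + G2 P (fun i => ρ • u i) a)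
      (fun y => by rw [map_add, map_add, e1, e2])]
  have hp : 0 ≤ (ρ ^ n) ^ 2 := by positivity
  have := mul_le_mul_of_nonneg_left key hp
  linarith

end Crest.Agent.R238
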