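import Mathlib

/-!
# Row 238 (log-Brunn–Minkowski): basic definitions

`Sm n` is the commutative `ℝ`-algebra of smooth functions on `E n = Fin n → ℝ`, with the evaluation
homomorphisms `ev x`, the partial derivatives `pd a` (derivations), the reflection `refl`.
-/

set_option autoImplicit false
open MeasureTheory Matrix
open scoped ContDiff BigOperators

noncomputable section
namespace Crest.Agent.R238

/-- Coordinate space. -/
abbrev E (n : ℕ) := Fin n → ℝ

/-- The subalgebra of smooth functions. -/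
def smAlg (n : ℕ) : Subalgebra ℝ (E n → ℝ) where
  carrier := {f | ContDiff ℝ ∞ f}
  mul_mem' := fun {f g} hf hg => by
    have hf' : ContDiff ℝ ∞ f := hf
    have hg' : ContDiff ℝ ∞ g := hg
    exact hf'.mul hg'
  add_mem' := fun {f g} hf hg => by
    have hf' : ContDiff ℝ ∞ f := hf
    have hg' : ContDiff ℝ ∞ g := hg
    exact hf'.add hg'
  algebraMap_mem' := fun c => by
    show ContDiff ℝ ∞ (fun _ : E n => c)
    exact contDiff_const

/-- Smooth functions `E n → ℝ`, as a commutative `ℝ`-algebra. -/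
def Sm (n : ℕ) : Type := ↥(smAlg n)

instance (n : ℕ) : CommRing (Sm n) := inferInstanceAs (CommRing ↥(smAlg n))
instance (n : ℕ) : Algebra ℝ (Sm n) := inferInstanceAs (Algebra ℝ ↥(smAlg n))

variable {n : ℕ}

/-- A smooth function as an element of `Sm n`. -/
def Sm.of (f : E n → ℝ) (hf : ContDiff ℝ ∞ f) : Sm n := (⟨f, hf⟩ : ↥(smAlg n))

/-- Evaluation at a point. -/
def ev (x : E n) : Sm n →ₐ[ℝ] ℝ :=
  (Pi.evalAlgHom ℝ (fun _ : E n => ℝ) x).comp (smAlg n).val

/-- The underlying function of `f : Sm n`. -/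
def fn (f : Sm n) : E n → ℝ := fun x => ev x f

@[simp] theorem fn_apply (f : Sm n) (x : E n) : fn f x = ev x f := rfl

@[simp] theorem ev_of (f : E n → ℝ) (hf : ContDiff ℝ ∞ f) (x : E n) : ev x (Sm.of f hf) = f x := rfl

theorem fn_contDiff (f : Sm n) : ContDiff ℝ ∞ (fn f) := (f : ↥(smAlg n)).2

theorem ev_contDiff (f : Sm n) : ContDiff ℝ ∞ (fun x => ev x f) := fn_contDiff f

theorem ev_continuous (f : Sm n) : Continuous (fun x => ev x f) := (ev_contDiff f).continuous

theorem ev_differentiable (f : Sm n) : Differentiable ℝ (fun x => ev x f) :=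
  (ev_contDiff f).differentiable (by simp)

@[ext] theorem Sm.ext {f g : Sm n} (h : ∀ x, ev x f = ev x g) : f = g :=
  Subtype.ext (funext h)

theorem ev_smul (x : E n) (c : ℝ) (f : Sm n) : ev x (c • f) = c * ev x f := by
  rw [map_smul, smul_eq_mul]

/-- The constant function. -/
abbrev cst (c : ℝ) : Sm n := algebraMap ℝ (Sm n) c

theorem ev_cst (x : E n) (c : ℝ) : ev x (cst c : Sm n) = c := by simp [cst]

/-- Partial derivative in the coordinate `a` as a linear map. -/
def pdL (a : Fin n) : Sm n →ₗ[ℝ] Sm n where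
  toFun f := Sm.of (fun x => fderiv ℝ (fun y => ev y f) x (Pi.single a 1))
    (((ev_contDiff f).fderiv_right (m := ∞) (by simp)).clm_apply contDiff_const)
  map_add' f g := by
    ext x
    simp only [ev_of, map_add]
    rw [fderiv_fun_add (ev_differentiable f x) (ev_differentiable g x)]
    rfl
  map_smul' c f := by
    ext x
    simp only [ev_of, ev_smul, RingHom.id_apply]
    rw [fderiv_const_mul (ev_differentiable f x)]
    simp

/-- Partial derivative `∂/∂x_a` as a derivation of `Sm n`. -/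
def pd (a : Fin n) : Derivation ℝ (Sm n) (Sm n) :=
  Derivation.mk' (pdL a) (by
    intro f g
    ext x
    simp only [pdL, LinearMap.coe_mk, AddHom.coe_mk, ev_of, map_mul, map_add, smul_eq_mul]
    rw [fderiv_fun_mul (ev_differentiable f x) (ev_differentiable g x)]
    simp)

theorem ev_pd (x : E n) (a : Fin n) (f : Sm n) :
    ev x (pd a f) = fderiv ℝ (fun y => ev y f) x (Pi.single a 1) := rfl

/-- The coordinate function `x ↦ x a`. -/
def X (a : Fin n) : Sm n := Sm.of (fun x => x a) (contDiff_apply ℝ ℝ a)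

@[simp] theorem ev_X (x : E n) (a : Fin n) : ev x (X a) = x a := rfl

/-- Composition of a smooth real function with an element of `Sm n`. -/
def cmp (φ : ℝ → ℝ) (hφ : ContDiff ℝ ∞ φ) (f : Sm n) : Sm n :=
  Sm.of (fun x => φ (ev x f)) (hφ.comp (ev_contDiff f))

@[simp] theorem ev_cmp (φ : ℝ → ℝ) (hφ : ContDiff ℝ ∞ φ) (f : Sm n) (x : E n) :
    ev x (cmp φ hφ f) = φ (ev x f) := rfl

/-- `exp ∘ f`. -/
def expS (f : Sm n) : Sm n := cmp Real.exp Real.contDiff_exp f

@[simp] theorem ev_expS (f : Sm n) (x : E n) : ev x (expS f) = Real.exp (ev x f) := rfl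

/-- `log ∘ f` for a nowhere vanishing `f`. -/
def logS (f : Sm n) (hf : ∀ x, ev x f ≠ 0) : Sm n :=
  Sm.of (fun x => Real.log (ev x f)) ((ev_contDiff f).log hf)

@[simp] theorem ev_logS (f : Sm n) (hf : ∀ x, ev x f ≠ 0) (x : E n) :
    ev x (logS f hf) = Real.log (ev x f) := rfl

/-- `1 / f` for a nowhere vanishing `f`. -/
def invS (f : Sm n) (hf : ∀ x, ev x f ≠ 0) : Sm n :=
  Sm.of (fun x => (ev x f)⁻¹) ((ev_contDiff f).inv hf)

@[simp] theorem ev_invS (f : Sm n) (hf : ∀ x, ev x f ≠ 0) (x : E n) :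
    ev x (invS f hf) = (ev x f)⁻¹ := rfl

/-- The reflection `f ↦ f ∘ (-·)`. -/
def refl : Sm n →ₐ[ℝ] Sm n where
  toFun f := Sm.of (fun x => ev (-x) f) ((ev_contDiff f).comp contDiff_neg)
  map_one' := by ext x; simp
  map_mul' f g := by ext x; simp
  map_zero' := by ext x; simp
  map_add' f g := by ext x; simp
  commutes' c := by ext x; simp

@[simp] theorem ev_refl (f : Sm n) (x : E n) : ev x (refl f) = ev (-x) f := rfl

/-- Even functions. -/
def IsEv (f : Sm n) : Prop := refl f = f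
/-- Odd functions. -/
def IsOd (f : Sm n) : Prop := refl f = -f

/-- `|x|²` as a smooth function. -/
def nsq : Sm n := ∑ a, X a ^ 2

/-- The Japanese bracket `r x = √(1 + |x|²)`. -/
def r (x : E n) : ℝ := Real.sqrt (1 + ∑ a, x a ^ 2)

theorem one_add_sq_pos (x : E n) : 0 < 1 + ∑ a, x a ^ 2 := by positivity

/-- `rho s = r ^ s` as a smooth function. -/
def rho (s : ℝ) : Sm n :=
  Sm.of (fun x => (1 + ∑ a, x a ^ 2) ^ (s / 2))
    (ContDiff.rpow_const_of_ne (by fun_prop) (fun x => (one_add_sq_pos x).ne'))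

/-- `d k f x` = the sum of `|∂^α f (x)|` over all words `α` of length `k`. -/
def d : ℕ → Sm n → E n → ℝ
  | 0, f, x => |ev x f|
  | k + 1, f, x => ∑ a, d k (pd a f) x

/-- `q k f` = the sum of `(∂^α f)²` over all words `α` of length `k`, a smooth function. -/
def q : ℕ → Sm n → Sm n
  | 0, f => f ^ 2
  | k + 1, f => ∑ a, q k (pd a f)

/-- The weighted jet `J k f = ∑_{i ≤ k} r^i d_i f`. -/
def J (k : ℕ) (f : Sm n) (x : E n) : ℝ := ∑ i ∈ Finset.range (k + 1), r x ^ i * d i f x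

/-- Symbols of order `m`: `|∂^α f| ≤ C r^{m - |α|}`. -/
def Sym (m : ℝ) (f : Sm n) : Prop := ∀ k, ∃ C, ∀ x, J k f x ≤ C * r x ^ m

/-- Tempered functions: all derivatives grow at most polynomially. -/
def Tm (f : Sm n) : Prop := ∀ k, ∃ C s : ℝ, ∀ x, d k f x ≤ C * r x ^ s

/-- The weighted `L²` norm `‖F r^σ‖₂` of a plain function. -/
def nrm (σ : ℝ) (F : E n → ℝ) : ℝ := Real.sqrt (∫ x, (F x * r x ^ σ) ^ 2)

/-- The weighted Sobolev norm `‖J_k f · r^σ‖₂`. -/
def N (k : ℕ) (σ : ℝ) (f : Sm n) : ℝ := nrm σ (J k f)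

/-- The Gaussian `L²` norm (the "local" term in the estimates). -/
def Gn (f : Sm n) : ℝ := Real.sqrt (∫ x, ev x f ^ 2 * Real.exp (-(∑ a, x a ^ 2) / 2))

/-- The basic weight exponent. -/
def σ0 (n : ℕ) : ℝ := -(n : ℝ) / 2 - 3 / 4

/-- The working norm on `Sym 0`: `L²` control of `2n+3` derivatives and sup control of `n+1`. -/
def Y (f : Sm n) : ℝ := N (2 * n + 3) (σ0 n) f + ⨆ x, J (n + 1) f x

/-- Matrices of smooth functions. -/
abbrev Mat (n : ℕ) := Matrix (Fin n) (Fin n) (Sm n)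

/-- Evaluation of a matrix of smooth functions. -/
def evM (x : E n) (M : Mat n) : Matrix (Fin n) (Fin n) ℝ := M.map (ev x)

@[simp] theorem evM_apply (x : E n) (M : Mat n) (a b : Fin n) : evM x M a b = ev x (M a b) := rfl

/-- Entrywise partial derivative. -/
def pdM (a : Fin n) (M : Mat n) : Mat n := M.map (pd a)

@[simp] theorem pdM_apply (c : Fin n) (M : Mat n) (a b : Fin n) : pdM c M a b = pd c (M a b) := rfl

/-- The Hessian. -/
def hess (f : Sm n) : Mat n := Matrix.of fun a b => pd a (pd b f)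

@[simp] theorem hess_apply (f : Sm n) (a b : Fin n) : hess f a b = pd a (pd b f) := rfl

/-- Pointwise lower bound `c ≤ M` for the quadratic form of `M`. -/
def Low (c : ℝ) (M : Mat n) : Prop := ∀ x (v : E n), c * (v ⬝ᵥ v) ≤ v ⬝ᵥ (evM x M *ᵥ v)

/-- `τ` is symmetric, `c ≤ τ`, and its entries are bounded by `K`. -/
structure Ell (c K : ℝ) (τ : Mat n) : Prop where
  symm : τᵀ = τ
  low : Low c τ
  bd : ∀ x a b, |ev x (τ a b)| ≤ K

/-- The Euler operator `x · ∇`. -/
def eul (f : Sm n) : Sm n := ∑ a, X a * pd a f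

/-- `M : D² f`. -/
def con (M : Mat n) (f : Sm n) : Sm n := ∑ a, ∑ b, M a b * pd a (pd b f)

/-- The bilinear form `τ(∇f, ∇h)`. -/
def gam (τ : Mat n) (f h : Sm n) : Sm n := ∑ a, ∑ b, τ a b * pd a f * pd b h

/-- The operator `L = τ : D² - x · ∇`. -/
def Lop (τ : Mat n) (f : Sm n) : Sm n := con τ f - eul f

/-- The operator `T = L + λ`. -/
def Top (τ : Mat n) (l : ℝ) (f : Sm n) : Sm n := Lop τ f + l • f

/-- `d`-size of a matrix. -/
def dM (k : ℕ) (M : Mat n) (x : E n) : ℝ := ∑ a, ∑ b, d k (M a b) x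

/-- `J`-size of a matrix. -/
def JM (k : ℕ) (M : Mat n) (x : E n) : ℝ := ∑ a, ∑ b, J k (M a b) x

/-- All entries are symbols of order `m`. -/
def SymM (m : ℝ) (M : Mat n) : Prop := ∀ a b, Sym m (M a b)

/-- All entries have `Y`-norm at most `K`. -/
def YM (K : ℝ) (M : Mat n) : Prop := ∀ a b, Y (M a b) ≤ K

/-- Approximate solvability of `T ψ = f` in the norm `Y`; if `e` holds, for even `f` by even `ψ`. -/
def Solv (τ : Mat n) (l : ℝ) (e : Prop) : Prop :=
  ∀ f : Sm n, Sym 0 f → (e → IsEv f) → ∀ η > 0, ∃ ψ : Sm n, Sym (9 / 8) ψ ∧ (e → IsEv ψ) ∧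
    Sym 0 (Top τ l ψ) ∧ Y (Top τ l ψ - f) ≤ η

/-- A solution of the moment-measure (Kähler–Einstein) equation: with `u = |x|²/2 + ζ`,
`W = |x|²/2 + V`, `g = D²u`, `τ = g⁻¹`: `log det g = x·∇u - u - W`. -/
structure KE (n : ℕ) where
  ζ : Sm n
  V : Sm n
  τ : Mat n
  symζ : Sym (9 / 8) ζ
  symV : Sym 0 V
  symτ : SymM (-7 / 8) (τ - 1)
  inv : τ * (1 + hess ζ) = 1
  pos : ∀ x, (evM x (1 + hess ζ)).PosDef
  eqn : (1 + hess ζ).det = expS (eul ζ - ζ - V)
  evζ : IsEv ζ
  evV : IsEv V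

/-- `g = D²u`. -/
def KE.g (D : KE n) : Mat n := 1 + hess D.ζ
/-- `H = D²W`. -/
def KE.H (D : KE n) : Mat n := 1 + hess D.V
/-- `W = |x|²/2 + V`. -/
def Wp (V : Sm n) : Sm n := (1 / 2 : ℝ) • nsq + V
/-- Integration against `e^{-W}`, `W = |x|²/2 + V`. -/
def Iw (V : Sm n) (f : Sm n) : ℝ := ∫ x, ev x f * Real.exp (-ev x (Wp V))

end Crest.Agent.R238
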