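import Crest.Agent.R238.Norm

/-!
# Row 238: the weighted Sobolev embedding
-/

set_option autoImplicit false
open MeasureTheory Matrix
open scoped ContDiff BigOperators

noncomputable section
namespace Crest.Agent.R238

variable {n : ℕ}

theorem embed_ftc {φ φ' : ℝ → ℝ} (h : ∀ t, HasDerivAt φ (φ' t) t) (hc : Continuous φ')
    (h0 : Filter.Tendsto φ Filter.atBot (nhds 0)) (a : ℝ) :
    ENNReal.ofReal |φ a| ≤ ∫⁻ t, ENNReal.ofReal |φ' t| := by
  have h1 : Filter.Tendsto (fun T => ENNReal.ofReal |φ a - φ T|) Filter.atBot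
      (nhds (ENNReal.ofReal |φ a - 0|)) := ENNReal.tendsto_ofReal (h0.const_sub _).abs
  rw [sub_zero] at h1
  refine le_of_tendsto h1 ?_
  filter_upwards [Filter.eventually_le_atBot a] with T hT
  rw [← intervalIntegral.integral_eq_sub_of_hasDerivAt (fun t _ => h t) (hc.intervalIntegrable _ _),
    intervalIntegral.integral_of_le hT, ← Real.enorm_eq_ofReal_abs]
  refine (enorm_integral_le_lintegral_enorm _).trans ((setLIntegral_le_lintegral _ _).trans ?_)
  simp only [Real.enorm_eq_ofReal_abs, le_refl]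

theorem embed_marg (s : Finset (Fin n)) : ∀ {m : ℝ}, m < 0 → ∀ {h : Sm n}, Sym m h → ∀ x : E n,
    ENNReal.ofReal |ev x h| ≤
      (∫⋯∫⁻_s, (fun y => ENNReal.ofReal (d s.card h y)) ∂fun _ => (volume : Measure ℝ)) x := by
  induction s using Finset.induction_on with
  | empty =>
    intro m _ h _ x
    rw [lmarginal_empty]
    exact le_rfl
  | insert i s hi ih =>
    intro m hm h hh x
    rw [lmarginal_insert _ (continuous_d _ h).measurable.ennreal_ofReal hi,
      Finset.card_insert_of_notMem hi]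
    obtain ⟨C, -, hC⟩ := hh.abs_le
    have h0 : Filter.Tendsto (fun t : ℝ => ev (Function.update x i t) h) Filter.atBot (nhds 0) := by
      have h1 : Filter.Tendsto (fun t : ℝ => r (Function.update x i t)) Filter.atBot
          Filter.atTop := by
        refine Filter.tendsto_atTop_mono (fun t => ?_) Filter.tendsto_abs_atBot_atTop
        simpa using abs_le_r (Function.update x i t) i
      have h2 := ((tendsto_rpow_neg_atTop (neg_pos.2 hm)).comp h1).const_mul C
      rw [mul_zero, neg_neg] at h2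
      exact squeeze_zero_norm (fun t => hC _) h2
    have h3 := embed_ftc (hasDerivAt_ev_update h x i)
      ((ev_continuous (pd i h)).comp (continuous_const.update i continuous_id)) h0 (x i)
    rw [Function.update_eq_self] at h3
    refine h3.trans (lintegral_mono fun t => ?_)
    exact (ih (by linarith) (hh.pd i) _).trans
      (lmarginal_mono (fun y => ENNReal.ofReal_le_ofReal (d_pd_le _ i h y)) _)

/-- Iterated fundamental theorem of calculus: `|h x| ≤ ∫ d n h` for `h` decaying at infinity.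
Proof: for every finset `s` of coordinates and every `h` of negative order,
`ENNReal.ofReal |h x| ≤ (∫⋯∫⁻_s, fun y => ENNReal.ofReal (d s.card h y)) x` (`lmarginal`), by
induction on `s` generalizing `h, x`: `|h x| ≤ ∫⁻ t, |∂_i h (update x i t)|`
(`hasDerivAt_ev_update`, FTC on `(-T, x i)`, `T → ∞`, `h → 0`), `lmarginal_insert`,
`d k (pd i h) ≤ d (k+1) h`; finish with `lmarginal_univ` and `volume_pi`. -/
theorem abs_le_integral_d {m : ℝ} (hm : m < 0) {h : Sm n} (hh : Sym m h) (x : E n) :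
    |ev x h| ≤ ∫ y, d n h y := by
  have h1 := embed_marg Finset.univ hm hh x
  rw [lmarginal_univ, Finset.card_univ, Fintype.card_fin, ← volume_pi] at h1
  obtain ⟨C, -, hC⟩ := hh.d_le n
  have hi : Integrable (d n h) := integrable_of_le_rpow (s := m - n) (continuous_d n h)
    (by linarith)
    fun y => by rw [abs_of_nonneg (d_nonneg n h y)]; exact hC y
  rw [← ofReal_integral_eq_lintegral_ofReal hi (.of_forall (d_nonneg n h))] at h1
  exact (ENNReal.ofReal_le_ofReal_iff (integral_nonneg (d_nonneg n h))).1 h1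

/-- Apply `abs_le_integral_d` to `h = rho (2σ+n) * f * f`, `r^n d n h ≤ J n h ≤ C r^{2σ+n} (J n f)²`. -/
theorem embed (n : ℕ) (σ : ℝ) : ∃ C, 0 ≤ C ∧ ∀ (μ : ℝ) (f : Sm n), Sym μ f → μ + σ < -(n : ℝ) / 2 →
    ∀ x, |ev x f| * r x ^ (σ + n / 2) ≤ C * N n σ f := by
  obtain ⟨K, hK0, hK⟩ := (sym_rho (n := n) (2 * σ + n)).J_le n
  refine ⟨√(2 ^ n * 2 ^ n * K), Real.sqrt_nonneg _, fun μ f hf hμ x => ?_⟩
  have hh : Sym (2 * σ + n + (μ + μ)) (rho (2 * σ + n) * (f * f)) := (sym_rho _).mul (hf.mul hf)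
  have h1 := abs_le_integral_d (by linarith) hh x
  have h2 : ∀ y, d n (rho (2 * σ + n) * (f * f)) y ≤
      2 ^ n * 2 ^ n * K * (J n f y * r y ^ σ) ^ 2 := fun y => by
    have hr := r_pos y
    have e : r y ^ (2 * σ + n) = r y ^ n * (r y ^ σ) ^ 2 := by
      rw [show 2 * σ + n = n + (σ + σ) by ring, r_rpow_add, r_rpow_add, Real.rpow_natCast, sq]
    refine le_of_mul_le_mul_left ?_ (pow_pos hr n)
    refine (d_le_J le_rfl _ y).trans ((J_mul_le n _ _ y).trans ?_)
    calc 2 ^ n * (J n (rho (2 * σ + n)) y * J n (f * f) y)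
        ≤ 2 ^ n * (K * r y ^ (2 * σ + n) * (2 ^ n * (J n f y * J n f y))) :=
          mul_le_mul_of_nonneg_left (mul_le_mul (hK y) (J_mul_le n f f y) (J_nonneg _ _ _)
            (by positivity)) (by positivity)
      _ = _ := by rw [e]; ring
  have h3 := integral_mono_of_nonneg (.of_forall (d_nonneg n _))
    ((hf.adm_J hμ n).integrable.const_mul (2 ^ n * 2 ^ n * K)) (.of_forall h2)
  rw [integral_const_mul, ← nrm_sq] at h3
  refine (abs_le_of_sq_le_sq' ?_ (mul_nonneg (Real.sqrt_nonneg _) (N_nonneg _ _ _))).2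
  rw [mul_pow (√_), Real.sq_sqrt (by positivity)]
  refine le_of_eq_of_le ?_ (h1.trans h3)
  rw [map_mul, map_mul, ev_rho, abs_mul, abs_mul, abs_of_pos (r_rpow_pos x _),
    show 2 * σ + n = (σ + n / 2) + (σ + n / 2) by ring, r_rpow_add x (σ + n / 2)]
  ring

/-- Induction on `j` generalizing `σ, f` (`J_succ`, `N_pd_le`, `N_mono`). -/
theorem embed_J (n j : ℕ) (σ : ℝ) : ∃ C, 0 ≤ C ∧ ∀ (μ : ℝ) (f : Sm n), Sym μ f →
    μ + σ < -(n : ℝ) / 2 → ∀ x, J j f x * r x ^ (σ + n / 2) ≤ C * N (j + n) σ f := by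
  induction j generalizing σ with
  | zero =>
    obtain ⟨C, hC0, hC⟩ := embed n σ
    refine ⟨C, hC0, fun μ f hf hμ x => ?_⟩
    rw [J_zero_eq, zero_add]
    exact hC μ f hf hμ x
  | succ j ih =>
    obtain ⟨C, hC0, hC⟩ := embed n σ
    obtain ⟨C', hC0', hC'⟩ := ih (σ + 1)
    refine ⟨C + n * C', by positivity, fun μ f hf hμ x => ?_⟩
    have h1 : |ev x f| * r x ^ (σ + n / 2) ≤ C * N (j + 1 + n) σ f :=
      (hC μ f hf hμ x).trans (mul_le_mul_of_nonneg_left (N_mono (by omega) hf hμ) hC0)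
    have h2 : ∀ a, J j (pd a f) x * r x ^ (σ + 1 + n / 2) ≤ C' * N (j + 1 + n) σ f := fun a => by
      refine (hC' (μ - 1) _ (hf.pd a) (by linarith) x).trans (mul_le_mul_of_nonneg_left ?_ hC0')
      rw [show j + 1 + n = j + n + 1 by ring]
      exact N_pd_le _ a hf hμ
    have h3 := Finset.sum_le_sum fun a (_ : a ∈ Finset.univ) => h2 a
    rw [Finset.sum_const, Finset.card_univ, Fintype.card_fin, nsmul_eq_mul, ← Finset.sum_mul,
      show σ + 1 + n / 2 = 1 + (σ + n / 2) by ring, r_rpow_add, Real.rpow_one] at h3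
    rw [J_succ]
    linarith

end Crest.Agent.R238
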