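import Crest.Agent.R238.Energy0

/-!
# Row 238: the weighted `L²` estimate with gain of two derivatives
-/

set_option autoImplicit false
open MeasureTheory Matrix
open scoped ContDiff BigOperators

noncomputable section
namespace Crest.Agent.R238

variable {n : ℕ}

theorem energy_int {m t : ℝ} {g : Sm n} (hg : Sym m g) (h : m + t < -(n : ℝ)) :
    Integrable fun x => ev x g * r x ^ t := by
  simpa only [map_mul, ev_rho] using (hg.mul (sym_rho t)).integrable h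

theorem energy_sqrt {X M S : ℝ} (hM : 0 ≤ M) (hS : 0 ≤ S) (h : X ^ 2 ≤ M * S ^ 2) :
    X ≤ Real.sqrt M * S := by
  refine le_trans (le_abs_self X) (abs_le_of_sq_le_sq' ?_ (by positivity)).2
  rwa [sq_abs, mul_pow, Real.sq_sqrt hM]

theorem energy_rsq (x : E n) (s : ℝ) : r x ^ (2 * s) = (r x ^ s) ^ 2 := by
  rw [two_mul, r_rpow_add, sq]

theorem energy_nrm_zero (s : ℝ) (f : Sm n) :
    nrm s (d 0 f) ^ 2 = ∫ x, ev x f ^ 2 * r x ^ (2 * s) := by
  rw [nrm_sq]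
  simp only [d_zero_eq, mul_pow, sq_abs, energy_rsq]

theorem energy_nrm_le {μ s : ℝ} {f : Sm n} (hf : Sym μ f) (k : ℕ) (h : μ - k + s < -(n : ℝ) / 2) :
    nrm s (d k f) ^ 2 ≤ (n : ℝ) ^ k * ∫ x, ev x (q k f) * r x ^ (2 * s) := by
  rw [nrm_sq, ← integral_const_mul]
  refine integral_mono (hf.adm_d k h).integrable
    ((energy_int (Sym.q hf k) (by linarith)).const_mul _) fun x => ?_
  simp only [mul_pow, energy_rsq]
  rw [← mul_assoc]
  exact mul_le_mul_of_nonneg_right (d_sq_le_q k f x) (sq_nonneg _)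

theorem energy_q_le {μ s : ℝ} {f : Sm n} (hf : Sym μ f) (k : ℕ) (h : μ - k + s < -(n : ℝ) / 2) :
    ∫ x, ev x (q k f) * r x ^ (2 * s) ≤ nrm s (d k f) ^ 2 := by
  rw [nrm_sq]
  refine integral_mono (energy_int (Sym.q hf k) (by linarith)) (hf.adm_d k h).integrable fun x => ?_
  simp only [mul_pow, energy_rsq]
  exact mul_le_mul_of_nonneg_right (q_le_d_sq k f x) (sq_nonneg _)

theorem energy_q_nonneg (k : ℕ) (f : Sm n) (t : ℝ) : 0 ≤ ∫ x, ev x (q k f) * r x ^ t :=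
  integral_nonneg fun x => mul_nonneg (q_nonneg k f x) (r_rpow_pos x t).le

theorem energy_sq_int {μ t : ℝ} {f : Sm n} (hf : Sym μ f) (h : μ + μ + t < -(n : ℝ)) :
    Integrable fun x => ev x f ^ 2 * r x ^ t := by
  simpa only [map_mul, sq] using energy_int (hf.mul hf) h

theorem energy_gauss_int {μ : ℝ} {f : Sm n} (hf : Sym μ f) :
    Integrable fun x => ev x f ^ 2 * Real.exp (-(∑ a, x a ^ 2) / 2) := by
  have := (hf.tm.pow 2).integrable (sym_zero 0)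
  simpa only [map_pow, ev_Wp, map_zero, add_zero, neg_div] using this

theorem energy_Gn_sq (f : Sm n) :
    Gn f ^ 2 = ∫ x, ev x f ^ 2 * Real.exp (-(∑ a, x a ^ 2) / 2) :=
  Real.sq_sqrt (integral_nonneg fun x => by positivity)

/-- Level 0: `energy_core` with `s = σ - 1` (`p = 1 - l - n/2 - σ`); `|ψ f| ≤ (p/4) ψ² + f²/p`,
`r^{2σ-2} ≤ r^{2σ}`, and `rpow_le_small_add_gauss` absorbs `C ∫ ψ² r^{2σ-4}`. -/
theorem energy_zero (n : ℕ) {c : ℝ} (hc : 0 < c) (K : ℝ) {l σ : ℝ} (hp : 0 < 1 - l - n / 2 - σ) :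
    ∃ C, 0 ≤ C ∧ ∀ (τ : Mat n) (ψ : Sm n) (μ ν : ℝ), τᵀ = τ → Low c τ → SymM 0 τ →
      (∀ x, JM 1 τ x ≤ K) → Sym μ ψ → μ + σ - 1 < -(n : ℝ) / 2 →
      Sym ν (Top τ l ψ) → ν + σ < -(n : ℝ) / 2 →
      nrm (σ - 1) (d 1 ψ) + nrm (σ - 1) (d 0 ψ) ≤ C * (nrm σ (d 0 (Top τ l ψ)) + Gn ψ) := by
  obtain ⟨C, hC, H⟩ := energy_core n hc K l (σ - 1)
  obtain ⟨p, hpdef⟩ : ∃ p, p = 1 - l - n / 2 - σ := ⟨_, rfl⟩
  rw [← hpdef] at hp
  rw [show -l - n / 2 - (σ - 1) = p by rw [hpdef]; ring] at H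
  obtain ⟨C', hC', HG⟩ := rpow_le_small_add_gauss (n := n) (2 * (σ - 1)) (b := 2)
    (η := p / (4 * (C + 1))) two_pos (by positivity)
  obtain ⟨M, hM⟩ : ∃ M, M = 1 / p + C * C' := ⟨_, rfl⟩
  have hM0 : 0 ≤ M := by rw [hM]; positivity
  refine ⟨Real.sqrt (n * (2 / c * M)) + Real.sqrt (2 / p * M), by positivity, ?_⟩
  intro τ ψ μ ν hτ hlow hsym hK hψ hμ hf hν
  have h := H τ ψ μ hτ hlow hsym hK hψ (by linarith)
  generalize Top τ l ψ = f at *
  have iA : Integrable fun x => ev x ψ ^ 2 * r x ^ (2 * (σ - 1)) := energy_sq_int hψ (by linarith)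
  have iF : Integrable fun x => ev x f ^ 2 * r x ^ (2 * σ) := energy_sq_int hf (by linarith)
  have iB : Integrable fun x => ev x ψ * ev x f * r x ^ (2 * (σ - 1)) := by
    simpa only [map_mul] using energy_int (t := 2 * (σ - 1)) (hψ.mul hf) (by linarith)
  have h1 : -(∫ x, ev x ψ * ev x f * r x ^ (2 * (σ - 1))) ≤
      p / 4 * (∫ x, ev x ψ ^ 2 * r x ^ (2 * (σ - 1))) + 1 / p * ∫ x, ev x f ^ 2 * r x ^ (2 * σ) := by
    rw [← integral_neg, ← integral_const_mul, ← integral_const_mul,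
      ← integral_add (iA.const_mul _) (iF.const_mul _)]
    refine integral_mono iB.neg ((iA.const_mul _).add (iF.const_mul _)) fun x => ?_
    have a1 : r x ^ (2 * (σ - 1)) ≤ r x ^ (2 * σ) := r_rpow_mono x (by linarith)
    have a2 := r_rpow_pos x (2 * (σ - 1))
    have a3 : -(ev x ψ * ev x f) ≤ p / 4 * ev x ψ ^ 2 + 1 / p * ev x f ^ 2 := by
      have : p / 4 * ev x ψ ^ 2 + 1 / p * ev x f ^ 2 + ev x ψ * ev x f =
          (p / 2 * ev x ψ + ev x f) ^ 2 / p := by field_simp; ring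
      have : 0 ≤ (p / 2 * ev x ψ + ev x f) ^ 2 / p := by positivity
      linarith
    have a4 := mul_le_mul_of_nonneg_right a3 a2.le
    have a5 := mul_le_mul_of_nonneg_left a1 (show 0 ≤ 1 / p * ev x f ^ 2 by positivity)
    simp only
    nlinarith
  have h2 : ∫ x, ev x ψ ^ 2 * r x ^ (2 * (σ - 1) - 2) ≤
      p / (4 * (C + 1)) * (∫ x, ev x ψ ^ 2 * r x ^ (2 * (σ - 1))) + C' * Gn ψ ^ 2 := by
    rw [energy_Gn_sq, ← integral_const_mul, ← integral_const_mul,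
      ← integral_add (iA.const_mul _) ((energy_gauss_int hψ).const_mul _)]
    refine integral_mono (energy_sq_int hψ (by linarith))
      ((iA.const_mul _).add ((energy_gauss_int hψ).const_mul _)) fun x => ?_
    have := mul_le_mul_of_nonneg_left (HG x) (sq_nonneg (ev x ψ))
    simp only
    linarith
  have h3 := energy_nrm_le (s := σ - 1) hψ 1 (by push_cast; linarith)
  rw [← energy_nrm_zero] at h h1 h2
  rw [← energy_nrm_zero] at h1
  have h4 := energy_q_nonneg 1 ψ (2 * (σ - 1))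
  have n1 := nrm_nonneg σ (d 0 f)
  have n2 := Gn_nonneg ψ
  generalize ∫ x, ev x (q 1 ψ) * r x ^ (2 * (σ - 1)) = Q at *
  generalize nrm σ (d 0 f) = F at *
  generalize Gn ψ = G at *
  generalize nrm (σ - 1) (d 0 ψ) = A at *
  have h5 : C * (p / (4 * (C + 1)) * A ^ 2) ≤ p / 4 * A ^ 2 := by
    rw [← mul_assoc]
    refine mul_le_mul_of_nonneg_right ?_ (sq_nonneg A)
    rw [← mul_div_assoc, div_le_div_iff₀ (by positivity) (by positivity)]
    nlinarith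
  have h6 := mul_le_mul_of_nonneg_left h2 hC
  have h7 : 1 / p * F ^ 2 + C * C' * G ^ 2 ≤ M * (F + G) ^ 2 := by
    rw [hM, add_mul]
    refine add_le_add (mul_le_mul_of_nonneg_left (by nlinarith) (by positivity))
      (mul_le_mul_of_nonneg_left (by nlinarith) (by positivity))
  have h8 : c / 2 * Q + p / 2 * A ^ 2 ≤ M * (F + G) ^ 2 := by linarith
  have h9 : Q ≤ 2 / c * M * (F + G) ^ 2 := by
    have : c / 2 * Q ≤ M * (F + G) ^ 2 := by nlinarith [sq_nonneg A]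
    calc Q = 2 / c * (c / 2 * Q) := by field_simp
      _ ≤ 2 / c * (M * (F + G) ^ 2) := by gcongr
      _ = _ := by ring
  have h10 : A ^ 2 ≤ 2 / p * M * (F + G) ^ 2 := by
    have : p / 2 * A ^ 2 ≤ M * (F + G) ^ 2 := by nlinarith
    calc A ^ 2 = 2 / p * (p / 2 * A ^ 2) := by field_simp
      _ ≤ 2 / p * (M * (F + G) ^ 2) := by gcongr
      _ = _ := by ring
  rw [add_mul]
  refine add_le_add (energy_sqrt (by positivity) (by positivity) (h3.trans ?_))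
    (energy_sqrt (by positivity) (by positivity) h10)
  rw [pow_one, mul_assoc]
  gcongr

/-- the integrand after integration by parts -/
def energy_T (τ : Mat n) (ψ f : Sm n) (t : ℝ) (e : Fin n) : Sm n :=
  f * pd e (pd e ψ) * rho t + f * pd e ψ * pd e (rho t) + pd e ψ * con (pdM e τ) ψ * rho t

theorem energy_T_sym {τ : Mat n} {ψ f : Sm n} {μ ν : ℝ} (hτ : SymM 0 τ) (hψ : Sym μ ψ)
    (hf : Sym ν f) {σ m : ℝ} (h1 : ν + (μ - 1 - 1) + 2 * σ ≤ m) (h2 : 2 * (μ - 1) + 2 * σ ≤ m)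
    (e : Fin n) : Sym m (energy_T τ ψ f (2 * σ) e) :=
  ((((hf.mul ((hψ.pd e).pd e)).mul (sym_rho _)).mono h1).add
    (((hf.mul (hψ.pd e)).mul ((sym_rho _).pd e)).mono (by linarith))).add
    ((((hψ.pd e).mul (Sym.con (hτ.pdM e) hψ)).mul (sym_rho _)).mono (by linarith))

theorem energy_parts {τ : Mat n} {ψ : Sm n} {μ ν l σ : ℝ} (hτ : SymM 0 τ) (hψ : Sym μ ψ)
    (hf : Sym ν (Top τ l ψ)) (hμ : μ + σ - 1 < -(n : ℝ) / 2) (hν : ν + σ < -(n : ℝ) / 2)
    (e : Fin n) :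
    -(∫ x, ev x (pd e ψ) * ev x (Top τ (l - 1) (pd e ψ)) * r x ^ (2 * σ)) =
      ∫ x, ev x (energy_T τ ψ (Top τ l ψ) (2 * σ) e) := by
  have hs : Sym (ν + (μ - 1) + 2 * σ) (Top τ l ψ * pd e ψ * rho (2 * σ)) :=
    (hf.mul (hψ.pd e)).mul (sym_rho _)
  have h0 := hs.integral_pd (by linarith) e
  have hT := (energy_T_sym (σ := σ) hτ hψ hf (le_max_left _ _) (le_max_right _ _) e).integrable
    (max_lt (by linarith) (by linarith))
  have hP := (hs.pd e).integrable (by linarith)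
  rw [← integral_neg, ← sub_zero (∫ x, ev x (energy_T τ ψ (Top τ l ψ) (2 * σ) e)), ← h0,
    ← integral_sub hT hP]
  refine integral_congr_ae (Filter.Eventually.of_forall fun x => ?_)
  simp only [energy_T, pd_mul, pd_Top, map_add, map_mul, ev_rho]
  ring

theorem energy_T_le {τ : Mat n} {K : ℝ} (hK : ∀ x, JM 1 τ x ≤ K) (ψ f : Sm n) (σ : ℝ) (x : E n) :
    ∑ e, ev x (energy_T τ ψ f (2 * σ) e) ≤
      (d 0 f x * r x ^ σ) * (d 2 ψ x * r x ^ σ) +
        2 * |σ| * ((d 0 f x * r x ^ σ) * (d 1 ψ x * r x ^ (σ - 1))) +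
        K * ((d 1 ψ x * r x ^ (σ - 1)) * (d 2 ψ x * r x ^ σ)) := by
  have r0 := r_pos x
  have a0 := r_rpow_pos x σ
  have b0 := r_rpow_pos x (σ - 1)
  have e1 : r x ^ σ = r x ^ (σ - 1) * r x := by
    conv_lhs => rw [show σ = (σ - 1) + 1 by ring, r_rpow_add, Real.rpow_one]
  have e2 : r x ^ (2 * σ - 2) = (r x ^ (σ - 1)) ^ 2 := by
    rw [← energy_rsq]; congr 1; ring
  simp only [energy_T, map_add, map_mul, ev_rho, Finset.sum_add_distrib, energy_rsq]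
  refine add_le_add (add_le_add ?_ ?_) ?_
  · calc ∑ e, ev x f * ev x (pd e (pd e ψ)) * (r x ^ σ) ^ 2
        ≤ ∑ e, d 0 f x * d 1 (pd e ψ) x * (r x ^ σ) ^ 2 := by
          refine Finset.sum_le_sum fun e _ => mul_le_mul_of_nonneg_right ?_ (sq_nonneg _)
          refine (le_abs_self _).trans ?_
          rw [abs_mul]
          exact mul_le_mul_of_nonneg_left (abs_pd_le e _ x) (abs_nonneg _)
      _ = _ := by
          rw [← Finset.sum_mul, ← Finset.mul_sum, ← d_succ]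
          ring
  · calc ∑ e, ev x f * ev x (pd e ψ) * ev x (pd e (rho (2 * σ)))
        ≤ ∑ e, d 0 f x * d 0 (pd e ψ) x * (2 * |σ| * (r x * (r x ^ (σ - 1)) ^ 2)) := by
          refine Finset.sum_le_sum fun e _ => (le_abs_self _).trans ?_
          rw [abs_mul, abs_mul]
          refine mul_le_mul_of_nonneg_left ?_ (mul_nonneg (abs_nonneg _) (abs_nonneg _))
          rw [pd_rho, ev_smul, map_mul, ev_X, ev_rho, e2, abs_mul, abs_mul, abs_mul, abs_two,
            abs_of_nonneg (sq_nonneg (r x ^ (σ - 1)))]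
          gcongr
          exact abs_le_r x e
      _ = _ := by
          rw [← Finset.sum_mul, ← Finset.mul_sum, ← d_succ, e1]
          ring
  · have hd : r x * dM 1 τ x ≤ K := by simpa using (dM_le_JM le_rfl τ x).trans (hK x)
    calc ∑ e, ev x (pd e ψ) * ev x (con (pdM e τ) ψ) * (r x ^ σ) ^ 2
        ≤ ∑ e, d 1 ψ x * (dM 0 (pdM e τ) x * d 2 ψ x) * (r x ^ σ) ^ 2 := by
          refine Finset.sum_le_sum fun e _ => mul_le_mul_of_nonneg_right ?_ (sq_nonneg _)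
          refine (le_abs_self _).trans ?_
          rw [abs_mul]
          refine mul_le_mul (abs_pd_le e _ x) ?_ (abs_nonneg _) (d_nonneg _ _ _)
          simpa [d_zero_eq] using d_con_le 0 (pdM e τ) ψ x
      _ = (r x * dM 1 τ x) * ((d 1 ψ x * r x ^ (σ - 1)) * (d 2 ψ x * r x ^ σ)) := by
          rw [← Finset.sum_mul, ← Finset.mul_sum, ← Finset.sum_mul, ← dM_succ, sq]
          nth_rewrite 1 [e1]
          ring
      _ ≤ _ := mul_le_mul_of_nonneg_right hd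
          (mul_nonneg (mul_nonneg (d_nonneg _ _ _) b0.le) (mul_nonneg (d_nonneg _ _ _) a0.le))

theorem energy_young {ε F A B K s : ℝ} (hε : 0 < ε) :
    F * B + 2 * s * (F * A) + K * (A * B) ≤
      2 * ε * B ^ 2 + (1 / (4 * ε) + s ^ 2) * F ^ 2 + (K ^ 2 / (4 * ε) + 1) * A ^ 2 := by
  have h1 : ε * B ^ 2 + 1 / (4 * ε) * F ^ 2 - F * B = (2 * ε * B - F) ^ 2 / (4 * ε) := by
    field_simp; ring
  have h2 : ε * B ^ 2 + K ^ 2 / (4 * ε) * A ^ 2 - K * (A * B) = (2 * ε * B - K * A) ^ 2 / (4 * ε) := by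
    field_simp; ring
  have h3 : 0 ≤ (2 * ε * B - F) ^ 2 / (4 * ε) := by positivity
  have h4 : 0 ≤ (2 * ε * B - K * A) ^ 2 / (4 * ε) := by positivity
  nlinarith [sq_nonneg (s * F - A)]

/-- Level 1: `energy_core` for `∂_eψ` with `(l - 1, σ)`, `Top τ (l-1) (∂_eψ) = ∂_e f - con (pdM e τ) ψ`
(`pd_Top`), integrate `∫ ∂_eψ ∂_e f w` by parts (`Sym.integral_pd` for `f ∂_eψ w`), sum over `e`
(`q 2 ψ = ∑ q 1 (∂_eψ)`): the right side is at most
`(c/4) ∫ q₂ψ w + C ∫ f² w + C ∫ (d₁ψ)² r^{2σ-2}`, the last term is controlled by `energy_zero`. -/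
theorem energy (n : ℕ) {c : ℝ} (hc : 0 < c) (K : ℝ) {l σ : ℝ} (hp : 0 < 1 - l - n / 2 - σ) :
    ∃ C, 0 ≤ C ∧ ∀ (τ : Mat n) (ψ : Sm n) (μ ν : ℝ), τᵀ = τ → Low c τ → SymM 0 τ →
      (∀ x, JM 1 τ x ≤ K) → Sym μ ψ → μ + σ - 1 < -(n : ℝ) / 2 →
      Sym ν (Top τ l ψ) → ν + σ < -(n : ℝ) / 2 →
      nrm σ (d 2 ψ) + nrm σ (d 1 ψ) ≤ C * (nrm σ (d 0 (Top τ l ψ)) + Gn ψ) := by
  obtain ⟨C₀, hC₀, H₀⟩ := energy_zero n hc K hp
  obtain ⟨C, hC, H⟩ := energy_core n hc K (l - 1) σ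
  obtain ⟨p, hpdef⟩ : ∃ p, p = 1 - l - n / 2 - σ := ⟨_, rfl⟩
  rw [← hpdef] at hp
  rw [show -(l - 1) - n / 2 - σ = p by rw [hpdef]; ring] at H
  obtain ⟨ε, hεdef⟩ : ∃ ε, ε = c / (8 * ((n : ℝ) ^ 2 + 1)) := ⟨_, rfl⟩
  have hε : 0 < ε := by rw [hεdef]; positivity
  have hε' : 2 * ε * (n : ℝ) ^ 2 ≤ c / 4 := by
    have : ε * (8 * ((n : ℝ) ^ 2 + 1)) = c := by rw [hεdef]; field_simp
    nlinarith
  obtain ⟨M, hM⟩ : ∃ M, M = (1 / (4 * ε) + |σ| ^ 2) + (K ^ 2 / (4 * ε) + 1 + C) * C₀ ^ 2 := ⟨_, rfl⟩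
  have hM0 : 0 ≤ M := by rw [hM]; positivity
  refine ⟨Real.sqrt (n ^ 2 * (4 / c * M)) + Real.sqrt (n * (1 / p * M)), by positivity, ?_⟩
  intro τ ψ μ ν hτ hlow hsym hK hψ hμ hf hν
  have h₀ := H₀ τ ψ μ ν hτ hlow hsym hK hψ hμ hf hν
  have h := Finset.sum_le_sum (s := Finset.univ) fun e _ =>
    H τ (pd e ψ) (μ - 1) hτ hlow hsym hK (hψ.pd e) (by linarith)
  simp only [energy_parts hsym hψ hf hμ hν] at h
  generalize Top τ l ψ = f at *
  have iT : ∀ e, Integrable fun x => ev x (energy_T τ ψ f (2 * σ) e) := fun e =>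
    (energy_T_sym hsym hψ hf (le_max_left _ _) (le_max_right _ _) e).integrable
      (max_lt (by linarith) (by linarith))
  have s2 : ∑ e, ∫ x, ev x (q 1 (pd e ψ)) * r x ^ (2 * σ) = ∫ x, ev x (q 2 ψ) * r x ^ (2 * σ) := by
    rw [← integral_finsetSum _ fun e _ =>
      energy_int (Sym.q (hψ.pd e) 1) (by push_cast; linarith)]
    simp only [q_succ 1 ψ, map_sum, Finset.sum_mul]
  have s1 : ∀ t, t ≤ 2 * σ →
      ∑ e, ∫ x, ev x (pd e ψ) ^ 2 * r x ^ t = ∫ x, ev x (q 1 ψ) * r x ^ t := by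
    intro t ht
    rw [← integral_finsetSum _ fun e _ => energy_sq_int (hψ.pd e) (by linarith)]
    simp only [ev_q_one, Finset.sum_mul]
  simp only [Finset.sum_add_distrib, ← Finset.mul_sum] at h
  rw [s2, s1 _ le_rfl, s1 _ (by linarith), ← integral_finsetSum _ fun e _ => iT e,
    show 2 * σ - 2 = 2 * (σ - 1) by ring] at h
  have a0 : Adm σ (d 0 f) := hf.adm_d 0 (by push_cast; linarith)
  have a1 : Adm (σ - 1) (d 1 ψ) := hψ.adm_d 1 (by push_cast; linarith)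
  have a2 : Adm σ (d 2 ψ) := hψ.adm_d 2 (by push_cast; linarith)
  have h1 : ∫ x, ∑ e, ev x (energy_T τ ψ f (2 * σ) e) ≤
      2 * ε * nrm σ (d 2 ψ) ^ 2 + (1 / (4 * ε) + |σ| ^ 2) * nrm σ (d 0 f) ^ 2 +
        (K ^ 2 / (4 * ε) + 1) * nrm (σ - 1) (d 1 ψ) ^ 2 := by
    have i12 : Integrable fun x => 2 * ε * (d 2 ψ x * r x ^ σ) ^ 2 +
        (1 / (4 * ε) + |σ| ^ 2) * (d 0 f x * r x ^ σ) ^ 2 :=
      (a2.integrable.const_mul _).add (a0.integrable.const_mul _)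
    rw [nrm_sq, nrm_sq, nrm_sq, ← integral_const_mul, ← integral_const_mul, ← integral_const_mul,
      ← integral_add (a2.integrable.const_mul _) (a0.integrable.const_mul _),
      ← integral_add i12 (a1.integrable.const_mul _)]
    exact integral_mono (integrable_finsetSum _ fun e _ => iT e)
      (i12.add (a1.integrable.const_mul _)) fun x => (energy_T_le hK ψ f σ x).trans (energy_young hε)
  have h2 := energy_nrm_le (s := σ) hψ 2 (by push_cast; linarith)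
  have h3 := energy_nrm_le (s := σ) hψ 1 (by push_cast; linarith)
  have h4 := energy_q_le (s := σ - 1) hψ 1 (by push_cast; linarith)
  have q2 := energy_q_nonneg 2 ψ (2 * σ)
  have q1 := energy_q_nonneg 1 ψ (2 * σ)
  have n1 := nrm_nonneg σ (d 0 f)
  have n2 := Gn_nonneg ψ
  have n3 := nrm_nonneg (σ - 1) (d 1 ψ)
  have n4 := nrm_nonneg (σ - 1) (d 0 ψ)
  generalize ∫ x, ev x (q 2 ψ) * r x ^ (2 * σ) = Q₂ at *
  generalize ∫ x, ev x (q 1 ψ) * r x ^ (2 * σ) = Q₁ at *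
  generalize nrm σ (d 0 f) = F at *
  generalize Gn ψ = G at *
  generalize nrm (σ - 1) (d 1 ψ) = A at *
  have h5 : A ^ 2 ≤ C₀ ^ 2 * (F + G) ^ 2 := by
    rw [← mul_pow]
    exact pow_le_pow_left₀ n3 (by linarith) 2
  have h6 := mul_le_mul_of_nonneg_left h4 hC
  have h7 : 2 * ε * nrm σ (d 2 ψ) ^ 2 ≤ c / 4 * Q₂ :=
    (mul_le_mul_of_nonneg_left h2 (by positivity)).trans (by
      rw [← mul_assoc]; exact mul_le_mul_of_nonneg_right hε' q2)
  have h8 : (1 / (4 * ε) + |σ| ^ 2) * F ^ 2 + (K ^ 2 / (4 * ε) + 1 + C) * A ^ 2 ≤ M * (F + G) ^ 2 := by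
    rw [hM, add_mul _ _ ((F + G) ^ 2), mul_assoc]
    exact add_le_add (mul_le_mul_of_nonneg_left (pow_le_pow_left₀ n1 (by linarith) 2)
      (by positivity)) (mul_le_mul_of_nonneg_left h5 (by positivity))
  have h9 : c / 4 * Q₂ + p * Q₁ ≤ M * (F + G) ^ 2 := by linarith
  have h10 : Q₂ ≤ 4 / c * M * (F + G) ^ 2 := by
    have : c / 4 * Q₂ ≤ M * (F + G) ^ 2 := by linarith [mul_nonneg hp.le q1]
    calc Q₂ = 4 / c * (c / 4 * Q₂) := by field_simp
      _ ≤ 4 / c * (M * (F + G) ^ 2) := by gcongr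
      _ = _ := by ring
  have h11 : Q₁ ≤ 1 / p * M * (F + G) ^ 2 := by
    have : p * Q₁ ≤ M * (F + G) ^ 2 := by linarith [mul_nonneg hc.le q2]
    calc Q₁ = 1 / p * (p * Q₁) := by field_simp
      _ ≤ 1 / p * (M * (F + G) ^ 2) := by gcongr
      _ = _ := by ring
  rw [add_mul]
  refine add_le_add (energy_sqrt (by positivity) (by positivity) (h2.trans ?_))
    (energy_sqrt (by positivity) (by positivity) (h3.trans ?_))
  · rw [mul_assoc]
    gcongr
  · rw [pow_one, mul_assoc]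
    gcongr

end Crest.Agent.R238
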