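import Crest.Agent.R238.Norm

/-!
# Row 238: the basic weighted energy inequality
-/

set_option autoImplicit false
open MeasureTheory Matrix
open scoped ContDiff BigOperators

noncomputable section
namespace Crest.Agent.R238

variable {n : ℕ}

theorem energy0_idA (τ : Mat n) (ψ w : Sm n) :
    ∑ a, pd a (ψ * w * ∑ b, τ a b * pd b ψ) = w * gam τ ψ ψ + ψ * w * con τ ψ +
      ψ * w * (∑ a, ∑ b, pd a (τ a b) * pd b ψ) + ψ * ∑ a, ∑ b, τ a b * pd a w * pd b ψ := by
  simp only [pd_mul, map_sum, gam, con, Finset.mul_sum, ← Finset.sum_add_distrib]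
  refine Finset.sum_congr rfl fun a _ => Finset.sum_congr rfl fun b _ => ?_
  ring

theorem energy0_idB (ψ : Sm n) (t : ℝ) :
    ∑ a, pd a (X a * ψ ^ 2 * rho t) = (n : ℝ) • (ψ ^ 2 * rho t) + 2 * ψ * rho t * eul ψ +
      t • (ψ ^ 2 * (rho t - rho (t - 2))) := by
  have h1 : (rho t - rho (t - 2) : Sm n) = nsq * rho (t - 2) := by
    have : (rho t : Sm n) = rho 2 * rho (t - 2) := by rw [← rho_add]; congr 1; ring
    rw [this, rho_two]; ring
  have h2 : (n : ℝ) • (ψ ^ 2 * rho t) = ∑ _a : Fin n, ψ ^ 2 * rho t := by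
    rw [Finset.sum_const, Finset.card_univ, Fintype.card_fin, Nat.cast_smul_eq_nsmul]
  rw [h1, h2]
  simp only [pd_mul, pd_sq, pd_X, pd_rho, if_true, eul, nsq, Finset.mul_sum, Finset.sum_mul,
    ← Finset.sum_add_distrib, Algebra.smul_def]
  refine Finset.sum_congr rfl fun a _ => ?_
  ring

theorem energy0_cross {ι : Type*} [Fintype ι] (u : ι → ι → ℝ) (g : ι → ℝ) :
    |∑ a, ∑ b, u a b * g b| ≤ (∑ a, ∑ b, |u a b|) * ∑ b, |g b| := by
  rw [Finset.sum_mul]
  refine (Finset.abs_sum_le_sum_abs _ _).trans (Finset.sum_le_sum fun a _ => ?_)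
  rw [Finset.sum_mul]
  refine (Finset.abs_sum_le_sum_abs _ _).trans (Finset.sum_le_sum fun b _ => ?_)
  rw [abs_mul]
  exact mul_le_mul_of_nonneg_left
    (Finset.single_le_sum (f := fun b => |g b|) (fun _ _ => abs_nonneg _) (Finset.mem_univ b))
    (abs_nonneg _)

/-- Let `w = rho (2s)`. Integrate (`Sym.integral_pd`) the identities in `Sm n`
* `∑_a ∂_a (ψ w ∑_b τ_ab ∂_bψ) = w gam τ ψ ψ + ψ w con τ ψ + ψ w ∑ ∂_aτ_ab ∂_bψ + ψ ∑ τ_ab ∂_a w ∂_bψ`,
* `∑_a ∂_a (X_a ψ² w) = n ψ² w + 2 ψ w eul ψ + 2 s ψ² (w - rho (2s-2))`  (`nsq * rho (t-2) = rho t - rho (t-2)`).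
This gives `-∫ψ Tψ w = ∫ w gam + (-l - n/2 - s) ∫ψ² w + s ∫ψ² r^{2s-2} + cross terms`;
the cross terms are bounded by `C |ψ| d₁ψ w / r ≤ (c/2) q₁ψ w + C' ψ² r^{2s-2}`
(`|τ_ab| ≤ K`, `|∂τ_ab| ≤ K / r`, `|∂_a w| ≤ 2|s| r^{2s-1}`, `d_sq_le_q`), and `c q₁ψ ≤ gam` (`Low.gam`). -/
theorem energy_core (n : ℕ) {c : ℝ} (hc : 0 < c) (K l s : ℝ) :
    ∃ C, 0 ≤ C ∧ ∀ (τ : Mat n) (ψ : Sm n) (μ : ℝ), τᵀ = τ → Low c τ → SymM 0 τ →
      (∀ x, JM 1 τ x ≤ K) → Sym μ ψ → μ + s < -(n : ℝ) / 2 →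
      c / 2 * (∫ x, ev x (q 1 ψ) * r x ^ (2 * s))
        + (-l - n / 2 - s) * ∫ x, ev x ψ ^ 2 * r x ^ (2 * s)
      ≤ -(∫ x, ev x ψ * ev x (Top τ l ψ) * r x ^ (2 * s))
        + C * ∫ x, ev x ψ ^ 2 * r x ^ (2 * s - 2) := by
  set L : ℝ := K * (1 + 2 * |s|) with hL
  set ε : ℝ := c / (2 * (n + 1)) with hε
  have hε0 : 0 < ε := by positivity
  have hεn : ε * n ≤ c / 2 := by
    rw [hε, div_mul_eq_mul_div, div_le_div_iff₀ (by positivity) (by positivity)]
    nlinarith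
  refine ⟨|s| + L ^ 2 / (4 * ε), by positivity, fun τ ψ μ _ hlow hτ hK hψ hμ => ?_⟩
  have hK0 : 0 ≤ K := (JM_nonneg 1 τ 0).trans (hK 0)
  have sA : ∀ a, Sym (μ + 2 * s + (μ - 1)) (ψ * rho (2 * s) * ∑ b, τ a b * pd b ψ) := fun a =>
    (hψ.mul (sym_rho _)).mul (Sym.sum _ fun b _ => (hτ a b).zero_mul (hψ.pd b))
  have sq2 : Sym (μ + μ) (ψ ^ 2) := by rw [sq]; exact hψ.mul hψ
  have sB : ∀ a, Sym (1 + (μ + μ) + 2 * s) (X a * ψ ^ 2 * rho (2 * s)) := fun a =>
    ((sym_X a).mul sq2).mul (sym_rho _)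
  have iA : ∀ a, Integrable fun x => ev x (pd a (ψ * rho (2 * s) * ∑ b, τ a b * pd b ψ)) :=
    fun a => ((sA a).pd a).integrable (by linarith)
  have iB : ∀ a, Integrable fun x => ev x (pd a (X a * ψ ^ 2 * rho (2 * s))) :=
    fun a => ((sB a).pd a).integrable (by linarith)
  have zA : ∫ x, ∑ a, ev x (pd a (ψ * rho (2 * s) * ∑ b, τ a b * pd b ψ)) = 0 := by
    rw [integral_finsetSum _ fun a _ => iA a]
    exact Finset.sum_eq_zero fun a _ => (sA a).integral_pd (by linarith) a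
  have zB : ∫ x, ∑ a, ev x (pd a (X a * ψ ^ 2 * rho (2 * s))) = 0 := by
    rw [integral_finsetSum _ fun a _ => iB a]
    exact Finset.sum_eq_zero fun a _ => (sB a).integral_pd (by linarith) a
  have iA' := integrable_finsetSum Finset.univ fun a _ => iA a
  have iB' := integrable_finsetSum Finset.univ fun a _ => iB a
  have i1 : Integrable fun x => ev x (q 1 ψ) * r x ^ (2 * s) := by
    have := ((hψ.q 1).mul (sym_rho (2 * s))).integrable (by push_cast; linarith)
    simpa only [map_mul, ev_rho] using this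
  have i2 : Integrable fun x => ev x ψ ^ 2 * r x ^ (2 * s) := by
    have := (sq2.mul (sym_rho (2 * s))).integrable (by linarith)
    simpa only [map_mul, map_pow, ev_rho] using this
  have i3 : Integrable fun x => ev x ψ * ev x (Top τ l ψ) * r x ^ (2 * s) := by
    have := ((hψ.mul (Sym.Top hτ l hψ)).mul (sym_rho (2 * s))).integrable (by linarith)
    simpa only [map_mul, ev_rho] using this
  have i4 : Integrable fun x => ev x ψ ^ 2 * r x ^ (2 * s - 2) := by
    have := (sq2.mul (sym_rho (2 * s - 2))).integrable (by linarith)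
    simpa only [map_mul, map_pow, ev_rho] using this
  have pt : ∀ x, c / 2 * (ev x (q 1 ψ) * r x ^ (2 * s)) +
      (-l - n / 2 - s) * (ev x ψ ^ 2 * r x ^ (2 * s)) +
      ev x ψ * ev x (Top τ l ψ) * r x ^ (2 * s) -
      (|s| + L ^ 2 / (4 * ε)) * (ev x ψ ^ 2 * r x ^ (2 * s - 2)) ≤
      ∑ a, ev x (pd a (ψ * rho (2 * s) * ∑ b, τ a b * pd b ψ)) -
        1 / 2 * ∑ a, ev x (pd a (X a * ψ ^ 2 * rho (2 * s))) := by
    intro x
    rw [← map_sum, ← map_sum, energy0_idA, energy0_idB]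
    simp only [Top, Lop, map_add, map_sub, map_mul, map_pow, ev_smul, ev_rho, map_sum, pd_rho, ev_X,
      ev_ofNat]
    have hR := one_le_r x
    have hR0 := r_pos x
    have hW : 0 < r x ^ (2 * s - 2) := r_rpow_pos x _
    have hw : r x ^ (2 * s) = r x ^ 2 * r x ^ (2 * s - 2) := by
      rw [← Real.rpow_two, ← r_rpow_add]; congr 1; ring
    have hg := hlow.gam ψ x
    rw [← ev_q_one] at hg
    have hD : d 1 ψ x = ∑ b, |ev x (pd b ψ)| := rfl
    have hDq := d_sq_le_q 1 ψ x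
    rw [pow_one] at hDq
    have hq0 := q_nonneg 1 ψ x
    have hD0 := d_nonneg 1 ψ x
    have c1 : r x * |∑ a, ∑ b, ev x (pd a (τ a b)) * ev x (pd b ψ)| ≤ K * d 1 ψ x := by
      have h1 := energy0_cross (fun a b => ev x (pd a (τ a b))) (fun b => ev x (pd b ψ))
      have h2 : ∑ a, ∑ b, |ev x (pd a (τ a b))| ≤ dM 1 τ x :=
        Finset.sum_le_sum fun a _ => Finset.sum_le_sum fun b _ => abs_pd_le a _ x
      have h3 := (dM_le_JM le_rfl τ x).trans (hK x)
      rw [pow_one] at h3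
      rw [← hD] at h1
      calc _ ≤ r x * (dM 1 τ x * d 1 ψ x) := by
            refine mul_le_mul_of_nonneg_left (h1.trans ?_) hR0.le
            exact mul_le_mul_of_nonneg_right h2 hD0
        _ = r x * dM 1 τ x * d 1 ψ x := by ring
        _ ≤ K * d 1 ψ x := mul_le_mul_of_nonneg_right h3 hD0
    have c2 : |∑ a, ∑ b, ev x (τ a b) * x a * ev x (pd b ψ)| ≤ r x * K * d 1 ψ x := by
      have h1 := energy0_cross (fun a b => ev x (τ a b) * x a) (fun b => ev x (pd b ψ))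
      have h2 : ∑ a, ∑ b, |ev x (τ a b) * x a| ≤ r x * dM 0 τ x := by
        unfold dM
        rw [Finset.mul_sum]
        refine Finset.sum_le_sum fun a _ => ?_
        rw [Finset.mul_sum]
        refine Finset.sum_le_sum fun b _ => ?_
        rw [abs_mul, mul_comm, d_zero_eq]
        exact mul_le_mul_of_nonneg_right (abs_le_r x a) (abs_nonneg _)
      have h3 := (dM_le_JM (Nat.zero_le 1) τ x).trans (hK x)
      rw [pow_zero, one_mul] at h3
      rw [← hD] at h1
      refine h1.trans (mul_le_mul_of_nonneg_right (h2.trans ?_) hD0)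
      exact mul_le_mul_of_nonneg_left h3 hR0.le
    have e2 : ∑ a, ∑ b, ev x (τ a b) * (2 * s * (x a * r x ^ (2 * s - 2))) * ev x (pd b ψ) =
        2 * s * r x ^ (2 * s - 2) * ∑ a, ∑ b, ev x (τ a b) * x a * ev x (pd b ψ) := by
      simp only [Finset.mul_sum]
      refine Finset.sum_congr rfl fun a _ => Finset.sum_congr rfl fun b _ => ?_
      ring
    rw [e2, hw]
    generalize ∑ a, ∑ b, ev x (τ a b) * x a * ev x (pd b ψ) = S2 at *
    generalize ∑ a, ∑ b, ev x (pd a (τ a b)) * ev x (pd b ψ) = S1 at *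
    generalize r x ^ (2 * s - 2) = W at *
    generalize ev x (gam τ ψ ψ) = G at *
    generalize ev x (q 1 ψ) = Q at *
    generalize ev x (con τ ψ) = Cn at *
    generalize ev x (eul ψ) = Eu at *
    generalize ev x ψ = P at *
    generalize d 1 ψ x = D at *
    generalize r x = R at *
    have k1 : -(|P| * (R * D) * K) ≤ P * R ^ 2 * S1 := by
      have : |P * R ^ 2 * S1| ≤ |P| * (R * D) * K := by
        rw [abs_mul, abs_mul, abs_of_nonneg (sq_nonneg R)]
        calc |P| * R ^ 2 * |S1| = |P| * R * (R * |S1|) := by ring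
          _ ≤ |P| * R * (K * D) := by gcongr
          _ = _ := by ring
      exact (abs_le.mp this).1
    have k2 : -(|P| * (R * D) * (K * (2 * |s|))) ≤ P * (2 * s * S2) := by
      have : |P * (2 * s * S2)| ≤ |P| * (R * D) * (K * (2 * |s|)) := by
        rw [abs_mul, abs_mul, abs_mul, abs_two]
        calc |P| * (2 * |s| * |S2|) ≤ |P| * (2 * |s| * (R * K * D)) := by gcongr
          _ = _ := by ring
      exact (abs_le.mp this).1
    have k3 : |P| * (R * D) * L ≤ ε * (R * D) ^ 2 + L ^ 2 / (4 * ε) * P ^ 2 := by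
      have h1 : 0 ≤ ε * (R * D - L * |P| / (2 * ε)) ^ 2 := by positivity
      have h2 : ε * (R * D - L * |P| / (2 * ε)) ^ 2 =
          ε * (R * D) ^ 2 + L ^ 2 / (4 * ε) * |P| ^ 2 - |P| * (R * D) * L := by
        field_simp
        ring
      rw [h2, sq_abs] at h1
      linarith
    have k4 : ε * (R * D) ^ 2 ≤ c / 2 * (Q * R ^ 2) := by
      calc ε * (R * D) ^ 2 = ε * R ^ 2 * D ^ 2 := by ring
        _ ≤ ε * R ^ 2 * (n * Q) := by gcongr
        _ = ε * n * (Q * R ^ 2) := by ring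
        _ ≤ c / 2 * (Q * R ^ 2) := by gcongr
    have k5 : c * Q * R ^ 2 ≤ G * R ^ 2 := by gcongr
    have k6 : -(|s| * P ^ 2) ≤ s * P ^ 2 := by
      have := neg_abs_le s
      nlinarith [sq_nonneg P]
    have k7 : 0 ≤ R ^ 2 * G + P * R ^ 2 * S1 + P * (2 * s * S2) + s * P ^ 2 -
        c / 2 * (Q * R ^ 2) + (|s| + L ^ 2 / (4 * ε)) * P ^ 2 := by
      have : |P| * (R * D) * L = |P| * (R * D) * K + |P| * (R * D) * (K * (2 * |s|)) := by
        rw [hL]; ring
      linarith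
    have k8 := mul_nonneg hW.le k7
    linarith
  have j1 : Integrable fun x => c / 2 * (ev x (q 1 ψ) * r x ^ (2 * s)) +
      (-l - n / 2 - s) * (ev x ψ ^ 2 * r x ^ (2 * s)) :=
    (i1.const_mul (c / 2)).add (i2.const_mul (-l - n / 2 - s))
  have j2 : Integrable fun x => c / 2 * (ev x (q 1 ψ) * r x ^ (2 * s)) +
      (-l - n / 2 - s) * (ev x ψ ^ 2 * r x ^ (2 * s)) +
      ev x ψ * ev x (Top τ l ψ) * r x ^ (2 * s) := j1.add i3
  have := integral_mono ((j2.sub (i4.const_mul (|s| + L ^ 2 / (4 * ε)))))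
    (iA'.sub (iB'.const_mul (1 / 2))) pt
  simp only [Pi.add_apply, Pi.sub_apply] at this
  rw [integral_sub iA' (iB'.const_mul _), integral_const_mul, zA, zB,
    integral_sub j2 (i4.const_mul _), integral_add j1 i3,
    integral_add (i1.const_mul _) (i2.const_mul _), integral_const_mul, integral_const_mul,
    integral_const_mul] at this
  linarith

end Crest.Agent.R238
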