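import Crest.Agent.R238.YNorm
import Crest.Agent.R238.Alg

/-!
# Row 238: the inverse of a positive definite matrix of smooth functions
-/

set_option autoImplicit false
open MeasureTheory Matrix
open scoped ContDiff BigOperators

noncomputable section
namespace Crest.Agent.R238

variable {n : ℕ}

/-- `τ = (det g)⁻¹ • adjugate g`. -/
theorem exists_inv {g : Mat n} (hg : ∀ x, (evM x g).PosDef) : ∃ τ : Mat n, τ * g = 1 := by
  have hne : ∀ x, ev x g.det ≠ 0 := fun x => by rw [ev_det]; exact (hg x).det_pos.ne'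
  refine ⟨invS g.det hne • g.adjugate, ?_⟩
  have : invS g.det hne * g.det = 1 := by
    ext x
    simp only [map_mul, ev_invS, map_one]
    exact inv_mul_cancel₀ (hne x)
  rw [Matrix.smul_mul, Matrix.adjugate_mul, smul_smul, this, one_smul]

theorem inv_symm {τ g : Mat n} (hg : gᵀ = g) (h : τ * g = 1) : τᵀ = τ := by
  have h1 : g * τᵀ = 1 := by
    have := congrArg Matrix.transpose h
    rwa [Matrix.transpose_mul, hg, Matrix.transpose_one] at this
  calc τᵀ = τ * g * τᵀ := by rw [h, Matrix.one_mul]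
    _ = τ := by rw [Matrix.mul_assoc, h1, Matrix.mul_one]

/-- `τ.map refl` is also an inverse of `g = g.map refl`. -/
theorem inv_isEv {τ g : Mat n} (hg : ∀ a b, IsEv (g a b)) (h : τ * g = 1) (a b : Fin n) :
    IsEv (τ a b) := by
  have e : g.map refl = g := Matrix.ext fun a b => hg a b
  have h1 : τ.map refl * g = 1 := by
    rw [← e, ← Matrix.map_mul (f := (refl : Sm n →ₐ[ℝ] Sm n)), h]
    exact Matrix.map_one _ (map_zero _) (map_one _)
  have h2 : g * τ = 1 := mul_eq_one_comm.1 h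
  have h3 : τ.map refl = τ := by
    calc τ.map refl = τ.map refl * (g * τ) := by rw [h2, Matrix.mul_one]
      _ = τ := by rw [← Matrix.mul_assoc, h1, Matrix.one_mul]
  exact congrFun (congrFun h3 a) b

theorem evM_inv {τ g : Mat n} (h : τ * g = 1) (x : E n) : evM x τ * evM x g = 1 := by
  rw [← evM_mul, h, evM_one]

theorem Low.posDef {c : ℝ} {g : Mat n} (h : Low c g) (hc : 0 < c) (hg : gᵀ = g) (x : E n) :
    (evM x g).PosDef := posDef_of_low (by rw [← evM_transpose, hg]) hc (h x)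

theorem Low.psd {c : ℝ} {g : Mat n} (h : Low c g) (hc : 0 ≤ c) (hg : gᵀ = g) (x : E n) :
    (evM x g).PosSemidef := psd_of_low (by rw [← evM_transpose, hg]) hc (h x)

/-- Perturbing a lower bound by a matrix with small entries. -/
theorem Low.add_small {c β : ℝ} {g B : Mat n} (h : Low c g) (hB : ∀ x a b, |ev x (B a b)| ≤ β) :
    Low (c - n * β) (g + B) := by
  intro x v
  have h1 := h x v
  have h2 := (abs_le.1 (abs_quad_le (A := evM x B) (hB x) v)).1
  rw [evM_add, Matrix.add_mulVec, dotProduct_add]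
  linarith

theorem abs_inv_le {τ g : Mat n} (hg : gᵀ = g) (h : τ * g = 1) {c : ℝ} (hc : 0 < c) (hl : Low c g)
    (x : E n) (a b : Fin n) : |ev x (τ a b)| ≤ c⁻¹ := by
  have hg' : (evM x g)ᵀ = evM x g := by rw [← evM_transpose, hg]
  have hτ : (evM x τ)ᵀ = evM x τ := by rw [← evM_transpose, inv_symm hg h]
  refine abs_entry_le hτ (fun v => ?_) a b
  rw [abs_of_nonneg (psd_quad (posDef_inv_of_mul (hl.posDef hc hg x) (evM_inv h x)).posSemidef v)]
  exact inv_up hg' (evM_inv h x) hc (hl x) v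

/-- `τ = invS (det g) • adjugate g`, `det_ge_of_low`, `Sym.invS`. -/
theorem symM_inv {τ g : Mat n} (hg : gᵀ = g) (h : τ * g = 1) {c : ℝ} (hc : 0 < c) (hl : Low c g)
    (hs : SymM 0 g) : SymM 0 τ := by
  have hd : ∀ x, c ^ n ≤ ev x g.det := fun x => by
    rw [ev_det]; exact det_ge_of_low (by rw [← evM_transpose, hg]) hc (hl x)
  have hne : ∀ x, ev x g.det ≠ 0 := fun x => ((pow_pos hc n).trans_le (hd x)).ne'
  have h1 : invS g.det hne * g.det = 1 := by
    ext x
    simp only [map_mul, ev_invS, map_one]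
    exact inv_mul_cancel₀ (hne x)
  have h2 : g * τ = 1 := mul_eq_one_comm.1 h
  have e : τ = invS g.det hne • g.adjugate := by
    calc τ = (invS g.det hne • g.adjugate * g) * τ := by
          rw [Matrix.smul_mul, Matrix.adjugate_mul, smul_smul, h1, one_smul, Matrix.one_mul]
      _ = _ := by rw [Matrix.mul_assoc, h2, Matrix.mul_one]
  intro a b
  rw [e, Matrix.smul_apply, smul_eq_mul]
  exact (hs.det.invS (pow_pos hc n) (fun x => (hd x).trans (le_abs_self _)) hne).zero_mul
    (hs.adjugate a b)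

/-- `τ - 1 = -(τ * A)`. -/
theorem symM_inv_sub_one {τ A : Mat n} (hA : Aᵀ = A) (h : τ * (1 + A) = 1) {c m : ℝ} (hc : 0 < c)
    (hl : Low c (1 + A)) (hm : m ≤ 0) (hs : SymM m A) : SymM m (τ - 1) := by
  have h0 : SymM 0 τ := symM_inv (by rw [Matrix.transpose_add, hA, Matrix.transpose_one]) h hc hl
    (symM_one.add (hs.mono hm))
  have e : τ - 1 = -(τ * A) := by
    rw [← h, Matrix.mul_add, Matrix.mul_one]; abel
  rw [e]
  simpa only [zero_add] using (h0.mul hs).neg

theorem inv_dM_neg (k : ℕ) (M : Mat n) (x : E n) : dM k (-M) x = dM k M x := by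
  simp only [dM, Matrix.neg_apply, d_neg]

/-- From `pdM_inv`, `dM_succ` and `dM_mul_le` twice. -/
theorem dM_inv_succ {τ g : Mat n} (h : τ * g = 1) (j : ℕ) (x : E n) :
    dM (j + 1) τ x ≤ 4 ^ j * ∑ a ∈ Finset.range (j + 1), ∑ b ∈ Finset.range (j + 1 - a),
      dM a τ x * dM (b + 1) g x * dM (j - a - b) τ x := by
  rw [dM_succ]
  calc ∑ c, dM j (pdM c τ) x ≤ ∑ c, 4 ^ j * ∑ a ∈ Finset.range (j + 1),
        ∑ b ∈ Finset.range (j + 1 - a), dM a τ x * dM b (pdM c g) x * dM (j - a - b) τ x := by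
        refine Finset.sum_le_sum fun c _ => ?_
        rw [pdM_inv c h, inv_dM_neg, Matrix.mul_assoc, show (4 : ℝ) ^ j = 2 ^ j * 2 ^ j by
          rw [← mul_pow]; norm_num, mul_assoc, Finset.mul_sum]
        refine (dM_mul_le j _ _ x).trans (mul_le_mul_of_nonneg_left
          (Finset.sum_le_sum fun a ha => ?_) (by positivity))
        have ha' := Finset.mem_range.1 ha
        have h1 := dM_mul_le (j - a) (pdM c g) τ x
        rw [show j - a + 1 = j + 1 - a by omega] at h1
        have h2 : (2 : ℝ) ^ (j - a) ≤ 2 ^ j := pow_le_pow_right₀ one_le_two (Nat.sub_le _ _)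
        have h3 : 0 ≤ ∑ b ∈ Finset.range (j + 1 - a), dM b (pdM c g) x * dM (j - a - b) τ x :=
          Finset.sum_nonneg fun b _ => mul_nonneg (dM_nonneg _ _ _) (dM_nonneg _ _ _)
        refine (mul_le_mul_of_nonneg_left (h1.trans (mul_le_mul_of_nonneg_right h2 h3))
          (dM_nonneg _ _ _)).trans_eq ?_
        simp only [Finset.mul_sum]
        exact Finset.sum_congr rfl fun b _ => by ring
    _ = _ := by
        rw [← Finset.mul_sum, Finset.sum_comm]
        congr 1
        refine Finset.sum_congr rfl fun a _ => ?_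
        rw [Finset.sum_comm]
        refine Finset.sum_congr rfl fun b _ => ?_
        rw [dM_succ, Finset.mul_sum, Finset.sum_mul]

theorem inv_seq_aux (K : ℝ) (m j : ℕ) (hj : j ≤ 2 * m + 1) :
    ∃ C, 0 ≤ C ∧ ∀ (t z : ℕ → ℝ) (s : ℝ), 0 ≤ s → s ≤ 1 → (∀ i, 0 ≤ t i) → (∀ i, 0 ≤ z i) →
      t 0 ≤ K → (∀ l, 1 ≤ l → l ≤ m → z l ≤ K * s) →
      (∀ i, t (i + 1) ≤ 4 ^ i * ∑ a ∈ Finset.range (i + 1), ∑ b ∈ Finset.range (i + 1 - a),
        t a * z (b + 1) * t (i - a - b)) →
      ∀ i, 1 ≤ i → i ≤ j → t i ≤ C * (s + z i + s * ∑ l ∈ Finset.Ioo m i, z l) := by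
  induction j with
  | zero => exact ⟨0, le_rfl, fun _ _ _ _ _ _ _ _ _ _ i h1 h2 => by omega⟩
  | succ j ih =>
    obtain ⟨C, hC, ih⟩ := ih (by omega)
    set D := C * (3 + |K|) + |K| with hD
    have hD0 : 0 ≤ D := by positivity
    refine ⟨C + 4 ^ j * ((j + 1) * ((j + 1) * (D ^ 2 + D ^ 3))), by positivity,
      fun t z s hs0 hs1 ht hz ht0 hzl hrec i hi1 hi => ?_⟩
    replace ih := ih t z s hs0 hs1 ht hz ht0 hzl hrec
    have hsum : ∀ i, 0 ≤ ∑ l ∈ Finset.Ioo m i, z l := fun i => Finset.sum_nonneg fun l _ => hz l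
    have hS : ∀ i, 0 ≤ s + z i + s * ∑ l ∈ Finset.Ioo m i, z l := fun i => by
      have := hz i; have := hsum i; positivity
    rcases (Nat.le_succ_iff.1 hi).symm with rfl | hi
    swap
    · refine (ih i hi1 hi).trans (mul_le_mul_of_nonneg_right ?_ (hS i))
      exact le_add_of_nonneg_right (by positivity)
    have hK : 0 ≤ K := (ht 0).trans ht0
    rw [abs_of_nonneg hK] at hD
    have hKD : K ≤ D := by rw [hD]; exact le_add_of_nonneg_left (by positivity)
    set T := ∑ l ∈ Finset.Ioo m (j + 1), z l with hT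
    have hT0 : 0 ≤ T := hsum _
    have hzj := hz (j + 1)
    have F1 : ∀ i, 1 ≤ i → i ≤ j → i ≤ m → t i ≤ D * s := fun i h1 h2 h3 => by
      have a1 := ih i h1 h2
      rw [Finset.Ioo_eq_empty_of_le h3, Finset.sum_empty, mul_zero, add_zero] at a1
      have a2 := hzl i h1 h3
      calc t i ≤ C * (s + K * s) := a1.trans (by gcongr)
        _ ≤ D * s := by rw [hD]; nlinarith [mul_nonneg hC hs0, mul_nonneg hK hs0]
    have F0 : ∀ i, i ≤ j → i ≤ m → t i ≤ D := fun i h2 h3 => by
      rcases Nat.eq_zero_or_pos i with rfl | h1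
      · exact ht0.trans hKD
      · exact (F1 i h1 h2 h3).trans (mul_le_of_le_one_right hD0 hs1)
    have hzT : ∀ i, m < i → i ≤ j → z i ≤ T := fun i h1 h2 =>
      Finset.single_le_sum (f := z) (fun l _ => hz l) (Finset.mem_Ioo.2 ⟨h1, by omega⟩)
    have F2 : ∀ i, i ≤ j → s * t i ≤ D * (s + s * T) := fun i h2 => by
      rcases le_or_gt i m with h3 | h3
      · have := F0 i h2 h3
        nlinarith [mul_nonneg hs0 hT0, mul_nonneg hD0 (mul_nonneg hs0 hT0)]
      · have a1 := ih i (by omega) h2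
        have a2 : ∑ l ∈ Finset.Ioo m i, z l ≤ T := Finset.sum_le_sum_of_subset_of_nonneg
          (Finset.Ioo_subset_Ioo_right (by omega)) fun l _ _ => hz l
        have a3 := hzT i h3 h2
        have a4 : t i ≤ C * (1 + T + 1 * T) := a1.trans (by gcongr; exact hsum i)
        calc s * t i ≤ s * (C * (1 + T + 1 * T)) := by gcongr
          _ ≤ C * 3 * (s + s * T) := by
            nlinarith [mul_nonneg hC hs0, mul_nonneg hC (mul_nonneg hs0 hT0)]
          _ ≤ D * (s + s * T) := by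
            gcongr
            rw [hD]
            nlinarith [mul_nonneg hC hK]
    have hW : 0 ≤ s + s * T := by positivity
    have key : ∀ a b c, a + b + c = j →
        t a * z (b + 1) * t c ≤ (D ^ 2 + D ^ 3) * (s + z (j + 1) + s * T) := by
      intro a b c habc
      have hS' : 0 ≤ s + z (j + 1) + s * T := by positivity
      have hWS : s + s * T ≤ s + z (j + 1) + s * T := by linarith
      have g2 : ∀ y, y ≤ D ^ 2 * (s + z (j + 1) + s * T) →
          y ≤ (D ^ 2 + D ^ 3) * (s + z (j + 1) + s * T) := fun y hy =>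
        hy.trans (by gcongr; exact le_add_of_nonneg_right (by positivity))
      have g3 : ∀ y, y ≤ D ^ 3 * (s + s * T) →
          y ≤ (D ^ 2 + D ^ 3) * (s + z (j + 1) + s * T) := fun y hy =>
        hy.trans (by gcongr; exact le_add_of_nonneg_left (by positivity))
      have hta := ht a
      have htc := ht c
      have hzb := hz (b + 1)
      by_cases h0 : a = 0 ∧ c = 0
      · obtain ⟨rfl, rfl⟩ := h0
        obtain rfl : b = j := by omega
        refine g2 _ ?_
        have := ht0.trans hKD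
        calc _ ≤ D * z (b + 1) * D := by gcongr
          _ = D ^ 2 * z (b + 1) := by ring
          _ ≤ _ := by gcongr; nlinarith [mul_nonneg hs0 hT0]
      by_cases hb : b + 1 ≤ m
      · have a1 : z (b + 1) ≤ D * s := (hzl _ (by omega) hb).trans (by gcongr)
        refine g3 _ ?_
        rcases le_total a c with hac | hac
        · have a2 := F0 a (by omega) (by omega)
          have a3 := F2 c (by omega)
          calc _ ≤ D * (D * s) * t c := by gcongr
            _ = D ^ 2 * (s * t c) := by ring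
            _ ≤ D ^ 2 * (D * (s + s * T)) := by gcongr
            _ = _ := by ring
        · have a2 := F0 c (by omega) (by omega)
          have a3 := F2 a (by omega)
          calc _ ≤ t a * (D * s) * D := by gcongr
            _ = D ^ 2 * (s * t a) := by ring
            _ ≤ D ^ 2 * (D * (s + s * T)) := by gcongr
            _ = _ := by ring
      · have a1 := hzT (b + 1) (by omega) (by omega)
        have a2 : t a * t c ≤ D * (D * s) := by
          rcases Nat.eq_zero_or_pos c with hc | hc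
          · rw [mul_comm]
            exact mul_le_mul (F0 c (by omega) (by omega)) (F1 a (by omega) (by omega) (by omega))
              hta hD0
          · exact mul_le_mul (F0 a (by omega) (by omega)) (F1 c hc (by omega) (by omega)) htc hD0
        refine g2 _ ?_
        calc _ = t a * t c * z (b + 1) := by ring
          _ ≤ D * (D * s) * T := by gcongr
          _ = D ^ 2 * (s * T) := by ring
          _ ≤ _ := by gcongr; linarith
    have hQ : 0 ≤ (D ^ 2 + D ^ 3) * (s + z (j + 1) + s * T) := by positivity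
    calc t (j + 1) ≤ 4 ^ j * ((j + 1) * ((j + 1) * ((D ^ 2 + D ^ 3) * (s + z (j + 1) + s * T)))) := by
          refine (hrec j).trans (mul_le_mul_of_nonneg_left ?_ (by positivity))
          refine (Finset.sum_le_card_nsmul _ _ _ fun a ha => ?_).trans_eq
            (by rw [Finset.card_range, nsmul_eq_mul, Nat.cast_succ])
          refine (Finset.sum_le_card_nsmul _ _ _ fun b hb => key a b _ ?_).trans ?_
          · have := Finset.mem_range.1 ha
            have := Finset.mem_range.1 hb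
            omega
          · rw [Finset.card_range, nsmul_eq_mul]
            gcongr
            exact_mod_cast Nat.sub_le _ _
      _ ≤ _ := by nlinarith [mul_nonneg hC (hS (j + 1))]

/-- The numerical recursion. Strong induction on `j`: in `t a * z (b+1) * t c`, `a + b + c = j - 1`:
if `a = c = 0` this is `≤ K² z j`; otherwise if `b + 1 ≤ m` then `z (b+1) ≤ K s`, `min a c ≤ m` gives
a bounded factor and the other factor is handled by the induction hypothesis; if `b + 1 > m` then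
`1 ≤ a + c ≤ m`, so `t a * t c ≤ C s` and `z (b+1)` occurs in the sum. -/
theorem seq_inv_bound (K : ℝ) (m j : ℕ) (hj1 : 1 ≤ j) (hj : j ≤ 2 * m + 1) :
    ∃ C, 0 ≤ C ∧ ∀ (t z : ℕ → ℝ) (s : ℝ), 0 ≤ s → s ≤ 1 → (∀ i, 0 ≤ t i) → (∀ i, 0 ≤ z i) →
      t 0 ≤ K → (∀ l, 1 ≤ l → l ≤ m → z l ≤ K * s) →
      (∀ i, t (i + 1) ≤ 4 ^ i * ∑ a ∈ Finset.range (i + 1), ∑ b ∈ Finset.range (i + 1 - a),
        t a * z (b + 1) * t (i - a - b)) →
      t j ≤ C * (s + z j + s * ∑ l ∈ Finset.Ioo m j, z l) := by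
  obtain ⟨C, hC, h⟩ := inv_seq_aux K m j hj
  exact ⟨C, hC, fun t z s h1 h2 h3 h4 h5 h6 h7 => h t z s h1 h2 h3 h4 h5 h6 h7 j hj1 le_rfl⟩

/-- `seq_inv_bound` with `t i = r^i dM i τ`, `z i = r^i dM i g`. -/
theorem dM_inv_le (K : ℝ) (m j : ℕ) (hj1 : 1 ≤ j) (hj : j ≤ 2 * m + 1) :
    ∃ C, 0 ≤ C ∧ ∀ {n : ℕ} (τ g : Mat n) (x : E n) (s : ℝ), τ * g = 1 → 0 ≤ s → s ≤ 1 →
      dM 0 τ x ≤ K → (∀ l, 1 ≤ l → l ≤ m → r x ^ l * dM l g x ≤ K * s) →
      r x ^ j * dM j τ x ≤
        C * (s + r x ^ j * dM j g x + s * ∑ l ∈ Finset.Ioo m j, r x ^ l * dM l g x) := by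
  obtain ⟨C, hC, h⟩ := seq_inv_bound K m j hj1 hj
  refine ⟨C, hC, fun τ g x s h1 h2 h3 h4 h5 => ?_⟩
  have hr := (r_pos x).le
  refine h (fun i => r x ^ i * dM i τ x) (fun i => r x ^ i * dM i g x) s h2 h3
    (fun i => mul_nonneg (pow_nonneg hr _) (dM_nonneg _ _ _))
    (fun i => mul_nonneg (pow_nonneg hr _) (dM_nonneg _ _ _)) (by simpa using h4) h5 fun i => ?_
  refine (mul_le_mul_of_nonneg_left (dM_inv_succ h1 i x) (pow_nonneg hr _)).trans_eq ?_
  rw [mul_left_comm]
  congr 1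
  rw [Finset.mul_sum]
  refine Finset.sum_congr rfl fun a ha => ?_
  rw [Finset.mul_sum]
  refine Finset.sum_congr rfl fun b hb => ?_
  have := Finset.mem_range.1 ha
  have := Finset.mem_range.1 hb
  rw [show i + 1 = a + (b + 1) + (i - a - b) by omega, pow_add, pow_add]
  ring

/-- Tame bound (`s = 1`). -/
theorem JM_inv_le (K : ℝ) (m k : ℕ) (hk : k ≤ 2 * m + 1) :
    ∃ C, 0 ≤ C ∧ ∀ {n : ℕ} (τ g : Mat n) (x : E n), τ * g = 1 → dM 0 τ x ≤ K → JM m g x ≤ K →
      JM k τ x ≤ C * (1 + JM k g x) := by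
  have : ∀ i, ∃ C, 0 ≤ C ∧ (i ≤ k → ∀ {n : ℕ} (τ g : Mat n) (x : E n), τ * g = 1 → dM 0 τ x ≤ K →
      JM m g x ≤ K → r x ^ i * dM i τ x ≤ C * (1 + JM k g x)) := by
    intro i
    rcases Nat.eq_zero_or_pos i with rfl | hi
    · refine ⟨|K|, abs_nonneg _, fun _ n τ g x _ h2 _ => ?_⟩
      have := JM_nonneg k g x
      rw [pow_zero, one_mul]
      nlinarith [le_abs_self K, abs_nonneg K]
    by_cases hik : i ≤ k
    swap
    · exact ⟨0, le_rfl, fun h => absurd h hik⟩
    obtain ⟨C, hC, h⟩ := dM_inv_le K m i hi (hik.trans hk)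
    refine ⟨2 * C, by positivity, fun _ n τ g x h1 h2 h3 => ?_⟩
    have a1 := h τ g x 1 h1 zero_le_one le_rfl h2
      fun l _ hl => by rw [mul_one]; exact (dM_le_JM hl g x).trans h3
    have a2 := dM_le_JM hik g x
    have a3 : ∑ l ∈ Finset.Ioo m i, r x ^ l * dM l g x ≤ JM k g x := by
      rw [JM_eq]
      exact Finset.sum_le_sum_of_subset_of_nonneg (fun l hl => Finset.mem_range.2 (by
        have := (Finset.mem_Ioo.1 hl).2; omega))
        fun l _ _ => mul_nonneg (pow_nonneg (r_pos x).le _) (dM_nonneg _ _ _)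
    calc _ ≤ C * (1 + JM k g x + 1 * JM k g x) := a1.trans (by gcongr)
      _ ≤ _ := by nlinarith
  choose C hC h using this
  refine ⟨∑ i ∈ Finset.range (k + 1), C i, Finset.sum_nonneg fun i _ => hC i,
    fun τ g x h1 h2 h3 => ?_⟩
  rw [JM_eq, Finset.sum_mul]
  exact Finset.sum_le_sum fun i hi => h i (Nat.lt_succ_iff.1 (Finset.mem_range.1 hi)) τ g x h1 h2 h3

theorem inv_YM (n : ℕ) {c : ℝ} (hc : 0 < c) (K : ℝ) : ∃ C, 0 ≤ C ∧ ∀ τ g : Mat n, gᵀ = g →
    τ * g = 1 → Low c g → SymM 0 g → YM K g → YM C τ := by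
  set K' := max ((n : ℝ) ^ 2 * c⁻¹) ((n : ℝ) ^ 2 * K)
  obtain ⟨C₁, hC₁, h₁⟩ := JM_inv_le K' (n + 1) (2 * n + 3) (by omega)
  obtain ⟨C₂, hC₂, h₂⟩ := JM_inv_le K' (n + 1) (n + 1) (by omega)
  have hn := nrm_nonneg (σ0 n) (fun _ : E n => (1 : ℝ))
  refine ⟨C₁ * (nrm (σ0 n) (fun _ : E n => (1 : ℝ)) + (n : ℝ) ^ 2 * |K|) +
    C₂ * (1 + (n : ℝ) ^ 2 * |K|), by positivity, fun τ g hg h hl hs hY a b => ?_⟩
  have a1 : ∀ x, dM 0 τ x ≤ K' := fun x =>
    (ynorm_sum2 fun a b => abs_inv_le hg h hc hl x a b).trans (le_max_left _ _)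
  have a2 : ∀ x, JM (n + 1) g x ≤ K' := fun x => (hY.JM_le hs x).trans (le_max_right _ _)
  have hK : (n : ℝ) ^ 2 * K ≤ (n : ℝ) ^ 2 * |K| := by gcongr; exact le_abs_self K
  refine Y_le ?_ fun x => ?_
  · have b1 := adm_const (σ0_lt n) 1
    have b2 := hs.adm_JM (σ := σ0 n) (by rw [zero_add]; exact σ0_lt n) (2 * n + 3)
    refine (nrm_mono ((b1.add b2).const_mul C₁) fun x => ?_).trans ?_
    · rw [ynorm_abs_J]
      exact (J_le_JM _ τ a b x).trans (h₁ τ g x h (a1 x) (a2 x))
    · rw [nrm_const_mul, abs_of_nonneg hC₁]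
      exact mul_le_mul_of_nonneg_left ((nrm_add_le b1 b2).trans
        (add_le_add le_rfl ((hY.nrm_JM_le hs).trans hK))) hC₁
  · exact (J_le_JM _ τ a b x).trans ((h₂ τ g x h (a1 x) (a2 x)).trans
      (mul_le_mul_of_nonneg_left (add_le_add le_rfl ((hY.JM_le hs x).trans hK)) hC₂))

end Crest.Agent.R238
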