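import Crest.Agent.R238.Basic

/-!
# Row 238: the jets `d`, `J`, `q` (pointwise Leibniz estimates)

All proofs are inductions on `k` generalizing the functions (`d (k+1) f = ∑ a, d k (pd a f)`).
-/

set_option autoImplicit false
open MeasureTheory Matrix
open scoped ContDiff BigOperators

noncomputable section
namespace Crest.Agent.R238

variable {n : ℕ}

theorem d_zero_eq (f : Sm n) (x : E n) : d 0 f x = |ev x f| := rfl
theorem d_succ (k : ℕ) (f : Sm n) (x : E n) : d (k + 1) f x = ∑ a, d k (pd a f) x := rfl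
theorem q_zero_eq (f : Sm n) : q 0 f = f ^ 2 := rfl
theorem q_succ (k : ℕ) (f : Sm n) : q (k + 1) f = ∑ a, q k (pd a f) := rfl

theorem d_nonneg (k : ℕ) (f : Sm n) (x : E n) : 0 ≤ d k f x := by
  induction k generalizing f with
  | zero => exact abs_nonneg _
  | succ k ih => exact Finset.sum_nonneg fun a _ => ih _

theorem continuous_d (k : ℕ) (f : Sm n) : Continuous (d k f) := by
  induction k generalizing f with
  | zero => exact (ev_continuous f).abs
  | succ k ih => exact continuous_finsetSum _ fun a _ => ih _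

theorem d_zero (k : ℕ) (x : E n) : d k (0 : Sm n) x = 0 := by
  induction k with
  | zero => simp [d_zero_eq]
  | succ k ih => simp [d_succ, ih]

theorem d_add_le (k : ℕ) (f g : Sm n) (x : E n) : d k (f + g) x ≤ d k f x + d k g x := by
  induction k generalizing f g with
  | zero => rw [d_zero_eq, map_add]; exact abs_add_le _ _
  | succ k ih =>
    rw [d_succ, d_succ, d_succ, ← Finset.sum_add_distrib]
    exact Finset.sum_le_sum fun a _ => by rw [map_add]; exact ih _ _

theorem d_smul (k : ℕ) (c : ℝ) (f : Sm n) (x : E n) : d k (c • f) x = |c| * d k f x := by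
  induction k generalizing f with
  | zero => rw [d_zero_eq, ev_smul, abs_mul, d_zero_eq]
  | succ k ih =>
    rw [d_succ, d_succ, Finset.mul_sum]
    exact Finset.sum_congr rfl fun a _ => by rw [Derivation.map_smul, ih]

theorem d_neg (k : ℕ) (f : Sm n) (x : E n) : d k (-f) x = d k f x := by
  rw [← neg_one_smul ℝ f, d_smul, abs_neg, abs_one, one_mul]

theorem d_sub_le (k : ℕ) (f g : Sm n) (x : E n) : d k (f - g) x ≤ d k f x + d k g x := by
  rw [sub_eq_add_neg, ← d_neg k g]
  exact d_add_le k f (-g) x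

theorem d_sum_le {ι : Type*} (k : ℕ) (s : Finset ι) (f : ι → Sm n) (x : E n) :
    d k (∑ i ∈ s, f i) x ≤ ∑ i ∈ s, d k (f i) x := by
  classical
  induction s using Finset.induction_on with
  | empty => simp [d_zero]
  | insert i s hi ih =>
    rw [Finset.sum_insert hi, Finset.sum_insert hi]
    exact (d_add_le k _ _ x).trans (add_le_add le_rfl ih)

theorem d_succ_cst (k : ℕ) (c : ℝ) (x : E n) : d (k + 1) (cst c : Sm n) x = 0 := by
  simp only [d_succ, pd_cst, d_zero, Finset.sum_const_zero]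

theorem d_succ_one (k : ℕ) (x : E n) : d (k + 1) (1 : Sm n) x = 0 := by
  simp only [d_succ, pd_one, d_zero, Finset.sum_const_zero]

theorem d_pd_le (k : ℕ) (a : Fin n) (f : Sm n) (x : E n) : d k (pd a f) x ≤ d (k + 1) f x := by
  rw [d_succ]
  exact Finset.single_le_sum (f := fun a => d k (pd a f) x) (fun b _ => d_nonneg k _ x)
    (Finset.mem_univ a)

theorem abs_pd_le (a : Fin n) (f : Sm n) (x : E n) : |ev x (pd a f)| ≤ d 1 f x := d_pd_le 0 a f x

theorem d_pd_pd_le (k : ℕ) (a b : Fin n) (f : Sm n) (x : E n) :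
    d k (pd a (pd b f)) x ≤ d (k + 2) f x := (d_pd_le k a _ x).trans (d_pd_le (k + 1) b f x)

theorem dM_hess (k : ℕ) (f : Sm n) (x : E n) : dM k (hess f) x = d (k + 2) f x := by
  rw [dM, Finset.sum_comm]
  rfl

theorem d_refl (k : ℕ) (f : Sm n) (x : E n) : d k (refl f) x = d k f (-x) := by
  induction k generalizing f with
  | zero => rfl
  | succ k ih =>
    rw [d_succ, d_succ]
    exact Finset.sum_congr rfl fun a _ => by rw [pd_refl, d_neg, ih]

/-- Leibniz. Step: `d (k+1) (f g) ≤ 2^k ∑_i (d (i+1) f d (k-i) g + d i f d (k+1-i) g)`. -/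
theorem d_mul_le (k : ℕ) (f g : Sm n) (x : E n) :
    d k (f * g) x ≤ 2 ^ k * ∑ i ∈ Finset.range (k + 1), d i f x * d (k - i) g x := by
  induction k generalizing f g with
  | zero => simp [d_zero_eq, abs_mul]
  | succ k ih =>
    have h1 : ∑ a, ∑ i ∈ Finset.range (k + 1), d i (pd a f) x * d (k - i) g x ≤
        ∑ i ∈ Finset.range (k + 1 + 1), d i f x * d (k + 1 - i) g x := by
      rw [Finset.sum_comm, Finset.sum_range_succ' _ (k + 1)]
      refine le_add_of_le_of_nonneg (Finset.sum_le_sum fun i _ => le_of_eq ?_)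
        (mul_nonneg (d_nonneg _ _ _) (d_nonneg _ _ _))
      rw [← Finset.sum_mul, d_succ, Nat.add_sub_add_right]
    have h2 : ∑ a, ∑ i ∈ Finset.range (k + 1), d i f x * d (k - i) (pd a g) x ≤
        ∑ i ∈ Finset.range (k + 1 + 1), d i f x * d (k + 1 - i) g x := by
      rw [Finset.sum_comm, Finset.sum_range_succ _ (k + 1)]
      refine le_add_of_le_of_nonneg (Finset.sum_le_sum fun i hi => le_of_eq ?_)
        (mul_nonneg (d_nonneg _ _ _) (d_nonneg _ _ _))
      rw [← Finset.mul_sum, ← d_succ, Nat.succ_sub (Nat.lt_succ_iff.1 (Finset.mem_range.1 hi))]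
    calc d (k + 1) (f * g) x
        ≤ ∑ a, (2 ^ k * ∑ i ∈ Finset.range (k + 1), d i (pd a f) x * d (k - i) g x +
            2 ^ k * ∑ i ∈ Finset.range (k + 1), d i f x * d (k - i) (pd a g) x) := by
          rw [d_succ]
          refine Finset.sum_le_sum fun a _ => ?_
          rw [pd_mul]
          exact (d_add_le k _ _ x).trans (add_le_add (ih _ _) (ih _ _))
      _ ≤ _ := by
          rw [Finset.sum_add_distrib, ← Finset.mul_sum, ← Finset.mul_sum, pow_succ]
          have h3 : (0 : ℝ) ≤ 2 ^ k := by positivity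
          linarith [mul_le_mul_of_nonneg_left h1 h3, mul_le_mul_of_nonneg_left h2 h3]

theorem dM_nonneg (k : ℕ) (M : Mat n) (x : E n) : 0 ≤ dM k M x := by
  exact Finset.sum_nonneg fun a _ => Finset.sum_nonneg fun b _ => d_nonneg _ _ _

theorem d_le_dM (k : ℕ) (M : Mat n) (a b : Fin n) (x : E n) : d k (M a b) x ≤ dM k M x := by
  exact (Finset.single_le_sum (f := fun b => d k (M a b) x) (fun b _ => d_nonneg k _ x)
    (Finset.mem_univ b)).trans (Finset.single_le_sum (f := fun a => ∑ b, d k (M a b) x)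
      (fun a _ => Finset.sum_nonneg fun b _ => d_nonneg k _ x) (Finset.mem_univ a))

theorem dM_succ (k : ℕ) (M : Mat n) (x : E n) : dM (k + 1) M x = ∑ c, dM k (pdM c M) x := by
  simp only [dM, d_succ, pdM_apply]
  rw [Finset.sum_congr rfl fun a _ => Finset.sum_comm, Finset.sum_comm]

theorem dM_succ_one_add (k : ℕ) (M : Mat n) (x : E n) : dM (k + 1) (1 + M) x = dM (k + 1) M x := by
  simp only [dM_succ, pdM_add, pdM_one, zero_add]

theorem dM_mul_le (k : ℕ) (M P : Mat n) (x : E n) :
    dM k (M * P) x ≤ 2 ^ k * ∑ i ∈ Finset.range (k + 1), dM i M x * dM (k - i) P x := by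
  have h1 : ∀ i, ∑ a, ∑ b, ∑ c, d i (M a c) x * d (k - i) (P c b) x ≤ dM i M x * dM (k - i) P x := by
    intro i
    rw [dM, Finset.sum_mul]
    refine Finset.sum_le_sum fun a _ => ?_
    rw [Finset.sum_comm, Finset.sum_mul]
    refine Finset.sum_le_sum fun c _ => ?_
    rw [← Finset.mul_sum]
    exact mul_le_mul_of_nonneg_left (Finset.single_le_sum (f := fun c => ∑ b, d (k - i) (P c b) x)
      (fun c _ => Finset.sum_nonneg fun b _ => d_nonneg _ _ x) (Finset.mem_univ c)) (d_nonneg _ _ _)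
  calc dM k (M * P) x ≤ ∑ a, ∑ b, ∑ c,
        2 ^ k * ∑ i ∈ Finset.range (k + 1), d i (M a c) x * d (k - i) (P c b) x := by
        refine Finset.sum_le_sum fun a _ => Finset.sum_le_sum fun b _ => ?_
        rw [Matrix.mul_apply]
        exact (d_sum_le k _ _ x).trans (Finset.sum_le_sum fun c _ => d_mul_le k _ _ x)
    _ = 2 ^ k * ∑ i ∈ Finset.range (k + 1), ∑ a, ∑ b, ∑ c, d i (M a c) x * d (k - i) (P c b) x := by
        simp only [← Finset.mul_sum]
        congr 1
        rw [Finset.sum_congr rfl fun a _ => Finset.sum_congr rfl fun b _ => Finset.sum_comm,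
          Finset.sum_congr rfl fun a _ => Finset.sum_comm, Finset.sum_comm]
    _ ≤ _ := mul_le_mul_of_nonneg_left (Finset.sum_le_sum fun i _ => h1 i) (by positivity)

theorem d_con_le (k : ℕ) (M : Mat n) (f : Sm n) (x : E n) :
    d k (con M f) x ≤ 2 ^ k * ∑ i ∈ Finset.range (k + 1), dM i M x * d (k - i + 2) f x := by
  calc d k (con M f) x ≤ ∑ a, ∑ b,
        2 ^ k * ∑ i ∈ Finset.range (k + 1), d i (M a b) x * d (k - i + 2) f x := by
        refine (d_sum_le k _ _ x).trans (Finset.sum_le_sum fun a _ => (d_sum_le k _ _ x).trans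
          (Finset.sum_le_sum fun b _ => (d_mul_le k _ _ x).trans ?_))
        exact mul_le_mul_of_nonneg_left (Finset.sum_le_sum fun i _ =>
          mul_le_mul_of_nonneg_left (d_pd_pd_le _ a b f x) (d_nonneg _ _ _)) (by positivity)
    _ = _ := by
        simp only [← Finset.mul_sum]
        congr 1
        rw [Finset.sum_congr rfl fun a _ => Finset.sum_comm, Finset.sum_comm]
        simp only [dM, Finset.sum_mul]

/-! ### `J` -/

theorem jt_nonneg (i : ℕ) (f : Sm n) (x : E n) : 0 ≤ r x ^ i * d i f x :=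
  mul_nonneg (pow_nonneg (r_pos x).le i) (d_nonneg i f x)

theorem J_zero_eq (f : Sm n) (x : E n) : J 0 f x = |ev x f| := by
  simp [J, d_zero_eq]

theorem J_succ (k : ℕ) (f : Sm n) (x : E n) :
    J (k + 1) f x = |ev x f| + r x * ∑ a, J k (pd a f) x := by
  rw [J, Finset.sum_range_succ', pow_zero, one_mul, d_zero_eq, add_comm]
  congr 1
  simp only [J, d_succ, Finset.mul_sum]
  rw [Finset.sum_comm]
  exact Finset.sum_congr rfl fun a _ => Finset.sum_congr rfl fun i _ => by ring

theorem J_nonneg (k : ℕ) (f : Sm n) (x : E n) : 0 ≤ J k f x := by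
  exact Finset.sum_nonneg fun i _ => jt_nonneg i f x

theorem continuous_J (k : ℕ) (f : Sm n) : Continuous (J k f) := by
  exact continuous_finsetSum _ fun i _ => (continuous_r.pow i).mul (continuous_d i f)

theorem J_mono {k l : ℕ} (h : k ≤ l) (f : Sm n) (x : E n) : J k f x ≤ J l f x := by
  exact Finset.sum_le_sum_of_subset_of_nonneg (Finset.range_subset_range.2 (by omega))
    fun i _ _ => jt_nonneg i f x

theorem d_le_J {i k : ℕ} (h : i ≤ k) (f : Sm n) (x : E n) : r x ^ i * d i f x ≤ J k f x := by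
  exact Finset.single_le_sum (f := fun i => r x ^ i * d i f x) (fun i _ => jt_nonneg i f x)
    (Finset.mem_range.2 (Nat.lt_succ_of_le h))

theorem d_le_J' {i k : ℕ} (h : i ≤ k) (f : Sm n) (x : E n) : d i f x ≤ J k f x := by
  exact (le_mul_of_one_le_left (d_nonneg i f x) (one_le_pow₀ (one_le_r x))).trans (d_le_J h f x)

theorem abs_le_J (k : ℕ) (f : Sm n) (x : E n) : |ev x f| ≤ J k f x := d_le_J' (Nat.zero_le k) f x

theorem J_pd_le (k : ℕ) (a : Fin n) (f : Sm n) (x : E n) : r x * J k (pd a f) x ≤ J (k + 1) f x := by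
  rw [J_succ]
  exact le_add_of_nonneg_of_le (abs_nonneg _) (mul_le_mul_of_nonneg_left
    (Finset.single_le_sum (f := fun a => J k (pd a f) x) (fun b _ => J_nonneg k _ x)
      (Finset.mem_univ a)) (r_pos x).le)

theorem J_zero (k : ℕ) (x : E n) : J k (0 : Sm n) x = 0 := by
  simp [J, d_zero]

theorem J_cst (k : ℕ) (c : ℝ) (x : E n) : J k (cst c : Sm n) x = |c| := by
  rw [J, Finset.sum_range_succ']
  simp only [d_succ_cst, mul_zero, Finset.sum_const_zero, zero_add, pow_zero, one_mul, d_zero_eq,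
    ev_cst]

theorem J_one (k : ℕ) (x : E n) : J k (1 : Sm n) x = 1 := by
  have := J_cst k 1 x
  rwa [cst, map_one, abs_one] at this

theorem J_add_le (k : ℕ) (f g : Sm n) (x : E n) : J k (f + g) x ≤ J k f x + J k g x := by
  rw [J, J, J, ← Finset.sum_add_distrib]
  refine Finset.sum_le_sum fun i _ => ?_
  rw [← mul_add]
  exact mul_le_mul_of_nonneg_left (d_add_le i f g x) (pow_nonneg (r_pos x).le i)

theorem J_smul (k : ℕ) (c : ℝ) (f : Sm n) (x : E n) : J k (c • f) x = |c| * J k f x := by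
  rw [J, J, Finset.mul_sum]
  exact Finset.sum_congr rfl fun i _ => by rw [d_smul]; ring

theorem J_neg (k : ℕ) (f : Sm n) (x : E n) : J k (-f) x = J k f x := by
  simp only [J, d_neg]

theorem J_sub_le (k : ℕ) (f g : Sm n) (x : E n) : J k (f - g) x ≤ J k f x + J k g x := by
  rw [sub_eq_add_neg, ← J_neg k g]
  exact J_add_le k f (-g) x

theorem J_sum_le {ι : Type*} (k : ℕ) (s : Finset ι) (f : ι → Sm n) (x : E n) :
    J k (∑ i ∈ s, f i) x ≤ ∑ i ∈ s, J k (f i) x := by
  classical
  induction s using Finset.induction_on with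
  | empty => simp [J_zero]
  | insert i s hi ih =>
    rw [Finset.sum_insert hi, Finset.sum_insert hi]
    exact (J_add_le k _ _ x).trans (add_le_add le_rfl ih)

theorem J_refl (k : ℕ) (f : Sm n) (x : E n) : J k (refl f) x = J k f (-x) := by
  simp only [J, d_refl, r_neg]

theorem jt_core (k : ℕ) (f g : Sm n) (x : E n) : J k (f * g) x ≤ 2 ^ k *
    ∑ i ∈ Finset.range (k + 1), r x ^ i * d i f x *
      ∑ j ∈ Finset.range (k + 1 - i), r x ^ j * d j g x := by
  simp only [Finset.mul_sum _ _ (r x ^ _ * d _ f x)]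
  rw [← Finset.sum_range_diag_flip (k + 1) fun i j => r x ^ i * d i f x * (r x ^ j * d j g x), J,
    Finset.mul_sum]
  refine Finset.sum_le_sum fun l hl => ?_
  refine (mul_le_mul_of_nonneg_left (d_mul_le l f g x) (pow_nonneg (r_pos x).le l)).trans ?_
  rw [mul_left_comm]
  refine mul_le_mul (pow_le_pow_right₀ one_le_two (Nat.lt_succ_iff.1 (Finset.mem_range.1 hl)))
    (le_of_eq ?_) (mul_nonneg (pow_nonneg (r_pos x).le l) (Finset.sum_nonneg fun i _ =>
      mul_nonneg (d_nonneg _ _ _) (d_nonneg _ _ _))) (by positivity)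
  rw [Finset.mul_sum]
  refine Finset.sum_congr rfl fun i hi => ?_
  rw [← pow_mul_pow_sub (r x) (Nat.lt_succ_iff.1 (Finset.mem_range.1 hi))]
  ring

theorem jt_split {k m : ℕ} (h : k ≤ 2 * m + 1) {A B : ℕ → ℝ} (hA : ∀ i, 0 ≤ A i) (hB : ∀ i, 0 ≤ B i) :
    ∑ i ∈ Finset.range (k + 1), A i * ∑ j ∈ Finset.range (k + 1 - i), B j ≤
      (∑ i ∈ Finset.range (m + 1), A i) * (∑ j ∈ Finset.range (k + 1), B j) +
      (∑ i ∈ Finset.range (k + 1), A i) * ∑ j ∈ Finset.range (m + 1), B j := by
  have hS : ∀ {a b : ℕ}, a ≤ b → ∑ j ∈ Finset.range a, B j ≤ ∑ j ∈ Finset.range b, B j := fun hab =>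
    Finset.sum_le_sum_of_subset_of_nonneg (Finset.range_subset_range.2 hab) fun j _ _ => hB j
  have hS0 : ∀ a, 0 ≤ ∑ j ∈ Finset.range a, B j := fun a => Finset.sum_nonneg fun j _ => hB j
  rw [← Finset.sum_filter_add_sum_filter_not _ (fun i => i ≤ m)]
  refine add_le_add ?_ ?_
  · refine le_trans (Finset.sum_le_sum fun i _ => mul_le_mul_of_nonneg_left
      (hS (Nat.sub_le (k + 1) i)) (hA i)) ?_
    rw [← Finset.sum_mul]
    refine mul_le_mul_of_nonneg_right (Finset.sum_le_sum_of_subset_of_nonneg (fun i hi => ?_)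
      fun i _ _ => hA i) (hS0 _)
    exact Finset.mem_range.2 (Nat.lt_succ_of_le (Finset.mem_filter.1 hi).2)
  · refine le_trans (Finset.sum_le_sum fun i hi => mul_le_mul_of_nonneg_left
      (hS (b := m + 1) (by have := (Finset.mem_filter.1 hi).2; omega)) (hA i)) ?_
    rw [← Finset.sum_mul]
    exact mul_le_mul_of_nonneg_right (Finset.sum_le_sum_of_subset_of_nonneg
      (Finset.filter_subset _ _) fun i _ _ => hA i) (hS0 _)

theorem J_mul_le (k : ℕ) (f g : Sm n) (x : E n) : J k (f * g) x ≤ 2 ^ k * (J k f x * J k g x) := by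
  refine (jt_core k f g x).trans (mul_le_mul_of_nonneg_left ?_ (by positivity))
  rw [J, Finset.sum_mul]
  refine Finset.sum_le_sum fun i _ => mul_le_mul_of_nonneg_left ?_ (jt_nonneg i f x)
  exact Finset.sum_le_sum_of_subset_of_nonneg (Finset.range_subset_range.2 (by omega))
    fun j _ _ => jt_nonneg j g x

/-- Low-high splitting: in each term `r^i d_i f · r^j d_j g`, `i + j ≤ 2m+1`, one index is `≤ m`. -/
theorem J_mul_split {k m : ℕ} (h : k ≤ 2 * m + 1) (f g : Sm n) (x : E n) :
    J k (f * g) x ≤ 2 ^ k * (J m f x * J k g x + J k f x * J m g x) := by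
  exact (jt_core k f g x).trans (mul_le_mul_of_nonneg_left
    (jt_split h (fun i => jt_nonneg i f x) fun j => jt_nonneg j g x) (by positivity))

/-- The terms are `r^i d_i f · r^{j+1} d_{j+1} g` with `i + j + 1 ≤ k + 1 ≤ 2m+1`. -/
theorem J_mul_pd_split {k m : ℕ} (h : k + 1 ≤ 2 * m + 1) (a : Fin n) (f g : Sm n) (x : E n) :
    r x * J k (f * pd a g) x ≤ 2 ^ k * (J m f x * J (k + 1) g x + J (k + 1) f x * J m g x) := by
  refine (mul_le_mul_of_nonneg_left (jt_core k f (pd a g) x) (r_pos x).le).trans ?_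
  rw [mul_left_comm]
  refine mul_le_mul_of_nonneg_left (le_trans ?_
    (jt_split h (fun i => jt_nonneg i f x) fun j => jt_nonneg j g x)) (by positivity)
  rw [Finset.sum_range_succ _ (k + 1), Finset.mul_sum]
  refine le_add_of_le_of_nonneg (Finset.sum_le_sum fun i hi => ?_)
    (mul_nonneg (jt_nonneg _ f x) (Finset.sum_nonneg fun j _ => jt_nonneg j g x))
  rw [mul_left_comm]
  refine mul_le_mul_of_nonneg_left ?_ (jt_nonneg i f x)
  rw [Nat.succ_sub (Finset.mem_range.1 hi).le, Finset.sum_range_succ', Finset.mul_sum]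
  refine le_add_of_le_of_nonneg (Finset.sum_le_sum fun j _ => ?_) (jt_nonneg 0 g x)
  rw [← mul_assoc, ← pow_succ']
  exact mul_le_mul_of_nonneg_left (d_pd_le j a g x) (pow_nonneg (r_pos x).le _)

theorem JM_eq (k : ℕ) (M : Mat n) (x : E n) :
    JM k M x = ∑ i ∈ Finset.range (k + 1), r x ^ i * dM i M x := by
  simp only [JM, J, dM, Finset.mul_sum]
  rw [Finset.sum_congr rfl fun a _ => Finset.sum_comm, Finset.sum_comm]

theorem JM_nonneg (k : ℕ) (M : Mat n) (x : E n) : 0 ≤ JM k M x := by
  exact Finset.sum_nonneg fun a _ => Finset.sum_nonneg fun b _ => J_nonneg _ _ _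

theorem J_le_JM (k : ℕ) (M : Mat n) (a b : Fin n) (x : E n) : J k (M a b) x ≤ JM k M x := by
  exact (Finset.single_le_sum (f := fun b => J k (M a b) x) (fun b _ => J_nonneg k _ x)
    (Finset.mem_univ b)).trans (Finset.single_le_sum (f := fun a => ∑ b, J k (M a b) x)
      (fun a _ => Finset.sum_nonneg fun b _ => J_nonneg k _ x) (Finset.mem_univ a))

theorem JM_mono {k l : ℕ} (h : k ≤ l) (M : Mat n) (x : E n) : JM k M x ≤ JM l M x := by
  exact Finset.sum_le_sum fun a _ => Finset.sum_le_sum fun b _ => J_mono h _ x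

theorem dM_le_JM {i k : ℕ} (h : i ≤ k) (M : Mat n) (x : E n) : r x ^ i * dM i M x ≤ JM k M x := by
  rw [JM_eq]
  exact Finset.single_le_sum (f := fun i => r x ^ i * dM i M x)
    (fun i _ => mul_nonneg (pow_nonneg (r_pos x).le i) (dM_nonneg i M x))
    (Finset.mem_range.2 (Nat.lt_succ_of_le h))

theorem continuous_dM (k : ℕ) (M : Mat n) : Continuous (dM k M) := by
  exact continuous_finsetSum _ fun a _ => continuous_finsetSum _ fun b _ => continuous_d k _

theorem continuous_JM (k : ℕ) (M : Mat n) : Continuous (JM k M) := by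
  exact continuous_finsetSum _ fun a _ => continuous_finsetSum _ fun b _ => continuous_J k _

/-! ### `q` -/

theorem q_nonneg (k : ℕ) (f : Sm n) (x : E n) : 0 ≤ ev x (q k f) := by
  induction k generalizing f with
  | zero => rw [q_zero_eq, map_pow]; exact sq_nonneg _
  | succ k ih => rw [q_succ, map_sum]; exact Finset.sum_nonneg fun a _ => ih _

theorem q_le_d_sq (k : ℕ) (f : Sm n) (x : E n) : ev x (q k f) ≤ d k f x ^ 2 := by
  induction k generalizing f with
  | zero => rw [q_zero_eq, map_pow, d_zero_eq, sq_abs]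
  | succ k ih =>
    rw [q_succ, map_sum, d_succ]
    exact (Finset.sum_le_sum fun a _ => ih _).trans
      (Finset.sum_sq_le_sq_sum_of_nonneg fun a _ => d_nonneg k _ x)

/-- Cauchy–Schwarz (`sq_sum_le_card_mul_sum_sq`). -/
theorem d_sq_le_q (k : ℕ) (f : Sm n) (x : E n) : d k f x ^ 2 ≤ (n : ℝ) ^ k * ev x (q k f) := by
  induction k generalizing f with
  | zero => rw [q_zero_eq, map_pow, d_zero_eq, sq_abs, pow_zero, one_mul]
  | succ k ih =>
    rw [q_succ, map_sum, d_succ]
    refine sq_sum_le_card_mul_sum_sq.trans ?_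
    rw [Finset.card_univ, Fintype.card_fin, pow_succ', mul_assoc, Finset.mul_sum _ _ ((n : ℝ) ^ k)]
    exact mul_le_mul_of_nonneg_left (Finset.sum_le_sum fun a _ => ih _) (Nat.cast_nonneg n)

theorem ev_q_one (f : Sm n) (x : E n) : ev x (q 1 f) = ∑ a, ev x (pd a f) ^ 2 := by
  simp [q]

theorem abs_pd_q_le (k : ℕ) (a : Fin n) (f : Sm n) (x : E n) :
    |ev x (pd a (q k f))| ≤ 2 * d k f x * d (k + 1) f x := by
  induction k generalizing f with
  | zero =>
    rw [q_zero_eq, pd_sq, map_mul, map_mul, ev_ofNat, abs_mul, abs_mul, abs_two, d_zero_eq]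
    exact mul_le_mul_of_nonneg_left (abs_pd_le a f x) (by positivity)
  | succ k ih =>
    rw [q_succ, map_sum, map_sum, d_succ k, Finset.mul_sum, Finset.sum_mul]
    refine (Finset.abs_sum_le_sum_abs _ _).trans (Finset.sum_le_sum fun b _ => (ih _).trans ?_)
    exact mul_le_mul_of_nonneg_left (d_pd_le _ b f x) (mul_nonneg zero_le_two (d_nonneg _ _ _))

theorem q_neg (k : ℕ) (f : Sm n) : q k (-f) = q k f := by
  induction k generalizing f with
  | zero => rw [q_zero_eq, q_zero_eq, neg_sq]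
  | succ k ih =>
    rw [q_succ, q_succ]
    exact Finset.sum_congr rfl fun a _ => by rw [map_neg, ih]

end Crest.Agent.R238
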