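import Crest.Agent.R238.Int

/-!
# Row 238: the Mehler (Ornstein–Uhlenbeck) kernel
-/

set_option autoImplicit false
open MeasureTheory Matrix
open scoped ContDiff BigOperators

noncomputable section
namespace Crest.Agent.R238

variable {n : ℕ}

/-- The normalised standard Gaussian density. -/
def gw (z : E n) : ℝ := (Iw (0 : Sm n) 1)⁻¹ * Real.exp (-(∑ a, z a ^ 2) / 2)

/-- `P_c f (x) = E f(c x + √(1-c²) Z)`, `c = e^{-t}`. -/
def Pf (c : ℝ) (f : Sm n) (x : E n) : ℝ := ∫ z, ev (c • x + Real.sqrt (1 - c ^ 2) • z) f * gw z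

theorem MehlerA_gw_eq (z : E n) :
    gw z = (Iw (0 : Sm n) 1)⁻¹ * Real.exp (-ev z (Wp (0 : Sm n))) := by
  simp [gw, neg_div]

theorem MehlerA_int (h : Sm n) : ∫ z, ev z h * gw z = (Iw (0 : Sm n) 1)⁻¹ * Iw 0 h := by
  rw [Iw.eq_1 0 h, ← integral_const_mul]
  congr 1
  funext z
  rw [MehlerA_gw_eq]
  ring

theorem MehlerA_integrable {h : Sm n} (hh : Tm h) : Integrable (fun z => ev z h * gw z) := by
  refine ((hh.integrable (sym_zero 0)).const_mul (Iw (0 : Sm n) 1)⁻¹).congr (.of_forall fun z => ?_)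
  simp only
  rw [MehlerA_gw_eq]
  ring

theorem MehlerA_integrable_r (t : ℝ) : Integrable (fun z : E n => r z ^ t * gw z) := by
  simpa only [ev_rho] using MehlerA_integrable (sym_rho (n := n) t).tm

theorem MehlerA_continuous_gw : Continuous (gw : E n → ℝ) := by
  unfold gw
  fun_prop

theorem MehlerA_r_smul {t B : ℝ} (h : |t| ≤ B) (hB : 1 ≤ B) (z : E n) : r (t • z) ≤ B * r z := by
  refine abs_le_abs_iff_aux ?_ (mul_nonneg (by linarith) (r_pos z).le)
  rw [r_smul_sq, mul_pow, r_sq]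
  have h1 : t ^ 2 ≤ B ^ 2 := by
    rw [← sq_abs t]; exact pow_le_pow_left₀ (abs_nonneg t) h 2
  have h2 : 0 ≤ ∑ a, z a ^ 2 := by positivity
  nlinarith

theorem MehlerA_r_aff {y : E n} {s B t : ℝ} (hy : r y ≤ B) (hs : |s| ≤ B) (ht : 0 ≤ t) (z : E n) :
    r (y + s • z) ^ t ≤ (2 * B * B) ^ t * r z ^ t := by
  have hB : 1 ≤ B := (one_le_r y).trans hy
  rw [← Real.mul_rpow (by positivity) (r_pos z).le]
  refine Real.rpow_le_rpow (r_pos _).le ((r_add_le _ _).trans ?_) ht
  rw [mul_assoc (2 * B)]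
  exact mul_le_mul (by linarith) (MehlerA_r_smul hs hB z) (r_pos _).le (by positivity)

/-- `z ↦ f (y + s z)`. -/
def MehlerAff (y : E n) (s : ℝ) (f : Sm n) : Sm n :=
  Sm.of (fun z => ev (y + s • z) f) ((ev_contDiff f).comp (by fun_prop))

theorem MehlerA_ev_aff (y : E n) (s : ℝ) (f : Sm n) (z : E n) :
    ev z (MehlerAff y s f) = ev (y + s • z) f := rfl

theorem MehlerA_pd_aff (y : E n) (s : ℝ) (f : Sm n) (a : Fin n) :
    pd a (MehlerAff y s f) = s • MehlerAff y s (pd a f) := by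
  ext z
  rw [ev_smul, MehlerA_ev_aff]
  refine pd_eq_of_hasFDerivAt _ z (fun b => s * ev (y + s • z) (pd b f)) ?_ a
  have h := (hasFDerivAt_ev f (y + s • z)).comp z (((hasFDerivAt_id z).const_smul s).const_add y)
  refine HasFDerivAt.congr_fderiv h (ContinuousLinearMap.ext fun v => ?_)
  simp only [_root_.sum_apply, _root_.smul_apply, ContinuousLinearMap.comp_apply,
    ContinuousLinearMap.proj_apply, ContinuousLinearMap.id_apply, smul_eq_mul, Pi.smul_apply]
  exact Finset.sum_congr rfl fun a _ => by ring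

theorem MehlerA_d_aff (y : E n) (s : ℝ) (k : ℕ) (f : Sm n) (z : E n) :
    d k (MehlerAff y s f) z = |s| ^ k * d k f (y + s • z) := by
  induction k generalizing f with
  | zero => simp [d_zero_eq, MehlerA_ev_aff]
  | succ k ih =>
    simp only [d_succ, MehlerA_pd_aff, d_smul, ih, Finset.mul_sum]
    exact Finset.sum_congr rfl fun a _ => by ring

theorem MehlerA_tm_aff (y : E n) (s : ℝ) {f : Sm n} (hf : Tm f) : Tm (MehlerAff y s f) := by
  intro k
  obtain ⟨C, t, hC, ht, h⟩ := hf.d_le_aux k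
  refine ⟨|s| ^ k * (C * (2 * (r y + |s|) * (r y + |s|)) ^ t), t, fun z => ?_⟩
  rw [MehlerA_d_aff, mul_assoc, mul_assoc]
  refine mul_le_mul_of_nonneg_left ((h _).trans (mul_le_mul_of_nonneg_left ?_ hC)) (by positivity)
  exact MehlerA_r_aff (by linarith [abs_nonneg s]) (by linarith [r_pos y]) ht z

/-- `E f (y + s Z)`. -/
def MehlerG (f : Sm n) (p : E n × ℝ) : ℝ := ∫ z, ev (p.1 + p.2 • z) f * gw z

theorem MehlerA_G_integrable {f : Sm n} (hf : Tm f) (p : E n × ℝ) :
    Integrable (fun z => ev (p.1 + p.2 • z) f * gw z) :=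
  MehlerA_integrable (MehlerA_tm_aff p.1 p.2 hf)

theorem MehlerA_G_integrable' {f : Sm n} (hf : Tm f) (p : E n × ℝ) (a : Fin n) :
    Integrable (fun z : E n => z a * ev (p.1 + p.2 • z) f * gw z) := by
  simpa only [map_mul, ev_X, MehlerA_ev_aff] using
    MehlerA_integrable ((tm_X a).mul (MehlerA_tm_aff p.1 p.2 hf))

/-- Gaussian integration by parts. -/
theorem MehlerA_ibp {f : Sm n} (hf : Tm f) (p : E n × ℝ) (a : Fin n) :
    ∫ z : E n, z a * ev (p.1 + p.2 • z) f * gw z = p.2 * MehlerG (pd a f) p := by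
  have h1 := Iw_pd (sym_zero 0) (MehlerA_tm_aff p.1 p.2 hf) a
  rw [map_zero, add_zero, MehlerA_pd_aff, Iw_smul] at h1
  have h2 := MehlerA_int (X a * MehlerAff p.1 p.2 f)
  have h3 := MehlerA_int (MehlerAff p.1 p.2 (pd a f))
  simp only [map_mul, ev_X, MehlerA_ev_aff] at h2 h3
  rw [h2, ← h1, MehlerG, h3]
  ring

/-- The coordinate `p ↦ p.1 a`. -/
def MehlerL (a : Fin n) : E n × ℝ →L[ℝ] ℝ :=
  (ContinuousLinearMap.proj a : E n →L[ℝ] ℝ).comp (ContinuousLinearMap.fst ℝ (E n) ℝ)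

theorem MehlerA_vec {F : Type*} [NormedAddCommGroup F] [NormedSpace ℝ F] [CompleteSpace F]
    {u v : Fin n → E n → ℝ} (hu : ∀ a, Integrable (u a)) (hv : ∀ a, Integrable (v a))
    (L : Fin n → F) (M : F) :
    AEStronglyMeasurable (fun z => ∑ a, (u a z • L a + v a z • M)) volume ∧
      ∫ z, ∑ a, (u a z • L a + v a z • M) = ∑ a, ((∫ z, u a z) • L a + (∫ z, v a z) • M) := by
  have h1 : ∀ a, Integrable fun z => u a z • L a := fun a => (hu a).smul_const _
  have h2 : ∀ a, Integrable fun z => v a z • M := fun a => (hv a).smul_const _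
  have h3 : ∀ a, Integrable fun z => u a z • L a + v a z • M := fun a => (h1 a).add (h2 a)
  refine ⟨(integrable_finsetSum _ fun a _ => h3 a).aestronglyMeasurable, ?_⟩
  rw [integral_finsetSum _ fun a _ => h3 a]
  refine Finset.sum_congr rfl fun a _ => ?_
  rw [integral_add (h1 a) (h2 a), integral_smul_const, integral_smul_const]

theorem MehlerA_hasFDerivAt_G {f : Sm n} (hf : Tm f) (p₀ : E n × ℝ) :
    HasFDerivAt (MehlerG f) (∑ a, (MehlerG (pd a f) p₀ • MehlerL a +
      (p₀.2 * MehlerG (pd a (pd a f)) p₀) • ContinuousLinearMap.snd ℝ (E n) ℝ)) p₀ := by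
  obtain ⟨C, t, hC, ht, h⟩ := hf.d_le_aux 1
  set B := r p₀.1 + |p₀.2| + 1 with hB
  have hs : {p : E n × ℝ | r p.1 < B ∧ |p.2| < B} ∈ nhds p₀ := by
    refine IsOpen.mem_nhds ((isOpen_lt (continuous_r.comp continuous_fst) continuous_const).inter
      (isOpen_lt (continuous_snd.abs) continuous_const)) ⟨?_, ?_⟩
    · linarith [abs_nonneg p₀.2]
    · linarith [r_pos p₀.1]
  obtain ⟨hi1, hi2⟩ := MehlerA_vec (fun a => MehlerA_G_integrable (hf.pd a) p₀)
    (fun a => MehlerA_G_integrable' (hf.pd a) p₀ a) MehlerL (ContinuousLinearMap.snd ℝ (E n) ℝ)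
  have hi4 : ∀ a : Fin n, Integrable fun z : E n =>
      C * (2 * B * B) ^ t * ‖MehlerL a‖ * (r z ^ t * gw z) +
      C * (2 * B * B) ^ t * ‖ContinuousLinearMap.snd ℝ (E n) ℝ‖ * (r z ^ (1 + t) * gw z) :=
    fun a => ((MehlerA_integrable_r _).const_mul _).add ((MehlerA_integrable_r _).const_mul _)
  have key := hasFDerivAt_integral_of_dominated_of_fderiv_le (μ := volume)
    (F := fun (p : E n × ℝ) (z : E n) => ev (p.1 + p.2 • z) f * gw z)
    (F' := fun (p : E n × ℝ) (z : E n) => ∑ a, ((ev (p.1 + p.2 • z) (pd a f) * gw z) • MehlerL a +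
      (z a * ev (p.1 + p.2 • z) (pd a f) * gw z) • ContinuousLinearMap.snd ℝ (E n) ℝ))
    (bound := fun z => ∑ a : Fin n, (C * (2 * B * B) ^ t * ‖MehlerL a‖ * (r z ^ t * gw z) +
      C * (2 * B * B) ^ t * ‖ContinuousLinearMap.snd ℝ (E n) ℝ‖ * (r z ^ (1 + t) * gw z)))
    hs (.of_forall fun p => (MehlerA_G_integrable hf p).aestronglyMeasurable)
    (MehlerA_G_integrable hf p₀)
    hi1
    (.of_forall fun z p hp => ?_)
    (integrable_finsetSum _ fun a _ => hi4 a)
    (.of_forall fun z p _ => ?_)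
  · refine HasFDerivAt.congr_fderiv key (hi2.trans (Finset.sum_congr rfl fun a _ => ?_))
    rw [MehlerA_ibp (hf.pd a)]
    rfl
  · refine (norm_sum_le _ _).trans (Finset.sum_le_sum fun a _ => (norm_add_le _ _).trans ?_)
    have hg : 0 ≤ gw z := by
      rw [MehlerA_gw_eq]
      exact mul_nonneg (inv_nonneg.2 (Iw_one_pos (sym_zero 0)).le) (Real.exp_pos _).le
    have h1 : |ev (p.1 + p.2 • z) (pd a f)| ≤ C * ((2 * B * B) ^ t * r z ^ t) :=
      (abs_pd_le a f _).trans ((h _).trans (mul_le_mul_of_nonneg_left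
        (MehlerA_r_aff hp.1.le hp.2.le ht z) hC))
    have h2 := abs_le_r z a
    rw [norm_smul, norm_smul, Real.norm_eq_abs, Real.norm_eq_abs, abs_mul, abs_mul, abs_mul,
      abs_of_nonneg hg, r_rpow_add, Real.rpow_one]
    have h3 := r_pos z
    calc |ev (p.1 + p.2 • z) (pd a f)| * gw z * ‖MehlerL a‖ +
          |z a| * |ev (p.1 + p.2 • z) (pd a f)| * gw z * ‖ContinuousLinearMap.snd ℝ (E n) ℝ‖
        ≤ C * ((2 * B * B) ^ t * r z ^ t) * gw z * ‖MehlerL a‖ +
          r z * (C * ((2 * B * B) ^ t * r z ^ t)) * gw z * ‖ContinuousLinearMap.snd ℝ (E n) ℝ‖ := by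
          gcongr
      _ = _ := by ring
  · have h1 : HasFDerivAt (fun p : E n × ℝ => p.1 + p.2 • z)
        (ContinuousLinearMap.fst ℝ (E n) ℝ + (ContinuousLinearMap.snd ℝ (E n) ℝ).smulRight z) p :=
      hasFDerivAt_fst.add (hasFDerivAt_snd.smul_const z)
    have h2 := ((hasFDerivAt_ev f (p.1 + p.2 • z)).comp p h1).mul_const (gw z)
    refine HasFDerivAt.congr_fderiv h2 (ContinuousLinearMap.ext fun v => ?_)
    simp only [MehlerL, _root_.sum_apply, _root_.add_apply,
      _root_.smul_apply, ContinuousLinearMap.comp_apply,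
      ContinuousLinearMap.proj_apply, ContinuousLinearMap.coe_fst', ContinuousLinearMap.coe_snd',
      ContinuousLinearMap.smulRight_apply, smul_eq_mul, Pi.add_apply, Pi.smul_apply, Finset.mul_sum]
    exact Finset.sum_congr rfl fun a _ => by ring

theorem MehlerA_sqrt_le (c : ℝ) : |Real.sqrt (1 - c ^ 2)| ≤ 1 := by
  rw [abs_of_nonneg (Real.sqrt_nonneg _)]
  exact Real.sqrt_le_one.2 (by nlinarith)

theorem gw_pos (z : E n) : 0 < gw z :=
  mul_pos (inv_pos.2 (Iw_one_pos (sym_zero 0))) (Real.exp_pos _)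

theorem integral_gw : ∫ z : E n, gw z = 1 := by
  have h := MehlerA_int (1 : Sm n)
  rw [inv_mul_cancel₀ (Iw_one_pos (sym_zero 0)).ne'] at h
  simpa using h

/-- Peetre for powers: `r_add_le` (for `m < 0` applied to `y = (y + w) + (-w)`). -/
theorem r_add_rpow_le (m : ℝ) (y w : E n) : r (y + w) ^ m ≤ (2 * r w) ^ |m| * r y ^ m := by
  have hw : 0 < 2 * r w := by linarith [r_pos w]
  rcases le_total 0 m with hm | hm
  · rw [abs_of_nonneg hm, ← Real.mul_rpow hw.le (r_pos y).le]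
    refine Real.rpow_le_rpow (r_pos _).le ((r_add_le _ _).trans_eq (by ring)) hm
  · have h1 : r y / (2 * r w) ≤ r (y + w) := by
      have := r_add_le (y + w) (-w)
      rw [add_neg_cancel_right, r_neg] at this
      rw [div_le_iff₀ hw]
      linarith
    refine (Real.rpow_le_rpow_of_nonpos (div_pos (r_pos y) hw) h1 hm).trans_eq ?_
    rw [Real.div_rpow (r_pos y).le hw.le, abs_of_nonpos hm, Real.rpow_neg hw.le]
    ring

theorem Pf_integrable {m : ℝ} {f : Sm n} (hf : Sym m f) (c : ℝ) (x : E n) :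
    Integrable (fun z => ev (c • x + Real.sqrt (1 - c ^ 2) • z) f * gw z) :=
  MehlerA_G_integrable hf.tm (c • x, Real.sqrt (1 - c ^ 2))

theorem Pf_bound {m : ℝ} {f : Sm n} (hf : Sym m f) :
    ∃ C, 0 ≤ C ∧ ∀ c x, |Pf c f x| ≤ C * r (c • x) ^ m := by
  obtain ⟨C, hC, h⟩ := hf.abs_le
  refine ⟨C * 2 ^ |m| * ∫ z : E n, r z ^ |m| * gw z, ?_, fun c x => ?_⟩
  · exact mul_nonneg (by positivity)
      (integral_nonneg fun z => mul_nonneg (r_rpow_pos z _).le (gw_pos z).le)
  rw [mul_right_comm, ← integral_const_mul, ← Real.norm_eq_abs]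
  refine norm_integral_le_of_norm_le ((MehlerA_integrable_r _).const_mul _) (.of_forall fun z => ?_)
  rw [Real.norm_eq_abs, abs_mul, abs_of_pos (gw_pos z), ← mul_assoc]
  refine mul_le_mul_of_nonneg_right ((h _).trans ?_) (gw_pos z).le
  have h1 : (2 * r (Real.sqrt (1 - c ^ 2) • z)) ^ |m| ≤ 2 ^ |m| * r z ^ |m| := by
    rw [← Real.mul_rpow zero_le_two (r_pos z).le]
    exact Real.rpow_le_rpow (by linarith [r_pos (Real.sqrt (1 - c ^ 2) • z)])
      (by linarith [r_smul_le (MehlerA_sqrt_le c) z]) (abs_nonneg m)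
  calc C * r (c • x + Real.sqrt (1 - c ^ 2) • z) ^ m
      ≤ C * (2 ^ |m| * r z ^ |m| * r (c • x) ^ m) := mul_le_mul_of_nonneg_left
        ((r_add_rpow_le m _ _).trans (mul_le_mul_of_nonneg_right h1 (r_rpow_pos _ _).le)) hC
    _ = _ := by ring

theorem Pf_continuous {m : ℝ} {f : Sm n} (hf : Sym m f) :
    Continuous (fun p : ℝ × E n => Pf p.1 f p.2) := by
  have h1 : Continuous (MehlerG f) :=
    continuous_iff_continuousAt.2 fun p => (MehlerA_hasFDerivAt_G hf.tm p).continuousAt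
  exact h1.comp (f := fun p : ℝ × E n => (p.1 • p.2, Real.sqrt (1 - p.1 ^ 2))) (by fun_prop)

/-- `hasFDerivAt_integral_of_dominated_of_fderiv_le`, `hasFDerivAt_ev`. -/
theorem Pf_hasFDerivAt {m : ℝ} {f : Sm n} (hf : Sym m f) (c : ℝ) (x : E n) :
    HasFDerivAt (Pf c f)
      (∑ a, (c * Pf c (pd a f) x) • (ContinuousLinearMap.proj a : E n →L[ℝ] ℝ)) x := by
  have h1 : HasFDerivAt (fun y : E n => (c • y, Real.sqrt (1 - c ^ 2)))
      ((c • ContinuousLinearMap.id ℝ (E n)).prod 0) x :=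
    ((hasFDerivAt_id x).const_smul c).prodMk (hasFDerivAt_const _ x)
  have h2 := (MehlerA_hasFDerivAt_G hf.tm (c • x, Real.sqrt (1 - c ^ 2))).comp x h1
  refine HasFDerivAt.congr_fderiv h2 (ContinuousLinearMap.ext fun v => ?_)
  simp only [MehlerL, _root_.sum_apply, _root_.add_apply,
    _root_.smul_apply, ContinuousLinearMap.comp_apply, ContinuousLinearMap.prod_apply,
    ContinuousLinearMap.proj_apply, ContinuousLinearMap.coe_fst', ContinuousLinearMap.coe_snd',
    _root_.zero_apply, ContinuousLinearMap.id_apply, smul_eq_mul, Pi.smul_apply]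
  refine Finset.sum_congr rfl fun a _ => ?_
  have : MehlerG (pd a f) (c • x, Real.sqrt (1 - c ^ 2)) = Pf c (pd a f) x := rfl
  rw [this]
  ring

theorem Pf_one (f : Sm n) (x : E n) : Pf 1 f x = ev x f := by
  simp [Pf, integral_const_mul, integral_gw]

theorem Pf_neg_fun (c : ℝ) (f : Sm n) (x : E n) : Pf c (-f) x = -Pf c f x := by
  simp [Pf, integral_neg]

/-- `integral_neg_eq_self`. -/
theorem Pf_refl (c : ℝ) (f : Sm n) (x : E n) : Pf c (refl f) x = Pf c f (-x) := by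
  unfold Pf
  rw [← integral_neg_eq_self (fun z => ev (c • -x + Real.sqrt (1 - c ^ 2) • z) f * gw z)]
  congr 1
  funext z
  rw [ev_refl, neg_add, smul_neg, smul_neg]
  simp [gw]

theorem Pf_odd_zero {f : Sm n} (hf : IsOd f) (c : ℝ) : Pf c f 0 = 0 := by
  have h := Pf_refl c f 0
  rw [show refl f = -f from hf, Pf_neg_fun, neg_zero] at h
  linarith

theorem Pf_zero_odd {f : Sm n} (hf : IsOd f) (x : E n) : Pf 0 f x = 0 := by
  refine Eq.trans ?_ (Pf_odd_zero hf 0)
  simp [Pf]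

/-- Differentiate under the integral: with `s = √(1-c²)`, `d/dc f(c x + s z) = ∇f · (x - (c/s) z)`, and
Gaussian integration by parts (`Iw_pd` with `V = 0` for the tempered function `z ↦ ∂_a f (c x + s z)`):
`∫ ∂_a f(c x + s z) z_a gw = s ∫ ∂_a∂_a f(c x + s z) gw`. -/
theorem Pf_hasDerivAt {m : ℝ} {f : Sm n} (hf : Sym m f) {c : ℝ} (h0 : 0 < c) (h1 : c < 1) (x : E n) :
    HasDerivAt (fun c => Pf c f x)
      (∑ a, x a * Pf c (pd a f) x - c * ∑ a, Pf c (pd a (pd a f)) x) c := by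
  have hpos : 0 < 1 - c ^ 2 := by nlinarith
  have hs : Real.sqrt (1 - c ^ 2) ≠ 0 := (Real.sqrt_pos.2 hpos).ne'
  have h2 : HasDerivAt (fun c : ℝ => 1 - c ^ 2) (-(2 * c)) c := by
    simpa using (hasDerivAt_pow 2 c).const_sub 1
  have h3 : HasDerivAt (fun c : ℝ => (c • x, Real.sqrt (1 - c ^ 2)))
      (x, -(2 * c) / (2 * Real.sqrt (1 - c ^ 2))) c := by
    refine HasDerivAt.prodMk ?_ (h2.sqrt hpos.ne')
    simpa using (hasDerivAt_id c).smul_const x
  have h4 := (MehlerA_hasFDerivAt_G hf.tm (c • x, Real.sqrt (1 - c ^ 2))).comp_hasDerivAt c h3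
  refine HasDerivAt.congr_deriv h4 ?_
  simp only [MehlerL, _root_.sum_apply, _root_.add_apply,
    _root_.smul_apply, ContinuousLinearMap.comp_apply,
    ContinuousLinearMap.proj_apply, ContinuousLinearMap.coe_fst', ContinuousLinearMap.coe_snd',
    smul_eq_mul, Finset.mul_sum, ← Finset.sum_sub_distrib]
  refine Finset.sum_congr rfl fun a _ => ?_
  have e : ∀ g, MehlerG g (c • x, Real.sqrt (1 - c ^ 2)) = Pf c g x := fun _ => rfl
  rw [e, e]
  field_simp
  ring

end Crest.Agent.R238
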