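import Crest.Agent.R238.MehlerA

/-!
# Row 238: the resolvent of the Ornstein–Uhlenbeck operator
-/

set_option autoImplicit false
open MeasureTheory Matrix
open scoped ContDiff BigOperators

noncomputable section
namespace Crest.Agent.R238

variable {n : ℕ}

/-- `M_κ f = ∫₀^∞ e^{-κ t} P_t f dt = ∫₀¹ c^{κ-1} P_c f dc`. -/
def Mf (κ : ℝ) (f : Sm n) (x : E n) : ℝ := ∫ c in (0 : ℝ)..1, c ^ (κ - 1) * Pf c f x

/-- The cases in which `Mf κ f` converges. -/
def Good (κ : ℝ) (f : Sm n) : Prop := Sym 0 f ∧ (0 < κ ∨ (κ = 0 ∧ IsOd f))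

theorem Good.pd {κ : ℝ} {f : Sm n} (h : Good κ f) (a : Fin n) : Good (κ + 1) (R238.pd a f) :=
  ⟨(h.1.pd a).mono (by norm_num), Or.inl (by rcases h.2 with h | h <;> linarith [h])⟩

theorem mb_bd {f : Sm n} (hf : Sym 0 f) : ∃ C, 0 ≤ C ∧ ∀ c x, |Pf c f x| ≤ C := by
  simpa only [Real.rpow_zero, mul_one] using Pf_bound hf

theorem mb_cont {m : ℝ} {f : Sm n} (hf : Sym m f) (x : E n) : Continuous fun c : ℝ => Pf c f x :=
  (Pf_continuous hf).comp (continuous_id.prodMk continuous_const)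

theorem mb_meas {m : ℝ} {f : Sm n} (hf : Sym m f) (s : ℝ) (x : E n) :
    Measurable fun c : ℝ => c ^ s * Pf c f x :=
  (measurable_id.pow_const s).mul (mb_cont hf x).measurable

theorem mb_int {g : ℝ → ℝ} (hg : Measurable g) {C s : ℝ} (hs : -1 < s)
    (h : ∀ c ∈ Set.Ioc (0 : ℝ) 1, |g c| ≤ C * c ^ s) : IntervalIntegrable g volume 0 1 := by
  refine ((intervalIntegral.intervalIntegrable_rpow' hs).const_mul C).mono_fun'
    hg.aestronglyMeasurable ?_
  rw [Set.uIoc_of_le zero_le_one]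
  exact (ae_restrict_iff' measurableSet_Ioc).2 (.of_forall h)

theorem mb_norm (w : Fin n → ℝ) :
    ‖∑ a, w a • (ContinuousLinearMap.proj a : E n →L[ℝ] ℝ)‖ ≤ ∑ a, |w a| := by
  refine (norm_sum_le _ _).trans (Finset.sum_le_sum fun a _ => ?_)
  rw [norm_smul, Real.norm_eq_abs]
  refine mul_le_of_le_one_right (abs_nonneg _) ?_
  exact ContinuousLinearMap.opNorm_le_bound _ zero_le_one fun x => by
    rw [one_mul]; exact norm_le_pi_norm x a

theorem mb_pd_bd {f : Sm n} (hf : Sym 0 f) :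
    ∃ K, 0 ≤ K ∧ ∀ c x, ∑ a, |Pf c (R238.pd a f) x| ≤ K := by
  choose C hC0 hC using fun a => mb_bd ((hf.pd a).mono (by norm_num : (0 : ℝ) - 1 ≤ 0))
  exact ⟨∑ a, C a, Finset.sum_nonneg fun a _ => hC0 a,
    fun c x => Finset.sum_le_sum fun a _ => hC a c x⟩

theorem Good.nonneg {κ : ℝ} {f : Sm n} (h : Good κ f) : 0 ≤ κ := by
  rcases h.2 with h | h
  exacts [h.le, h.1.ge]

/-- For `κ > 0`: `|Pf c f x| ≤ C` and `intervalIntegral.intervalIntegrable_rpow'`. For `κ = 0`, `f` odd: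
`|Pf c f x| = |Pf c f x - Pf c f 0| ≤ C c ‖x‖` (mean value inequality with `Pf_hasFDerivAt`). -/
theorem Good.intervalIntegrable {κ : ℝ} {f : Sm n} (h : Good κ f) (x : E n) :
    IntervalIntegrable (fun c : ℝ => c ^ (κ - 1) * Pf c f x) volume 0 1 := by
  rcases h.2 with hκ | ⟨rfl, ho⟩
  · obtain ⟨C, -, hC⟩ := mb_bd h.1
    refine mb_int (mb_meas h.1 _ x) (C := C) (s := κ - 1) (by linarith) fun c hc => ?_
    have h1 := Real.rpow_nonneg hc.1.le (κ - 1)
    rw [abs_mul, abs_of_nonneg h1, mul_comm]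
    exact mul_le_mul_of_nonneg_right (hC c x) h1
  · obtain ⟨K, -, hK⟩ := mb_pd_bd h.1
    refine mb_int (mb_meas h.1 _ x) (C := K * ‖x‖) (s := 0) (by norm_num) fun c hc => ?_
    have h1 : ‖Pf c f x - Pf c f 0‖ ≤ c * K * ‖x - 0‖ :=
      Convex.norm_image_sub_le_of_norm_hasFDerivWithin_le (s := Set.univ)
        (fun y _ => (Pf_hasFDerivAt h.1 c y).hasFDerivWithinAt) (fun y _ => by
          refine (mb_norm _).trans ?_
          simp only [abs_mul, abs_of_pos hc.1, ← Finset.mul_sum]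
          exact mul_le_mul_of_nonneg_left (hK c y) hc.1.le) convex_univ trivial trivial
    rw [Pf_odd_zero ho, sub_zero, sub_zero, Real.norm_eq_abs] at h1
    rw [zero_sub, Real.rpow_neg_one, Real.rpow_zero, mul_one, abs_mul,
      abs_of_pos (inv_pos.2 hc.1), inv_mul_le_iff₀ hc.1]
    linarith

/-- Differentiate under the integral; the derivative is dominated by `C c^κ`. -/
theorem Good.hasFDerivAt {κ : ℝ} {f : Sm n} (h : Good κ f) (x : E n) :
    HasFDerivAt (Mf κ f)
      (∑ a, Mf (κ + 1) (R238.pd a f) x • (ContinuousLinearMap.proj a : E n →L[ℝ] ℝ)) x := by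
  obtain ⟨K, -, hK⟩ := mb_pd_bd h.1
  have key := intervalIntegral.hasFDerivAt_integral_of_dominated_of_fderiv_le (𝕜 := ℝ)
    (μ := volume) (a := 0) (b := 1) (s := Set.univ) (x₀ := x)
    (F := fun y c => c ^ (κ - 1) * Pf c f y)
    (F' := fun y c => ∑ a, (c ^ (κ + 1 - 1) * Pf c (R238.pd a f) y) •
      (ContinuousLinearMap.proj a : E n →L[ℝ] ℝ))
    (bound := fun c => K * c ^ (κ + 1 - 1)) Filter.univ_mem
    (.of_forall fun y => (mb_meas h.1 _ y).aestronglyMeasurable) (h.intervalIntegrable x)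
    (Finset.aestronglyMeasurable_fun_sum _ fun a _ =>
      (mb_meas (h.1.pd a) _ x).aestronglyMeasurable.smul_const _)
    (.of_forall fun c hc y _ => by
      rw [Set.uIoc_of_le zero_le_one] at hc
      have h1 := Real.rpow_nonneg hc.1.le (κ + 1 - 1)
      refine (mb_norm _).trans ?_
      simp only [abs_mul, abs_of_nonneg h1, ← Finset.mul_sum]
      rw [mul_comm]
      exact mul_le_mul_of_nonneg_right (hK c y) h1)
    ((intervalIntegral.intervalIntegrable_rpow' (by linarith [h.nonneg])).const_mul K)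
    (.of_forall fun c hc y _ => by
      rw [Set.uIoc_of_le zero_le_one] at hc
      refine ((Pf_hasFDerivAt h.1 c y).const_mul (c ^ (κ - 1))).congr_fderiv ?_
      rw [Finset.smul_sum]
      refine Finset.sum_congr rfl fun a _ => ?_
      rw [smul_smul, ← mul_assoc, ← Real.rpow_add_one hc.1.ne', show κ - 1 + 1 = κ + 1 - 1 by ring])
  rw [intervalIntegral.integral_finsetSum fun a _ =>
    ⟨((h.pd a).intervalIntegrable x).1.smul_const _,
      ((h.pd a).intervalIntegrable x).2.smul_const _⟩] at key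
  simp only [intervalIntegral.integral_smul_const] at key
  exact key

/-- `contDiff_infty`, induction on the order generalizing `κ f` (`contDiff_succ_iff_hasFDerivAt`-like). -/
theorem Good.contDiff {κ : ℝ} {f : Sm n} (h : Good κ f) : ContDiff ℝ ∞ (Mf κ f) := by
  refine contDiff_infty.2 fun k => ?_
  induction k generalizing κ f with
  | zero =>
    exact contDiff_zero.2 (continuous_iff_continuousAt.2 fun x => (h.hasFDerivAt x).continuousAt)
  | succ k ih =>
    rw [Nat.cast_succ]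
    exact contDiff_succ_iff_hasFDerivAt.2 ⟨_, ContDiff.sum fun a _ =>
      (ih (h.pd a)).smul contDiff_const, h.hasFDerivAt⟩

/-- `Mf κ f` as an element of `Sm n`. -/
def MS (κ : ℝ) (f : Sm n) (h : Good κ f) : Sm n := Sm.of (Mf κ f) h.contDiff

theorem pd_MS {κ : ℝ} {f : Sm n} (h : Good κ f) (a : Fin n) :
    pd a (MS κ f h) = MS (κ + 1) (pd a f) (h.pd a) :=
  Sm.ext fun x =>
    pd_eq_of_hasFDerivAt (MS κ f h) x (fun b => Mf (κ + 1) (pd b f) x) (h.hasFDerivAt x) a

/-- FTC for `c ↦ c^κ Pf c f x` on `[0,1]` (`integral_eq_sub_of_hasDerivAt_of_le`-type lemma with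
continuity on the closed and differentiability on the open interval): the value at `1` is `f x`, at `0`
it is `0`; the derivative is `κ c^{κ-1} P f + c^κ ∑ x_a P ∂_a f - c^{κ+1} ∑ P ∂_a∂_a f`. -/
theorem Top_MS {κ : ℝ} {f : Sm n} (h : Good κ f) : Top 1 (-κ) (MS κ f h) = -f := by
  ext x
  have i0 := h.intervalIntegrable x
  have i1 := fun a => (h.pd a).intervalIntegrable x
  have i2 := fun a => ((h.pd a).pd a).intervalIntegrable x
  have j1 : IntervalIntegrable (fun c : ℝ => ∑ a, x a * (c ^ (κ + 1 - 1) * Pf c (pd a f) x))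
      volume 0 1 := by
    have := IntervalIntegrable.sum Finset.univ fun a _ => (i1 a).const_mul (x a)
    rwa [Finset.sum_fn] at this
  have j2 : IntervalIntegrable (fun c : ℝ => ∑ a, c ^ (κ + 1 + 1 - 1) * Pf c (pd a (pd a f)) x)
      volume 0 1 := by
    have := IntervalIntegrable.sum Finset.univ fun a _ => i2 a
    rwa [Finset.sum_fn] at this
  have key := intervalIntegral.integral_eq_sub_of_hasDerivAt_of_le
    (f := fun c : ℝ => c ^ κ * Pf c f x)
    (f' := fun c : ℝ => κ * (c ^ (κ - 1) * Pf c f x) +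
      ∑ a, x a * (c ^ (κ + 1 - 1) * Pf c (pd a f) x) -
        ∑ a, c ^ (κ + 1 + 1 - 1) * Pf c (pd a (pd a f)) x) zero_le_one
    ((Real.continuous_rpow_const h.nonneg).mul (mb_cont h.1 x)).continuousOn
    (fun c hc => by
      refine ((Real.hasDerivAt_rpow_const (Or.inl hc.1.ne')).mul
        (Pf_hasDerivAt h.1 hc.1 hc.2 x)).congr_deriv ?_
      rw [add_sub_cancel_right, add_sub_cancel_right, Real.rpow_add_one hc.1.ne', mul_sub,
        ← Finset.mul_sum, Finset.mul_sum]
      simp only [mul_left_comm (x _)]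
      ring)
    (((i0.const_mul κ).add j1).sub j2)
  have e0 : (0 : ℝ) ^ κ * Pf 0 f x = 0 := by
    rcases h.2 with hκ | ⟨-, ho⟩
    · rw [Real.zero_rpow hκ.ne', zero_mul]
    · rw [Pf_zero_odd ho, mul_zero]
  rw [intervalIntegral.integral_sub ((i0.const_mul κ).add j1) j2,
    intervalIntegral.integral_add (i0.const_mul κ) j1, intervalIntegral.integral_const_mul,
    intervalIntegral.integral_finsetSum fun a _ => (i1 a).const_mul (x a),
    intervalIntegral.integral_finsetSum fun a _ => i2 a, e0, Real.one_rpow, one_mul, Pf_one,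
    sub_zero] at key
  simp only [intervalIntegral.integral_const_mul] at key
  simp only [Top, Lop, con_one, eul, pd_MS, map_add, map_sub, map_sum, map_mul, ev_X, ev_smul,
    map_neg]
  simp only [MS, ev_of, Mf]
  linarith

/-- `J k` bound by induction on `k` generalizing `κ b f` (`J_succ`, `pd_MS`); level 0:
`|Pf c f x| ≤ C r(c x)^{-b} ≤ C c^{-b} r(x)^{-b}` (`mul_r_le_r_smul`) and `∫₀¹ c^{κ-1-b} < ∞`. -/
theorem sym_MS {κ b : ℝ} {f : Sm n} (h : Good κ f) (hb : 0 ≤ b) (hbκ : b < κ) (hf : Sym (-b) f) :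
    Sym (-b) (MS κ f h) := by
  refine sym_of_symK fun k => ?_
  have h0 : ∀ {κ b : ℝ} {f : Sm n} (h : Good κ f), 0 ≤ b → b < κ → Sym (-b) f →
      ∃ C, ∀ x, |ev x (MS κ f h)| ≤ C * r x ^ (-b) := by
    intro κ b f h hb hbκ hf
    obtain ⟨C, hC0, hC⟩ := Pf_bound hf
    refine ⟨C * ∫ c in (0 : ℝ)..1, c ^ (κ - 1 - b), fun x => ?_⟩
    have := intervalIntegral.norm_integral_le_of_norm_le (μ := volume) zero_le_one
      (f := fun c : ℝ => c ^ (κ - 1) * Pf c f x)
      (g := fun c : ℝ => C * r x ^ (-b) * c ^ (κ - 1 - b)) (.of_forall fun c hc => by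
        have h1 := Real.rpow_nonneg hc.1.le (κ - 1)
        have h2 := mul_r_le_r_smul (c := c) (by rw [abs_of_pos hc.1]; exact hc.2) x
        rw [abs_of_pos hc.1] at h2
        have h3 : r (c • x) ^ (-b) ≤ c ^ (-b) * r x ^ (-b) := by
          rw [← Real.mul_rpow hc.1.le (r_pos x).le]
          exact Real.rpow_le_rpow_of_nonpos (mul_pos hc.1 (r_pos x)) h2 (by linarith)
        rw [Real.norm_eq_abs, abs_mul, abs_of_nonneg h1, sub_eq_add_neg (κ - 1),
          Real.rpow_add hc.1]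
        calc c ^ (κ - 1) * |Pf c f x| ≤ c ^ (κ - 1) * (C * (c ^ (-b) * r x ^ (-b))) :=
              mul_le_mul_of_nonneg_left
                ((hC c x).trans (mul_le_mul_of_nonneg_left h3 hC0)) h1
          _ = _ := by ring)
      ((intervalIntegral.intervalIntegrable_rpow' (by linarith)).const_mul _)
    rw [intervalIntegral.integral_const_mul] at this
    exact this.trans (le_of_eq (by ring))
  induction k generalizing κ b f with
  | zero => exact symK_zero (h0 h hb hbκ hf)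
  | succ k ih =>
    refine symK_succ (h0 h hb hbκ hf) fun a => ?_
    have e : -b - 1 = -(b + 1) := by ring
    rw [pd_MS, e]
    exact ih _ (by linarith) (by linarith) (e ▸ hf.pd a)

theorem isOd_MS {κ : ℝ} {f : Sm n} (h : Good κ f) (hf : IsOd f) : IsOd (MS κ f h) := by
  refine (isOd_iff _).2 fun x => ?_
  have e : refl f = -f := hf
  simp only [MS, ev_of, Mf, ← Pf_refl, e, Pf_neg_fun, mul_neg, intervalIntegral.integral_neg]

theorem mehler_neg {δ : ℝ} (hδ : 0 < δ) {f : Sm n} (hf : Sym 0 f) :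
    ∃ ψ : Sm n, Sym 0 ψ ∧ Top 1 (-δ) ψ = f := by
  have h : Good δ f := ⟨hf, Or.inl hδ⟩
  refine ⟨(-1 : ℝ) • MS δ f h, ?_, ?_⟩
  · have := sym_MS h le_rfl hδ (by rwa [neg_zero])
    rw [neg_zero] at this
    exact this.smul _
  · rw [Top_smul, Top_MS, neg_one_smul, neg_neg]

/-- `p a = -MS 0 (∂_a f)` (odd, `L p_a = ∂_a f`, `∂_b p_a = -MS 1 (∂_b∂_a f)` is symmetric in `a, b` and
lies in `Sym (-7/8)` by `sym_MS`, so `p a ∈ Sym (1/8)` by `sym_prim`). Put
`ψ = f - ∑ ∂_a p_a + ∑ X_a p_a`. Then `∂_bψ = ∂_b f - L p_b + p_b = p_b`, and `Lψ + ψ = f`. -/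
theorem mehler_one {f : Sm n} (hf : Sym 0 f) (he : IsEv f) :
    ∃ ψ : Sm n, Sym (9 / 8) ψ ∧ IsEv ψ ∧ Top 1 1 ψ = f := by
  have h : ∀ a, Good 0 (pd a f) := fun a =>
    ⟨(hf.pd a).mono (by norm_num), Or.inr ⟨rfl, he.pd a⟩⟩
  obtain ⟨p, hp⟩ : ∃ p : Fin n → Sm n, ∀ a, p a = (-1 : ℝ) • MS 0 (pd a f) (h a) :=
    ⟨_, fun _ => rfl⟩
  have hL : ∀ a, Lop 1 (p a) = pd a f := fun a => by
    have := Top_MS (h a)
    rw [neg_zero, Top_zero_eq] at this
    rw [hp, Lop_smul, this, neg_one_smul, neg_neg]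
  have hd : ∀ a b, pd b (p a) = (-1 : ℝ) • MS (0 + 1) (pd b (pd a f)) ((h a).pd b) := fun a b => by
    rw [hp, Derivation.map_smul, pd_MS]
  have hs : ∀ a b, pd b (p a) = pd a (p b) := fun a b => by
    rw [hd, hd]
    congr 2
    exact pd_comm b a f
  have hsym : ∀ a, Sym (1 / 8) (p a) := fun a => sym_prim (by norm_num) fun b => by
    rw [hd, show (1 / 8 : ℝ) - 1 = -(7 / 8) by norm_num]
    exact (sym_MS _ (by norm_num) (by norm_num)
      (((hf.pd a).pd b).mono (by norm_num))).smul _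
  have hod : ∀ a, IsOd (p a) := fun a => hp a ▸ (isOd_MS (h a) (he.pd a)).smul _
  have hψ : ∀ b, pd b (f - ∑ a, pd a (p a) + ∑ a, X a * p a) = p b := fun b => by
    have e1 : ∀ a, pd b (pd a (p a)) = pd a (pd a (p b)) := fun a => by rw [pd_comm, hs]
    have e2 := hL b
    simp only [Lop, con_one, eul] at e2
    simp only [map_add, map_sub, map_sum, pd_mul, pd_X, e1, Finset.sum_add_distrib, hs _ b,
      ite_mul, one_mul, zero_mul, Finset.sum_ite_eq, Finset.mem_univ, if_true]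
    linear_combination -e2
  refine ⟨f - ∑ a, pd a (p a) + ∑ a, X a * p a, ?_, ?_, ?_⟩
  · exact ((hf.mono (by norm_num)).sub (Sym.sum _ fun a _ =>
      ((hsym a).pd a).mono (by norm_num))).add (Sym.sum _ fun a _ =>
        ((sym_X a).mul (hsym a)).mono (by norm_num))
  · exact (he.sub (IsEv.sum _ fun a _ => (hod a).pd a)).add
      (IsEv.sum _ fun a _ => (isOd_X a).mul (hod a))
  · simp only [Top, Lop, con_one, eul, hψ, one_smul]
    ring

end Crest.Agent.R238
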