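import Crest.Agent.R238.Int

/-!
# Row 238: the weighted norms `nrm`, `N`, the Sobolev embedding
-/

set_option autoImplicit false
open MeasureTheory Matrix
open scoped ContDiff BigOperators

noncomputable section
namespace Crest.Agent.R238

variable {n : ℕ}

/-- `F` is continuous and bounded by a power of `r` that makes `F r^σ` square integrable. -/
def Adm (σ : ℝ) (F : E n → ℝ) : Prop :=
  Continuous F ∧ ∃ C μ : ℝ, μ + σ < -(n : ℝ) / 2 ∧ ∀ x, |F x| ≤ C * r x ^ μ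

theorem Adm.integrable {σ : ℝ} {F : E n → ℝ} (h : Adm σ F) :
    Integrable (fun x => (F x * r x ^ σ) ^ 2) := by
  obtain ⟨hF, C, μ, hμ, hb⟩ := h
  refine integrable_of_le_rpow (C := C ^ 2) (s := (μ + σ) + (μ + σ))
    ((hF.mul (continuous_r_rpow σ)).pow 2) (by linarith) fun x => ?_
  have h1 : |F x * r x ^ σ| ≤ C * r x ^ (μ + σ) := by
    rw [abs_mul, abs_of_pos (r_rpow_pos x σ), r_rpow_add, ← mul_assoc]
    exact mul_le_mul_of_nonneg_right (hb x) (r_rpow_pos x σ).le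
  rw [abs_of_nonneg (sq_nonneg _), r_rpow_add, ← sq_abs]
  calc |F x * r x ^ σ| ^ 2 ≤ (C * r x ^ (μ + σ)) ^ 2 := pow_le_pow_left₀ (abs_nonneg _) h1 2
    _ = _ := by ring

theorem Adm.add {σ : ℝ} {F G : E n → ℝ} (hF : Adm σ F) (hG : Adm σ G) :
    Adm σ (fun x => F x + G x) := by
  obtain ⟨hF, C, μ, hμ, hb⟩ := hF
  obtain ⟨hG, C', μ', hμ', hb'⟩ := hG
  refine ⟨hF.add hG, |C| + |C'|, max μ μ', ?_, fun x => ?_⟩
  · rcases le_total μ μ' with h | h
    · rwa [max_eq_right h]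
    · rwa [max_eq_left h]
  · have h1 : C * r x ^ μ ≤ |C| * r x ^ max μ μ' :=
      mul_le_mul (le_abs_self C) (r_rpow_mono x (le_max_left _ _)) (r_rpow_pos x _).le
        (abs_nonneg _)
    have h2 : C' * r x ^ μ' ≤ |C'| * r x ^ max μ μ' :=
      mul_le_mul (le_abs_self C') (r_rpow_mono x (le_max_right _ _)) (r_rpow_pos x _).le
        (abs_nonneg _)
    have h3 := abs_add_le (F x) (G x)
    have := hb x
    have := hb' x
    linarith

theorem Adm.const_mul {σ : ℝ} {F : E n → ℝ} (hF : Adm σ F) (c : ℝ) : Adm σ (fun x => c * F x) := by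
  obtain ⟨hF, C, μ, hμ, hb⟩ := hF
  refine ⟨continuous_const.mul hF, |c| * C, μ, hμ, fun x => ?_⟩
  rw [abs_mul, mul_assoc]
  exact mul_le_mul_of_nonneg_left (hb x) (abs_nonneg _)

theorem adm_zero (σ : ℝ) : Adm σ (fun _ : E n => (0 : ℝ)) := by
  refine ⟨continuous_const, 0, -(n : ℝ) / 2 - σ - 1, by linarith, fun x => by simp⟩

theorem Adm.sum {ι : Type*} {σ : ℝ} (s : Finset ι) {F : ι → E n → ℝ} (hF : ∀ i ∈ s, Adm σ (F i)) :
    Adm σ (fun x => ∑ i ∈ s, F i x) := by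
  classical
  induction s using Finset.induction_on with
  | empty => simpa using adm_zero σ
  | insert a s ha ih =>
    simp only [Finset.sum_insert ha]
    exact (hF a (Finset.mem_insert_self _ _)).add
      (ih fun i hi => hF i (Finset.mem_insert_of_mem hi))

theorem Adm.of_le {σ : ℝ} {F G : E n → ℝ} (hG : Adm σ G) (hF : Continuous F)
    (h : ∀ x, |F x| ≤ G x) : Adm σ F := by
  obtain ⟨_, C, μ, hμ, hb⟩ := hG
  exact ⟨hF, C, μ, hμ, fun x => (h x).trans ((le_abs_self _).trans (hb x))⟩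

theorem Adm.mono {σ σ' : ℝ} {F : E n → ℝ} (hF : Adm σ F) (h : σ' ≤ σ) : Adm σ' F := by
  obtain ⟨hF, C, μ, hμ, hb⟩ := hF
  exact ⟨hF, C, μ, by linarith, hb⟩

theorem Adm.r_mul {σ : ℝ} {F : E n → ℝ} (hF : Adm (σ + 1) F) : Adm σ (fun x => r x * F x) := by
  obtain ⟨hF, C, μ, hμ, hb⟩ := hF
  refine ⟨continuous_r.mul hF, C, μ + 1, by linarith, fun x => ?_⟩
  rw [abs_mul, abs_of_pos (r_pos x), r_rpow_add, Real.rpow_one]
  have := mul_le_mul_of_nonneg_left (hb x) (r_pos x).le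
  linarith

theorem adm_const {σ : ℝ} (hσ : σ < -(n : ℝ) / 2) (c : ℝ) : Adm σ (fun _ : E n => c) := by
  refine ⟨continuous_const, |c|, 0, by linarith, fun x => by simp⟩

theorem Sym.adm_J {μ σ : ℝ} {f : Sm n} (hf : Sym μ f) (h : μ + σ < -(n : ℝ) / 2) (k : ℕ) :
    Adm σ (J k f) := by
  obtain ⟨C, _, hC⟩ := hf.J_le k
  exact ⟨continuous_J k f, C, μ, h, fun x => by rw [abs_of_nonneg (J_nonneg k f x)]; exact hC x⟩

theorem Sym.adm_d {μ σ : ℝ} {f : Sm n} (hf : Sym μ f) (k : ℕ) (h : μ - k + σ < -(n : ℝ) / 2) :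
    Adm σ (d k f) := by
  obtain ⟨C, _, hC⟩ := hf.d_le k
  exact ⟨continuous_d k f, C, μ - k, h, fun x => by rw [abs_of_nonneg (d_nonneg k f x)]; exact hC x⟩

theorem SymM.adm_JM {μ σ : ℝ} {M : Mat n} (hM : SymM μ M) (h : μ + σ < -(n : ℝ) / 2) (k : ℕ) :
    Adm σ (JM k M) := by
  obtain ⟨C, _, hC⟩ := hM.JM_le k
  exact ⟨continuous_JM k M, C, μ, h, fun x => by rw [abs_of_nonneg (JM_nonneg k M x)]; exact hC x⟩

theorem nrm_nonneg (σ : ℝ) (F : E n → ℝ) : 0 ≤ nrm σ F := Real.sqrt_nonneg _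

theorem nrm_sq (σ : ℝ) (F : E n → ℝ) : nrm σ F ^ 2 = ∫ x, (F x * r x ^ σ) ^ 2 := by
  exact Real.sq_sqrt (integral_nonneg fun x => sq_nonneg _)

theorem nrm_zero (σ : ℝ) : nrm σ (fun _ : E n => (0 : ℝ)) = 0 := by simp [nrm]

theorem nrm_mono {σ : ℝ} {F G : E n → ℝ} (hG : Adm σ G) (h : ∀ x, |F x| ≤ G x) :
    nrm σ F ≤ nrm σ G := by
  refine Real.sqrt_le_sqrt (integral_mono_of_nonneg (Filter.Eventually.of_forall fun x => sq_nonneg _)
    hG.integrable (Filter.Eventually.of_forall fun x => ?_))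
  have h1 : |F x * r x ^ σ| ≤ G x * r x ^ σ := by
    rw [abs_mul, abs_of_pos (r_rpow_pos x σ)]
    exact mul_le_mul_of_nonneg_right (h x) (r_rpow_pos x σ).le
  show (F x * r x ^ σ) ^ 2 ≤ (G x * r x ^ σ) ^ 2
  rw [← sq_abs]
  exact pow_le_pow_left₀ (abs_nonneg _) h1 2

theorem nrm_mono_exp {σ σ' : ℝ} {F : E n → ℝ} (hF : Adm σ F) (h : σ' ≤ σ) : nrm σ' F ≤ nrm σ F := by
  refine Real.sqrt_le_sqrt (integral_mono_of_nonneg (Filter.Eventually.of_forall fun x => sq_nonneg _)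
    hF.integrable (Filter.Eventually.of_forall fun x => ?_))
  show (F x * r x ^ σ') ^ 2 ≤ (F x * r x ^ σ) ^ 2
  rw [mul_pow, mul_pow]
  exact mul_le_mul_of_nonneg_left
    (pow_le_pow_left₀ (r_rpow_pos x _).le (r_rpow_mono x h) 2) (sq_nonneg _)

theorem nrm_const_mul (σ c : ℝ) (F : E n → ℝ) : nrm σ (fun x => c * F x) = |c| * nrm σ F := by
  unfold nrm
  have : (fun x => (c * F x * r x ^ σ) ^ 2) = fun x => c ^ 2 * (F x * r x ^ σ) ^ 2 := by
    funext x; ring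
  rw [this, integral_const_mul, Real.sqrt_mul (sq_nonneg c), Real.sqrt_sq_eq_abs]

theorem nrm_r_mul (σ : ℝ) (F : E n → ℝ) : nrm σ (fun x => r x * F x) = nrm (σ + 1) F := by
  unfold nrm
  congr 2
  funext x
  rw [r_rpow_add, Real.rpow_one]; ring

/-- Minkowski (via Cauchy–Schwarz: `2 ∫ A B ≤ t ∫ A² + t⁻¹ ∫ B²`, or through `MemLp … 2`). -/
theorem nrm_add_le {σ : ℝ} {F G : E n → ℝ} (hF : Adm σ F) (hG : Adm σ G) :
    nrm σ (fun x => F x + G x) ≤ nrm σ F + nrm σ G := by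
  have mF : MemLp (fun x => F x * r x ^ σ) 2 volume :=
    (memLp_two_iff_integrable_sq (hF.1.mul (continuous_r_rpow σ)).aestronglyMeasurable).2
      hF.integrable
  have mG : MemLp (fun x => G x * r x ^ σ) 2 volume :=
    (memLp_two_iff_integrable_sq (hG.1.mul (continuous_r_rpow σ)).aestronglyMeasurable).2
      hG.integrable
  have key : ∀ {H : E n → ℝ} (m : MemLp H 2 volume), Real.sqrt (∫ x, H x ^ 2) = ‖m.toLp H‖ := by
    intro H m
    rw [norm_eq_sqrt_real_inner, L2.inner_def]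
    congr 1
    refine integral_congr_ae ?_
    filter_upwards [m.coeFn_toLp] with x hx
    rw [hx]; simp [sq]
  have e : nrm σ (fun x => F x + G x) = ‖mF.toLp _ + mG.toLp _‖ := by
    rw [← MemLp.toLp_add, ← key]
    unfold nrm
    congr 2
    funext x
    simp only [Pi.add_apply]; ring
  rw [e, nrm, nrm, key mF, key mG]
  exact norm_add_le _ _

theorem nrm_sum_le {ι : Type*} {σ : ℝ} (s : Finset ι) {F : ι → E n → ℝ} (hF : ∀ i ∈ s, Adm σ (F i)) :
    nrm σ (fun x => ∑ i ∈ s, F i x) ≤ ∑ i ∈ s, nrm σ (F i) := by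
  classical
  induction s using Finset.induction_on with
  | empty => simp [nrm_zero]
  | insert a s ha ih =>
    simp only [Finset.sum_insert ha]
    have h1 := hF a (Finset.mem_insert_self _ _)
    have h2 : ∀ i ∈ s, Adm σ (F i) := fun i hi => hF i (Finset.mem_insert_of_mem hi)
    exact (nrm_add_le h1 (Adm.sum s h2)).trans (by linarith [ih h2])

/-- The Gaussian norm is dominated by every weighted norm. -/
theorem Gn_le_nrm (n : ℕ) (σ : ℝ) : ∃ C, 0 ≤ C ∧ ∀ (f : Sm n) (F : E n → ℝ), Adm σ F →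
    (∀ x, |ev x f| ≤ F x) → Gn f ≤ C * nrm σ F := by
  obtain ⟨C, hC0, hC⟩ := exp_le_rpow (n := n) (c := 1 / 2) (by norm_num) (σ + σ)
  refine ⟨Real.sqrt C, Real.sqrt_nonneg _, fun f F hF h => ?_⟩
  rw [nrm, ← Real.sqrt_mul hC0, ← integral_const_mul]
  refine Real.sqrt_le_sqrt (integral_mono_of_nonneg
    (Filter.Eventually.of_forall fun x => by positivity)
    (hF.integrable.const_mul C) (Filter.Eventually.of_forall fun x => ?_))
  have h1 : ev x f ^ 2 ≤ F x ^ 2 := by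
    rw [← sq_abs]; exact pow_le_pow_left₀ (abs_nonneg _) (h x) 2
  have h2 := hC x
  rw [r_rpow_add, show -(1 / 2 * ∑ a, x a ^ 2) = -(∑ a, x a ^ 2) / 2 by ring] at h2
  calc ev x f ^ 2 * Real.exp (-(∑ a, x a ^ 2) / 2) ≤ F x ^ 2 * (C * (r x ^ σ * r x ^ σ)) :=
        mul_le_mul h1 h2 (Real.exp_pos _).le (sq_nonneg _)
    _ = C * (F x * r x ^ σ) ^ 2 := by ring

theorem N_nonneg (k : ℕ) (σ : ℝ) (f : Sm n) : 0 ≤ N k σ f := nrm_nonneg _ _

theorem N_mono {k l : ℕ} (hkl : k ≤ l) {μ σ : ℝ} {f : Sm n} (hf : Sym μ f)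
    (h : μ + σ < -(n : ℝ) / 2) : N k σ f ≤ N l σ f := by
  exact nrm_mono (hf.adm_J h l) fun x => by
    rw [abs_of_nonneg (J_nonneg k f x)]; exact J_mono hkl f x

theorem N_pd_le (k : ℕ) (a : Fin n) {μ σ : ℝ} {f : Sm n} (hf : Sym μ f)
    (h : μ + σ < -(n : ℝ) / 2) : N k (σ + 1) (pd a f) ≤ N (k + 1) σ f := by
  rw [N, ← nrm_r_mul]
  exact nrm_mono (hf.adm_J h (k + 1)) fun x => by
    rw [abs_of_nonneg (mul_nonneg (r_pos x).le (J_nonneg k _ x))]; exact J_pd_le k a f x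

end Crest.Agent.R238
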