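import Crest.Agent.R238.Sym

/-!
# Row 238: one-dimensional even convex potentials composed with linear forms
-/

set_option autoImplicit false
open MeasureTheory Matrix
open scoped ContDiff BigOperators

noncomputable section
namespace Crest.Agent.R238

variable {n : ℕ}

/-- The linear form `x ↦ u ⬝ᵥ x`. -/
def lin (u : E n) : Sm n := ∑ a, u a • X a

@[simp] theorem ev_lin (u x : E n) : ev x (lin u) = u ⬝ᵥ x := by simp [lin, dotProduct]

theorem pd_lin (a : Fin n) (u : E n) : pd a (lin u) = cst (u a) := by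
  simp only [lin, map_sum, Derivation.map_smul, pd_X]
  ext x
  simp

theorem pot_pd_cmp (a : Fin n) (ψ : ℝ → ℝ) (hψ : ContDiff ℝ ∞ ψ) (u : E n) :
    pd a (cmp ψ hψ (lin u)) = u a • cmp (deriv ψ) (contDiff_deriv hψ) (lin u) := by
  rw [pd_cmp, pd_lin, mul_comm, Algebra.smul_def]

theorem pot_d_le (u : E n) (k : ℕ) (ψ : ℝ → ℝ) (hψ : ContDiff ℝ ∞ ψ)
    (h : ∀ j, ∃ C, ∀ t, |iteratedDeriv j ψ t| ≤ C) : ∃ C, ∀ x, d k (cmp ψ hψ (lin u)) x ≤ C := by
  induction k generalizing ψ with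
  | zero =>
    obtain ⟨C, hC⟩ := h 0
    exact ⟨C, fun x => hC _⟩
  | succ k ih =>
    obtain ⟨C, hC⟩ := ih (deriv ψ) (contDiff_deriv hψ) fun j => by
      simpa only [iteratedDeriv_succ'] using h (j + 1)
    refine ⟨(∑ a, |u a|) * C, fun x => ?_⟩
    simp only [d_succ, pot_pd_cmp, d_smul]
    rw [← Finset.sum_mul]
    exact mul_le_mul_of_nonneg_left (hC x) (Finset.sum_nonneg fun _ _ => abs_nonneg _)

theorem sym_lin (u : E n) : Sym 1 (lin u) := Sym.sum _ fun a _ => (sym_X a).smul _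

theorem isOd_lin (u : E n) : IsOd (lin u) := IsOd.sum _ fun a _ => (isOd_X a).smul _

/-- The constant matrix `u uᵀ`. -/
def outer (u : E n) : Mat n := Matrix.of fun a b => cst (u a * u b)

/-- A smooth, even, convex, nonnegative function with bounded derivatives of all positive orders. -/
structure Pot where
  φ : ℝ → ℝ
  sm : ContDiff ℝ ∞ φ
  even : ∀ t, φ (-t) = φ t
  nonneg : ∀ t, 0 ≤ φ t
  conv : ∀ t, 0 ≤ deriv (deriv φ) t
  bdd : ∀ j : ℕ, ∃ C, ∀ t, |iteratedDeriv (j + 1) φ t| ≤ C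

namespace Pot
variable (P : Pot)

/-- `φ(u · x)`. -/
def f0 (u : E n) : Sm n := cmp P.φ P.sm (lin u)
/-- `φ'(u · x)`. -/
def f1 (u : E n) : Sm n := cmp (deriv P.φ) (contDiff_deriv P.sm) (lin u)
/-- `φ''(u · x)`. -/
def f2 (u : E n) : Sm n := cmp (deriv (deriv P.φ)) (contDiff_deriv (contDiff_deriv P.sm)) (lin u)

@[simp] theorem ev_f0 (u x : E n) : ev x (P.f0 u) = P.φ (u ⬝ᵥ x) := by simp [f0]
@[simp] theorem ev_f1 (u x : E n) : ev x (P.f1 u) = deriv P.φ (u ⬝ᵥ x) := by simp [f1]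
@[simp] theorem ev_f2 (u x : E n) : ev x (P.f2 u) = deriv (deriv P.φ) (u ⬝ᵥ x) := by simp [f2]

theorem pd_f0 (a : Fin n) (u : E n) : pd a (P.f0 u) = u a • P.f1 u := by
  exact pot_pd_cmp a _ _ u
theorem pd_f1 (a : Fin n) (u : E n) : pd a (P.f1 u) = u a • P.f2 u := by
  exact pot_pd_cmp a _ _ u
theorem hess_f0 (u : E n) : hess (P.f0 u) = P.f2 u • outer u := by
  ext a b x
  simp only [hess_apply, pd_f0, Derivation.map_smul, pd_f1]
  simp [outer]
  ring

theorem exists_deriv_le : ∃ S, 0 ≤ S ∧ ∀ t, |deriv P.φ t| ≤ S := by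
  obtain ⟨C, hC⟩ := P.bdd 0
  simp only [zero_add, iteratedDeriv_one] at hC
  exact ⟨C, (abs_nonneg _).trans (hC 0), hC⟩
theorem exists_deriv2_le : ∃ S, 0 ≤ S ∧ ∀ t, deriv (deriv P.φ) t ≤ S := by
  obtain ⟨C, hC⟩ := P.bdd 1
  simp only [iteratedDeriv_succ, iteratedDeriv_zero] at hC
  exact ⟨C, (abs_nonneg _).trans (hC 0), fun t => (le_abs_self _).trans (hC t)⟩
theorem exists_le_linear : ∃ S, 0 ≤ S ∧ ∀ t, P.φ t ≤ S * (1 + |t|) := by
  obtain ⟨S, hS, h⟩ := P.exists_deriv_le
  refine ⟨S + P.φ 0, add_nonneg hS (P.nonneg 0), fun t => ?_⟩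
  have := Convex.norm_image_sub_le_of_norm_deriv_le (f := P.φ) (s := Set.univ) (C := S) (x := 0)
    (y := t) (fun x _ => P.sm.differentiable (by simp) x) (fun x _ => h x) convex_univ trivial trivial
  rw [Real.norm_eq_abs, Real.norm_eq_abs, sub_zero] at this
  nlinarith [le_abs_self (P.φ t - P.φ 0), mul_nonneg (P.nonneg 0) (abs_nonneg t)]
theorem deriv_neg (t : ℝ) : deriv P.φ (-t) = -deriv P.φ t := by
  have h := deriv_comp_neg P.φ t
  rw [funext P.even] at h
  linarith
theorem deriv2_neg (t : ℝ) : deriv (deriv P.φ) (-t) = deriv (deriv P.φ) t := by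
  have h := deriv_comp_neg (deriv P.φ) t
  rw [funext P.deriv_neg, deriv.fun_neg] at h
  linarith

theorem isEv_f0 (u : E n) : IsEv (P.f0 u) := by
  exact (isEv_iff _).2 fun x => by simp [P.even]
theorem isOd_f1 (u : E n) : IsOd (P.f1 u) := by
  exact (isOd_iff _).2 fun x => by simp [P.deriv_neg]

/-- `d k (φ^{(j+1)} ∘ ℓ)` is bounded, by induction on `k` generalizing `j`. -/
theorem tm_f1 (u : E n) : Tm (P.f1 u) := by
  intro k
  obtain ⟨C, hC⟩ := pot_d_le u k _ (contDiff_deriv P.sm) fun j => by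
    simpa only [iteratedDeriv_succ'] using P.bdd j
  exact ⟨C, 0, fun x => by simpa [f1] using hC x⟩
theorem tm_f2 (u : E n) : Tm (P.f2 u) := by
  intro k
  obtain ⟨C, hC⟩ := pot_d_le u k _ (contDiff_deriv (contDiff_deriv P.sm)) fun j => by
    simpa only [iteratedDeriv_succ'] using P.bdd (j + 1)
  exact ⟨C, 0, fun x => by simpa [f2] using hC x⟩
theorem tm_f0 (u : E n) : Tm (P.f0 u) := by
  intro k
  cases k with
  | zero =>
    obtain ⟨S, hS, h⟩ := P.exists_le_linear
    obtain ⟨C, hC, h'⟩ := (sym_lin u).abs_le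
    refine ⟨S * (1 + C), 1, fun x => ?_⟩
    have h1 := h' x
    rw [ev_lin, Real.rpow_one] at h1
    rw [d_zero_eq, ev_f0, abs_of_nonneg (P.nonneg _), Real.rpow_one, mul_assoc]
    refine (h _).trans (mul_le_mul_of_nonneg_left ?_ hS)
    linarith [one_le_r x]
  | succ k =>
    obtain ⟨C, s, h⟩ := P.tm_f1 u k
    refine ⟨(∑ a, |u a|) * C, s, fun x => ?_⟩
    simp only [d_succ, pd_f0, d_smul]
    rw [← Finset.sum_mul, mul_assoc]
    exact mul_le_mul_of_nonneg_left (h x) (Finset.sum_nonneg fun _ _ => abs_nonneg _)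

/-- Nonnegative multiples. -/
def scale (k : ℝ) (hk : 0 ≤ k) : Pot where
  φ := fun t => k * P.φ t
  sm := contDiff_const.mul P.sm
  even := fun t => by rw [P.even]
  nonneg := fun t => mul_nonneg hk (P.nonneg t)
  conv := fun t => by
    rw [deriv_const_mul_field', deriv_const_mul_field']
    exact mul_nonneg hk (P.conv t)
  bdd := fun j => by
    obtain ⟨C, hC⟩ := P.bdd j
    refine ⟨k * C, fun t => ?_⟩
    rw [iteratedDeriv_const_mul_field, abs_mul, abs_of_nonneg hk]
    exact mul_le_mul_of_nonneg_left (hC t) hk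

end Pot

/-- The primitive of the smooth transition function. -/
def pot_om (s : ℝ) : ℝ := ∫ t in (0 : ℝ)..s, Real.smoothTransition t

theorem pot_om_deriv (s : ℝ) : HasDerivAt pot_om (Real.smoothTransition s) s :=
  (Real.smoothTransition.continuous.integral_hasStrictDerivAt 0 s).hasDerivAt

theorem pot_om_sm : ContDiff ℝ ∞ pot_om := by
  refine contDiff_infty_iff_deriv.2 ⟨fun s => (pot_om_deriv s).differentiableAt, ?_⟩
  rw [funext fun s => (pot_om_deriv s).deriv]
  exact Real.smoothTransition.contDiff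

theorem pot_om_zero {s : ℝ} (hs : s ≤ 0) : pot_om s = 0 := by
  rw [pot_om, intervalIntegral.integral_congr (g := fun _ => 0), intervalIntegral.integral_zero]
  intro t ht
  rw [Set.uIcc_of_ge hs] at ht
  exact Real.smoothTransition.zero_of_nonpos ht.2

theorem pot_om_pos {s : ℝ} (hs : 0 < s) : 0 < pot_om s :=
  intervalIntegral.intervalIntegral_pos_of_pos_on
    (Real.smoothTransition.continuous.intervalIntegrable _ _)
    (fun _ ht => Real.smoothTransition.pos_of_pos ht.1) hs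

theorem pot_om_nonneg (s : ℝ) : 0 ≤ pot_om s := by
  rcases le_or_gt s 0 with h | h
  · exact (pot_om_zero h).ge
  · exact (pot_om_pos h).le

theorem pot_om_one {s : ℝ} (hs : 1 ≤ s) : pot_om s = pot_om 1 + (s - 1) := by
  rw [pot_om, pot_om, ← intervalIntegral.integral_add_adjacent_intervals (b := 1)
    (Real.smoothTransition.continuous.intervalIntegrable _ _)
    (Real.smoothTransition.continuous.intervalIntegrable _ _),
    intervalIntegral.integral_congr (a := 1) (g := fun _ => 1)]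
  · simp
  · intro t ht
    rw [Set.uIcc_of_le hs] at ht
    exact Real.smoothTransition.one_of_one_le ht.1

theorem pot_bdd (j : ℕ) : ∃ C, ∀ t, |iteratedDeriv j Real.smoothTransition t| ≤ C := by
  cases j with
  | zero =>
    exact ⟨1, fun t => by
      rw [iteratedDeriv_zero, abs_of_nonneg (Real.smoothTransition.nonneg t)]
      exact Real.smoothTransition.le_one t⟩
  | succ j =>
    have h : HasCompactSupport (iteratedDeriv (j + 1) Real.smoothTransition) := by
      induction j with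
      | zero =>
        rw [zero_add, iteratedDeriv_one]
        refine HasCompactSupport.intro (isCompact_Icc (a := 0) (b := 1)) fun t ht => ?_
        rw [Set.mem_Icc, not_and_or, not_le, not_le] at ht
        rcases ht with ht | ht
        · rw [Filter.EventuallyEq.deriv_eq (f := fun _ => 0), deriv_const]
          filter_upwards [Iio_mem_nhds ht] with s hs
          exact Real.smoothTransition.zero_of_nonpos (le_of_lt hs)
        · rw [Filter.EventuallyEq.deriv_eq (f := fun _ => 1), deriv_const]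
          filter_upwards [Ioi_mem_nhds ht] with s hs
          exact Real.smoothTransition.one_of_one_le (le_of_lt hs)
      | succ j ih =>
        rw [iteratedDeriv_succ]
        exact ih.deriv
    exact ((Real.smoothTransition.contDiff (n := (j + 1 : ℕ))).continuous_iteratedDeriv _
      le_rfl).bounded_above_of_compact_support h

/-- E.g. `φ s = ω (s - 1) + ω (-s - 1)` with `ω s = ∫ t in 0..s, smoothTransition t`
(`ω' = smoothTransition` is monotone, so `ω'' ≥ 0`; `ω^{(j+2)}` is continuous and vanishes outside `[0,1]`). -/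
theorem exists_pot : ∃ P : Pot, (∀ s, |s| ≤ 1 → P.φ s = 0) ∧ ∀ s, 1 < |s| → 0 < P.φ s := by
  have hd : deriv (fun s => pot_om (s - 1) + pot_om (-1 - s)) =
      fun s => Real.smoothTransition (s - 1) - Real.smoothTransition (-1 - s) := by
    funext s
    have h1 := (pot_om_deriv (s - 1)).comp_sub_const s 1
    have h2 := (pot_om_deriv (-1 - s)).comp_const_sub (-1) s
    exact (h1.add h2).deriv
  refine ⟨⟨fun s => pot_om (s - 1) + pot_om (-1 - s), ?_, fun t => ?_,
    fun t => add_nonneg (pot_om_nonneg _) (pot_om_nonneg _), fun t => ?_, fun j => ?_⟩,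
    fun s hs => ?_, fun s hs => ?_⟩
  · exact (pot_om_sm.comp (by fun_prop)).add (pot_om_sm.comp (by fun_prop))
  · rw [add_comm]
    congr 2 <;> ring
  · rw [hd]
    refine Monotone.deriv_nonneg fun a b hab => sub_le_sub ?_ ?_ <;>
      exact Real.smoothTransition.monotone (by linarith)
  · obtain ⟨C, hC⟩ := pot_bdd j
    refine ⟨C + C, fun t => ?_⟩
    rw [iteratedDeriv_succ', hd, iteratedDeriv_fun_sub, iteratedDeriv_comp_sub_const,
      iteratedDeriv_comp_const_sub]
    · refine (abs_sub _ _).trans (add_le_add (hC _) ?_)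
      simpa using hC _
    · exact (Real.smoothTransition.contDiff.comp (by fun_prop)).contDiffAt
    · exact (Real.smoothTransition.contDiff.comp (by fun_prop)).contDiffAt
  · obtain ⟨h1, h2⟩ := abs_le.1 hs
    change pot_om (s - 1) + pot_om (-1 - s) = 0
    rw [pot_om_zero (by linarith), pot_om_zero (by linarith), add_zero]
  · change 0 < pot_om (s - 1) + pot_om (-1 - s)
    rcases lt_abs.1 hs with h | h
    · exact add_pos_of_pos_of_nonneg (pot_om_pos (by linarith)) (pot_om_nonneg _)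
    · exact add_pos_of_nonneg_of_pos (pot_om_nonneg _) (pot_om_pos (by linarith))

/-- A smooth convex nondecreasing function vanishing on `s ≤ 1/4` with slope `1` on `s ≥ 1/2`:
`κ s = ω (4 s - 1) / 4`. -/
theorem exists_kappa : ∃ (κ : ℝ → ℝ) (c : ℝ), ContDiff ℝ ∞ κ ∧ (∀ s, 0 ≤ κ s) ∧ (∀ s, 0 ≤ deriv κ s) ∧
    (∀ s, 0 ≤ deriv (deriv κ) s) ∧ (∀ s, s ≤ 1 / 4 → κ s = 0) ∧ (∀ s, 1 / 2 ≤ s → deriv κ s = 1) ∧
    ∀ s, 1 / 2 ≤ s → κ s = s - c := by
  have hd : deriv (fun s => pot_om (4 * s - 1) / 4) =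
      fun s => Real.smoothTransition (4 * s - 1) := by
    funext s
    have h1 := ((pot_om_deriv (4 * s - 1)).comp s
      (((hasDerivAt_id s).const_mul 4).sub_const 1)).div_const 4
    rw [show Real.smoothTransition (4 * s - 1) * (4 * 1) / 4 = Real.smoothTransition (4 * s - 1) by
      ring] at h1
    exact h1.deriv
  refine ⟨fun s => pot_om (4 * s - 1) / 4, 1 / 2 - pot_om 1 / 4,
    (pot_om_sm.comp (by fun_prop)).div_const _, fun s => div_nonneg (pot_om_nonneg _) (by norm_num),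
    fun s => ?_, fun s => ?_, fun s hs => ?_, fun s hs => ?_, fun s hs => ?_⟩
  · rw [hd]; exact Real.smoothTransition.nonneg _
  · rw [hd]
    exact Monotone.deriv_nonneg fun a b hab => Real.smoothTransition.monotone (by linarith)
  · beta_reduce
    rw [pot_om_zero (by linarith), zero_div]
  · rw [hd]; exact Real.smoothTransition.one_of_one_le (by linarith)
  · beta_reduce
    rw [pot_om_one (by linarith)]; ring

variable {ι : Type} [Fintype ι]

/-- `g₀ = ∑ a_i ℓ_i φ'(ℓ_i)`. -/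
def G0 (P : Pot) (u : ι → E n) (a : ι → ℝ) : Sm n := ∑ i, a i • (lin (u i) * P.f1 (u i))
/-- `∑ a_i² ℓ_i φ'(ℓ_i)`. -/
def G1 (P : Pot) (u : ι → E n) (a : ι → ℝ) : Sm n := ∑ i, a i ^ 2 • (lin (u i) * P.f1 (u i))
/-- `∑ a_i² ℓ_i² φ''(ℓ_i)`. -/
def G2 (P : Pot) (u : ι → E n) (a : ι → ℝ) : Sm n := ∑ i, a i ^ 2 • (lin (u i) ^ 2 * P.f2 (u i))
/-- The odd vector field `b = ∑ a_i φ'(ℓ_i) u_i`. -/
def bV (P : Pot) (u : ι → E n) (a : ι → ℝ) (j : Fin n) : Sm n := ∑ i, (a i * u i j) • P.f1 (u i)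
/-- `D²(∑ φ(ℓ_i))`. -/
def HP (P : Pot) (u : ι → E n) : Mat n := ∑ i, P.f2 (u i) • outer (u i)

theorem tm_G0 (P : Pot) (u : ι → E n) (a : ι → ℝ) : Tm (G0 P u a) :=
  Tm.sum _ fun i _ => ((sym_lin (u i)).tm.mul (P.tm_f1 _)).smul _
theorem tm_G1 (P : Pot) (u : ι → E n) (a : ι → ℝ) : Tm (G1 P u a) :=
  Tm.sum _ fun i _ => ((sym_lin (u i)).tm.mul (P.tm_f1 _)).smul _
theorem tm_G2 (P : Pot) (u : ι → E n) (a : ι → ℝ) : Tm (G2 P u a) :=
  Tm.sum _ fun i _ => (((sym_lin (u i)).tm.pow 2).mul (P.tm_f2 _)).smul _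
theorem tm_bV (P : Pot) (u : ι → E n) (a : ι → ℝ) (j : Fin n) : Tm (bV P u a j) :=
  Tm.sum _ fun i _ => (P.tm_f1 (u i)).smul _
theorem isOd_bV (P : Pot) (u : ι → E n) (a : ι → ℝ) (j : Fin n) : IsOd (bV P u a j) :=
  IsOd.sum _ fun i _ => (P.isOd_f1 (u i)).smul _

theorem quad_HP (P : Pot) (u : ι → E n) (x v : E n) :
    v ⬝ᵥ (evM x (HP P u) *ᵥ v) = ∑ i, deriv (deriv P.φ) (u i ⬝ᵥ x) * (u i ⬝ᵥ v) ^ 2 := by
  simp only [HP, dotProduct, Matrix.mulVec, evM_apply, Matrix.sum_apply, Matrix.smul_apply,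
    smul_eq_mul, map_sum, map_mul, Pot.ev_f2, outer, Matrix.of_apply, ev_cst, sq, Finset.sum_mul,
    Finset.mul_sum]
  conv_rhs => rw [Finset.sum_comm]
  refine Finset.sum_congr rfl fun a _ => ?_
  rw [Finset.sum_comm]
  exact Finset.sum_congr rfl fun i _ => Finset.sum_congr rfl fun b _ => by ring

theorem hess_sum_f0' (P : Pot) (u : ι → E n) : hess (∑ i, P.f0 (u i)) = HP P u := by
  ext a b : 2
  simp only [HP, ← Pot.hess_f0, hess_apply, map_sum, Matrix.sum_apply]

theorem HP_symm (P : Pot) (u : ι → E n) : (HP P u)ᵀ = HP P u := by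
  rw [← hess_sum_f0', hess_transpose]

theorem hess_sum_f0 (P : Pot) (u : ι → E n) : hess (∑ i, P.f0 (u i)) = HP P u := by
  exact hess_sum_f0' P u

end Crest.Agent.R238
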