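import Crest.Agent.R238.KEid

/-!
# Row 238: one step of the nonlinear continuation
-/

set_option autoImplicit false
open MeasureTheory Matrix
open scoped ContDiff BigOperators

noncomputable section
namespace Crest.Agent.R238

variable {n : ℕ}

theorem stepA_isEv_det {M : Mat n} (h : ∀ a b, IsEv (M a b)) : IsEv M.det := by
  rw [isEv_iff]
  intro x
  rw [ev_det, ev_det]
  congr 1
  ext a b
  exact (isEv_iff _).1 (h a b) x

theorem stepA_isEv_logS {f : Sm n} (h : IsEv f) (hf : ∀ x, ev x f ≠ 0) : IsEv (logS f hf) := by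
  rw [isEv_iff]
  intro x
  rw [ev_logS, ev_logS, (isEv_iff _).1 h x]

theorem stepA_pd_logdet (a : Fin n) {τ g : Mat n} (h : τ * g = 1) (hf : ∀ x, ev x g.det ≠ 0) :
    pd a (logS g.det hf) = (τ * pdM a g).trace := by
  rw [pd_logS, pd_det a h, ← mul_assoc, invS_mul, one_mul]

theorem stepA_trace (a : Fin n) (P Q : Mat n) :
    (P * pdM a Q).trace = ∑ p : Fin n × Fin n, P p.1 p.2 * pd a (Q p.2 p.1) := by
  simp only [Matrix.trace, Matrix.diag, Matrix.mul_apply, pdM_apply, Fintype.sum_prod_type]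

theorem stepA_sum {P Q : Mat n} {u v : ℝ} (hP : YM u P) (hQ : YM v Q) :
    ∑ p : Fin n × Fin n, Y (P p.1 p.2) * Y (Q p.2 p.1) ≤ (n : ℝ) ^ 2 * (u * v) := by
  rw [Fintype.sum_prod_type]
  exact ynorm_sum2 fun a b =>
    mul_le_mul (hP a b) (hQ b a) (Y_nonneg _) ((Y_nonneg _).trans (hP a b))

/-- Put `B = hess φ`, `g' = g + B = 1 + hess (ζ + φ)`, `Low (c/2) g'` for `n β ≤ c/2` (`Low.add_small`),
`τ'` its inverse (`exists_inv`, `symM_inv_sub_one`, `inv_YM`), `τ' - τ = -(τ' * B * τ)`,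
`η = logS (det g') - logS (det g) - (τ * B).trace` and `V' = V - Top τ 1 φ - η` (so that `eqn` holds:
`eul ζ' - ζ' - V' = (eul ζ - ζ - V) + con τ φ + η = log det g'`). By `pd_logS`, `pd_det`, `pdM_inv`:
`∂_aη = -tr(τ' B τ ∂_aB) + tr(τ' B τ B τ ∂_aA)`, `A = hess ζ`; `|η| ≤ |tr(τ' B τ B)| ≤ C β²`
(`abs_logdet_remainder`); `Y_prim` (index type `Fin n × Fin n ⊕ Fin n × Fin n` or two-step) and `YM_mul`
give `Sym 0 η`, `Y η ≤ C β²`. Evenness of `V'`: `refl` commutes with everything pointwise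
(`isEv_iff`, `ev_det`). -/
theorem stepA (n : ℕ) {c : ℝ} (hc : 0 < c) (K : ℝ) : ∃ β0 C, 0 < β0 ∧ 0 ≤ C ∧
    ∀ (D : KE n) (φ : Sm n) (β : ℝ), Low c D.g → YM K D.τ → YM K (hess D.ζ) →
      Sym (9 / 8) φ → IsEv φ → Sym 0 (Top D.τ 1 φ) → 0 ≤ β → β ≤ β0 → YM β (hess φ) →
      ∃ D' : KE n, YM (C * β) (D'.τ - D.τ) ∧ Y (D'.V - D.V + Top D.τ 1 φ) ≤ C * β ^ 2 := by
  obtain ⟨C₁, -, H₁⟩ := YM_one n
  obtain ⟨K', hK', HK'⟩ := inv_YM n (half_pos hc) (C₁ + |K| + 1)
  obtain ⟨Cm, hCm, Hm⟩ := YM_mul n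
  obtain ⟨Cp, hCp, Hp⟩ := Y_prim n
  set c₁ := Cm * (Cm * K' * |K|) with hc₁
  set c₂ := Cm * (Cm * c₁ * |K|) with hc₂
  have hc₁0 : 0 ≤ c₁ := by positivity
  have hc₂0 : 0 ≤ c₂ := by positivity
  refine ⟨min 1 (c / (2 * (n + 1))),
    max c₁ (Cp * (n * (Cm * c₁) + ((n : ℝ) ^ 2 * c₁ + (n : ℝ) ^ 2 * (c₂ * |K|)))),
    lt_min one_pos (by positivity), le_max_of_le_left hc₁0,
    fun D φ β hlow hτ hA hφ hev hT hβ0 hβ hB => ?_⟩
  replace hτ : YM |K| D.τ := fun a b => (hτ a b).trans (le_abs_self K)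
  replace hA : YM |K| (hess D.ζ) := fun a b => (hA a b).trans (le_abs_self K)
  have hβ1 : β ≤ 1 := hβ.trans (min_le_left _ _)
  have hβ2 : c / 2 ≤ c - n * β := by
    have := hβ.trans (min_le_right _ _)
    rw [le_div_iff₀ (by positivity)] at this
    linarith
  have sB' : SymM (-7 / 8) (hess φ) := by
    have := hφ.hess; norm_num at this ⊢; exact this
  have sB : SymM 0 (hess φ) := sB'.mono (by norm_num)
  have sA : SymM 0 (hess D.ζ) := D.symA.mono (by norm_num)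
  set B := hess φ with hBd
  have eg : 1 + hess (D.ζ + φ) = D.g + B := by rw [hess_add, KE.g, add_assoc]
  have lg : Low (c / 2) (D.g + B) :=
    (hlow.add_small fun x a b => (abs_le_Y (sB a b) x).trans (hB a b)).mono hβ2
  have tg : (D.g + B)ᵀ = D.g + B := by rw [Matrix.transpose_add, D.g_symm, hBd, hess_transpose]
  have pg : ∀ x, (evM x (D.g + B)).PosDef := lg.posDef (half_pos hc) tg
  have sg : SymM 0 (D.g + B) := D.sym0g.add sB
  obtain ⟨τ', hτ'⟩ := exists_inv pg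
  have sτ' : SymM 0 τ' := symM_inv tg hτ' (half_pos hc) lg sg
  have yτ' : YM K' τ' := HK' τ' _ tg hτ' lg sg fun a b =>
    (Y_add_le (D.sym0g a b) (sB a b)).trans (add_le_add
      ((Y_add_le (symM_one a b) (sA a b)).trans (add_le_add (H₁ a b) (hA a b))) ((hB a b).trans hβ1))
  have mul0 : ∀ {M P : Mat n}, SymM 0 M → SymM 0 P → SymM 0 (M * P) := fun h h' => by
    simpa using h.mul h'
  have eΔ : τ' - D.τ = -(τ' * B * D.τ) := by
    have h1 : τ' * (D.g + B) * D.τ = D.τ := by rw [hτ', one_mul]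
    rw [mul_add, add_mul, mul_assoc, D.gτ, mul_one] at h1
    exact sub_eq_iff_eq_add.2 (by rw [neg_add_eq_sub, eq_sub_iff_add_eq, h1])
  set P := τ' * B * D.τ with hP
  have sP : SymM 0 P := mul0 (mul0 sτ' sB) D.sym0τ
  have yP : YM (c₁ * β) P := by
    have := Hm _ _ _ _ (mul0 sτ' sB) D.sym0τ (Hm _ _ _ _ sτ' sB yτ' hB) hτ
    convert this using 1
    rw [hc₁]; ring
  have yP' : YM (c₁ * β) (-P) := fun a b => by
    rw [Matrix.neg_apply, Y_neg]; exact yP a b
  have yPB : YM (Cm * (c₁ * β * β)) (P * B) := Hm _ _ _ _ sP sB yP hB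
  have yP₂ : YM (c₂ * β ^ 2) (P * B * D.τ) := by
    have := Hm _ _ _ _ (mul0 sP sB) D.sym0τ yPB hτ
    convert this using 1
    rw [hc₂]; ring
  have d0 : ∀ x, ev x D.g.det ≠ 0 := fun x => by rw [ev_det]; exact (D.g_posDef x).det_pos.ne'
  have d1 : ∀ x, ev x (D.g + B).det ≠ 0 := fun x => by rw [ev_det]; exact (pg x).det_pos.ne'
  set η : Sm n := logS _ d1 - logS _ d0 - (D.τ * B).trace with hη
  have hpd : ∀ a, pd a η = (-P * pdM a B).trace + (P * B * D.τ * pdM a (hess D.ζ)).trace := by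
    intro a
    have e1 : pdM a D.g = pdM a (hess D.ζ) := by rw [KE.g, pdM_add, pdM_one, zero_add]
    have e2 : τ' = D.τ - P := by rw [sub_eq_add_neg, ← eΔ, add_sub_cancel]
    rw [hη, map_sub, map_sub, stepA_pd_logdet a hτ', stepA_pd_logdet a D.τg, pd_trace, pdM_mul,
      pdM_add, pdM_inv a D.τg, e1]
    have e3 : (D.τ * pdM a (hess D.ζ) * D.τ * B).trace = (D.τ * B * D.τ * pdM a (hess D.ζ)).trace := by
      rw [mul_assoc, Matrix.trace_mul_comm, ← mul_assoc]
    have e4 : P * B * D.τ = D.τ * B * D.τ - P := by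
      have e5 : (D.τ - P) * B * D.τ = P := by rw [← e2]
      rw [sub_mul, sub_mul, sub_eq_iff_eq_add'] at e5
      rw [e5, add_sub_cancel_right]
    rw [e4, e2]
    simp only [mul_add, sub_mul, neg_mul, Matrix.trace_add, Matrix.trace_sub, Matrix.trace_neg, e3]
    ring
  have habs : ∀ x, |ev x η| ≤ n * (Cm * (c₁ * β * β)) := by
    intro x
    have h1 := abs_logdet_remainder (B := evM x B) (τ' := evM x τ') (D.g_posDef x)
      (by rw [← evM_add]; exact pg x) (evM_inv D.τg x) (by rw [← evM_add]; exact evM_inv hτ' x)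
    rw [← evM_add, ← evM_mul, ← evM_mul, ← evM_mul, ← evM_mul, ← ev_det, ← ev_det, ← ev_trace,
      ← ev_trace] at h1
    rw [hη, map_sub, map_sub, ev_logS, ev_logS]
    refine h1.trans ?_
    rw [Matrix.trace, map_sum]
    refine (Finset.abs_sum_le_sum_abs _ _).trans ?_
    calc _ ≤ ∑ _a : Fin n, Cm * (c₁ * β * β) := Finset.sum_le_sum fun a _ =>
          (abs_le_Y (mul0 sP sB a a) x).trans (yPB a a)
      _ = _ := by rw [Finset.sum_const, Finset.card_univ, Fintype.card_fin, nsmul_eq_mul]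
  obtain ⟨sη, yη⟩ := Hp (ι := (Fin n × Fin n) ⊕ (Fin n × Fin n)) Finset.univ η
    (Sum.elim (fun p => (-P) p.1 p.2) fun p => (P * B * D.τ) p.1 p.2)
    (Sum.elim (fun p => B p.2 p.1) fun p => hess D.ζ p.2 p.1) _
    (by
      rintro (p | p) -
      · exact sP.neg _ _
      · exact mul0 (mul0 sP sB) D.sym0τ _ _)
    (by
      rintro (p | p) -
      · exact sB _ _
      · exact sA _ _)
    (fun a => by
      rw [hpd, stepA_trace, stepA_trace, Fintype.sum_sum_type]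
      rfl) habs
  have evη : IsEv η := by
    refine ((stepA_isEv_logS (stepA_isEv_det fun a b => ?_) d1).sub
      (stepA_isEv_logS (stepA_isEv_det D.g_isEv) d0)).sub ?_
    · exact (D.g_isEv a b).add ((hev.pd b).pd a)
    · rw [hBd, ← con_eq_trace]
      exact IsEv.con D.τ_isEv hev
  refine ⟨⟨D.ζ + φ, D.V - Top D.τ 1 φ - η, τ', D.symζ.add hφ, (D.symV.sub hT).sub sη, ?_,
    by rw [eg, hτ'], fun x => by rw [eg]; exact pg x, ?_, D.evζ.add hev,
    (D.evV.sub (IsEv.Top D.τ_isEv 1 hev)).sub evη⟩, fun a b => ?_, ?_⟩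
  · refine symM_inv_sub_one (A := hess (D.ζ + φ)) (hess_transpose _) (by rw [eg, hτ'])
      (half_pos hc) (by rw [eg]; exact lg) (by norm_num) ?_
    rw [hess_add]
    exact D.symA.add sB'
  · have e : eul (D.ζ + φ) - (D.ζ + φ) - (D.V - Top D.τ 1 φ - η) =
        eul D.ζ - D.ζ - D.V - logS _ d0 + logS _ d1 := by
      rw [hη, eul_add, Top, Lop, con_eq_trace, one_smul]
      ring
    rw [e, eg]
    ext x
    have h0 : ev x D.g.det = Real.exp (ev x (eul D.ζ - D.ζ - D.V)) := by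
      rw [← ev_expS, ← D.eqn]; rfl
    rw [ev_expS, map_add, map_sub, ev_logS, ev_logS, h0, Real.log_exp, sub_self, zero_add,
      Real.exp_log (by rw [ev_det]; exact (pg x).det_pos)]
  · simp only
    rw [eΔ]
    exact (yP' a b).trans (mul_le_mul_of_nonneg_right (le_max_left _ _) hβ0)
  · simp only
    rw [show D.V - Top D.τ 1 φ - η - D.V + Top D.τ 1 φ = -η by ring, Y_neg]
    refine yη.trans (le_trans ?_ (mul_le_mul_of_nonneg_right (le_max_right _ _) (sq_nonneg β)))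
    rw [mul_assoc Cp]
    refine mul_le_mul_of_nonneg_left ?_ hCp
    rw [Fintype.sum_sum_type]
    have b1 := stepA_sum yP' hB
    have b2 := stepA_sum yP₂ hA
    simp only [Sum.elim_inl, Sum.elim_inr]
    linarith

end Crest.Agent.R238
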