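import Crest.Agent.R238.Jet

/-!
# Row 238: symbol classes `Sym m` and tempered functions `Tm` (closure properties)
-/

set_option autoImplicit false
open MeasureTheory Matrix
open scoped ContDiff BigOperators

noncomputable section
namespace Crest.Agent.R238

variable {n : ℕ}

/-- The `k`-th level of the symbol condition. -/
def SymK (k : ℕ) (m : ℝ) (f : Sm n) : Prop := ∃ C, 0 ≤ C ∧ ∀ x, J k f x ≤ C * r x ^ m

theorem sym_of_symK {m : ℝ} {f : Sm n} (h : ∀ k, SymK k m f) : Sym m f :=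
  fun k => (h k).imp fun _ hC => hC.2

theorem SymK.mul {k : ℕ} {m m' : ℝ} {f g : Sm n} (hf : SymK k m f) (hg : SymK k m' g) :
    SymK k (m + m') (f * g) := by
  obtain ⟨C, hC0, hC⟩ := hf
  obtain ⟨D, hD0, hD⟩ := hg
  refine ⟨2 ^ k * (C * D), by positivity, fun x => (J_mul_le k f g x).trans ?_⟩
  rw [mul_assoc]
  refine mul_le_mul_of_nonneg_left ?_ (by positivity)
  calc J k f x * J k g x ≤ (C * r x ^ m) * (D * r x ^ m') :=
        mul_le_mul (hC x) (hD x) (J_nonneg _ _ _) (mul_nonneg hC0 (r_rpow_pos x m).le)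
    _ = C * D * r x ^ (m + m') := by rw [r_rpow_add]; ring

theorem SymK.smul {k : ℕ} {m : ℝ} {f : Sm n} (hf : SymK k m f) (c : ℝ) : SymK k m (c • f) := by
  obtain ⟨C, hC0, hC⟩ := hf
  refine ⟨|c| * C, by positivity, fun x => ?_⟩
  rw [J_smul, mul_assoc]
  exact mul_le_mul_of_nonneg_left (hC x) (abs_nonneg c)

theorem SymK.neg {k : ℕ} {m : ℝ} {f : Sm n} (hf : SymK k m f) : SymK k m (-f) := by
  obtain ⟨C, hC0, hC⟩ := hf
  exact ⟨C, hC0, fun x => by rw [J_neg]; exact hC x⟩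

theorem symK_zero {m : ℝ} {f : Sm n} (h0 : ∃ C, ∀ x, |ev x f| ≤ C * r x ^ m) : SymK 0 m f := by
  obtain ⟨C, hC⟩ := h0
  refine ⟨max C 0, le_max_right _ _, fun x => ?_⟩
  rw [J_zero_eq]
  exact (hC x).trans (mul_le_mul_of_nonneg_right (le_max_left _ _) (r_rpow_pos x m).le)

theorem symK_succ {k : ℕ} {m : ℝ} {f : Sm n} (h0 : ∃ C, ∀ x, |ev x f| ≤ C * r x ^ m)
    (h1 : ∀ a, SymK k (m - 1) (pd a f)) : SymK (k + 1) m f := by
  obtain ⟨C, hC⟩ := h0
  choose D hD0 hD using h1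
  refine ⟨max C 0 + ∑ a, D a, add_nonneg (le_max_right _ _) (Finset.sum_nonneg fun a _ => hD0 a),
    fun x => ?_⟩
  rw [J_succ, add_mul]
  refine add_le_add
    ((hC x).trans (mul_le_mul_of_nonneg_right (le_max_left _ _) (r_rpow_pos x m).le)) ?_
  have hr := r_pos x
  calc r x * ∑ a, J k (pd a f) x ≤ r x * ∑ a, D a * r x ^ (m - 1) :=
        mul_le_mul_of_nonneg_left (Finset.sum_le_sum fun a _ => hD a x) hr.le
    _ = (∑ a, D a) * r x ^ m := by
        rw [← Finset.sum_mul, Real.rpow_sub hr, Real.rpow_one]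
        field_simp

theorem abs_sub_le_of_deriv_aux {g g' B B' : ℝ → ℝ} (hg : ∀ t, HasDerivAt g (g' t) t)
    (hB : ContinuousOn B (Set.Icc 0 1)) (hB' : ∀ t ∈ Set.Ioo (0 : ℝ) 1, HasDerivAt B (B' t) t)
    (h : ∀ t ∈ Set.Ioo (0 : ℝ) 1, |g' t| ≤ B' t) : |g 1 - g 0| ≤ B 1 - B 0 := by
  have hgc : ContinuousOn g (Set.Icc 0 1) := fun t _ => (hg t).continuousAt.continuousWithinAt
  have h0 : (0 : ℝ) ∈ Set.Icc (0 : ℝ) 1 := ⟨le_refl _, zero_le_one⟩
  have h1 : (1 : ℝ) ∈ Set.Icc (0 : ℝ) 1 := ⟨zero_le_one, le_refl _⟩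
  have m1 : MonotoneOn (fun t => B t - g t) (Set.Icc 0 1) := by
    refine monotoneOn_of_hasDerivWithinAt_nonneg (f' := fun t => B' t - g' t) (convex_Icc 0 1)
      (hB.sub hgc) ?_ ?_
    · intro t ht
      rw [interior_Icc] at ht
      exact ((hB' t ht).sub (hg t)).hasDerivWithinAt
    · intro t ht
      rw [interior_Icc] at ht
      have := (abs_le.1 (h t ht)).2
      show 0 ≤ B' t - g' t
      linarith
  have m2 : MonotoneOn (fun t => B t + g t) (Set.Icc 0 1) := by
    refine monotoneOn_of_hasDerivWithinAt_nonneg (f' := fun t => B' t + g' t) (convex_Icc 0 1)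
      (hB.add hgc) ?_ ?_
    · intro t ht
      rw [interior_Icc] at ht
      exact ((hB' t ht).add (hg t)).hasDerivWithinAt
    · intro t ht
      rw [interior_Icc] at ht
      have := (abs_le.1 (h t ht)).1
      show 0 ≤ B' t + g' t
      linarith
  have e1 := m1 h0 h1 zero_le_one
  have e2 := m2 h0 h1 zero_le_one
  simp only at e1 e2
  rw [abs_le]; constructor <;> linarith

theorem d_eq_zero_of_isOpen {U : Set (E n)} (hU : IsOpen U) (k : ℕ) {f : Sm n}
    (h : ∀ x ∈ U, ev x f = 0) : ∀ x ∈ U, d k f x = 0 := by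
  induction k generalizing f with
  | zero => intro x hx; rw [d_zero_eq, h x hx, abs_zero]
  | succ k ih =>
    intro x hx
    rw [d_succ]
    refine Finset.sum_eq_zero fun a _ => ih (fun y hy => ?_) x hx
    have e : (fun z => ev z f) =ᶠ[nhds y] fun _ => (0 : ℝ) :=
      Filter.eventually_of_mem (hU.mem_nhds hy) h
    rw [ev_pd, e.fderiv_eq]
    simp

theorem sym_of_compact_support_aux {f : Sm n} {R : ℝ} (h : ∀ x, R ≤ r x → ev x f = 0) (m : ℝ) :
    Sym m f := by
  intro k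
  have hU : IsOpen {x : E n | R < r x} := isOpen_lt continuous_const continuous_r
  have hz : ∀ x : E n, R < r x → J k f x = 0 := by
    intro x hx
    refine Finset.sum_eq_zero fun i _ => ?_
    rw [d_eq_zero_of_isOpen hU i (fun y hy => h y (le_of_lt hy)) x hx, mul_zero]
  have hc : Continuous fun x : E n => J k f x * r x ^ (-m) :=
    (continuous_J k f).mul (continuous_r_rpow _)
  obtain ⟨C, hC⟩ := (isCompact_r_le (n := n) R).bddAbove_image hc.continuousOn
  refine ⟨max C 0, fun x => ?_⟩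
  have hp := r_rpow_pos x m
  rcases lt_or_ge R (r x) with hx | hx
  · rw [hz x hx]; exact mul_nonneg (le_max_right _ _) hp.le
  · have h1 : J k f x * r x ^ (-m) ≤ C := hC ⟨x, hx, rfl⟩
    rw [Real.rpow_neg (r_pos x).le, ← div_eq_mul_inv, div_le_iff₀ hp] at h1
    exact h1.trans (mul_le_mul_of_nonneg_right (le_max_left _ _) hp.le)

theorem Tm.d_le_aux {f : Sm n} (h : Tm f) (k : ℕ) :
    ∃ C s : ℝ, 0 ≤ C ∧ 0 ≤ s ∧ ∀ x, d k f x ≤ C * r x ^ s := by
  obtain ⟨C, s, hC⟩ := h k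
  refine ⟨max C 0, max s 0, le_max_right _ _, le_max_right _ _, fun x => (hC x).trans ?_⟩
  calc C * r x ^ s ≤ max C 0 * r x ^ s :=
        mul_le_mul_of_nonneg_right (le_max_left _ _) (r_rpow_pos x s).le
    _ ≤ max C 0 * r x ^ max s 0 :=
        mul_le_mul_of_nonneg_left (r_rpow_mono x (le_max_left _ _)) (le_max_right _ _)

theorem Sym.mono {m m' : ℝ} {f : Sm n} (h : Sym m f) (hm : m ≤ m') : Sym m' f := by
  intro k
  obtain ⟨C, hC⟩ := h k
  refine ⟨max C 0, fun x => (hC x).trans ?_⟩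
  calc C * r x ^ m ≤ max C 0 * r x ^ m :=
        mul_le_mul_of_nonneg_right (le_max_left _ _) (r_rpow_pos x m).le
    _ ≤ max C 0 * r x ^ m' := mul_le_mul_of_nonneg_left (r_rpow_mono x hm) (le_max_right _ _)

/-- The constants can be taken nonnegative. -/
theorem Sym.J_le {m : ℝ} {f : Sm n} (h : Sym m f) (k : ℕ) :
    ∃ C, 0 ≤ C ∧ ∀ x, J k f x ≤ C * r x ^ m := by
  obtain ⟨C, hC⟩ := h k
  exact ⟨max C 0, le_max_right _ _, fun x => (hC x).trans
    (mul_le_mul_of_nonneg_right (le_max_left _ _) (r_rpow_pos x m).le)⟩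

theorem Sym.d_le {m : ℝ} {f : Sm n} (h : Sym m f) (k : ℕ) :
    ∃ C, 0 ≤ C ∧ ∀ x, d k f x ≤ C * r x ^ (m - k) := by
  obtain ⟨C, hC0, hC⟩ := h.J_le k
  refine ⟨C, hC0, fun x => ?_⟩
  have h1 := (d_le_J (le_refl k) f x).trans (hC x)
  have hp : 0 < r x ^ k := pow_pos (r_pos x) k
  rw [Real.rpow_sub (r_pos x), Real.rpow_natCast, ← mul_div_assoc, le_div_iff₀ hp, mul_comm]
  exact h1

theorem Sym.abs_le {m : ℝ} {f : Sm n} (h : Sym m f) : ∃ C, 0 ≤ C ∧ ∀ x, |ev x f| ≤ C * r x ^ m := by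
  obtain ⟨C, hC0, hC⟩ := h.J_le 0
  exact ⟨C, hC0, fun x => (abs_le_J 0 f x).trans (hC x)⟩

theorem Sym.bdd {f : Sm n} (h : Sym 0 f) : ∃ C, 0 ≤ C ∧ ∀ x, |ev x f| ≤ C := by
  obtain ⟨C, hC0, hC⟩ := h.abs_le
  exact ⟨C, hC0, fun x => by simpa using hC x⟩

theorem sym_of_d {m : ℝ} {f : Sm n} (h : ∀ k : ℕ, ∃ C, ∀ x, d k f x ≤ C * r x ^ (m - k)) :
    Sym m f := by
  choose C hC using h
  intro k
  refine ⟨∑ i ∈ Finset.range (k + 1), C i, fun x => ?_⟩
  rw [J, Finset.sum_mul]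
  refine Finset.sum_le_sum fun i _ => ?_
  have hp : 0 < r x ^ i := pow_pos (r_pos x) i
  have h1 := hC i x
  rw [Real.rpow_sub (r_pos x), Real.rpow_natCast, ← mul_div_assoc, le_div_iff₀ hp, mul_comm] at h1
  exact h1

theorem sym_zero (m : ℝ) : Sym m (0 : Sm n) := by
  intro k
  exact ⟨0, fun x => by simp [J_zero]⟩

theorem sym_cst (c : ℝ) : Sym 0 (cst c : Sm n) := by
  intro k
  exact ⟨|c|, fun x => by rw [J_cst]; simp⟩

theorem sym_one : Sym 0 (1 : Sm n) := by
  intro k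
  exact ⟨1, fun x => by rw [J_one]; simp⟩

theorem Sym.add {m : ℝ} {f g : Sm n} (hf : Sym m f) (hg : Sym m g) : Sym m (f + g) := by
  intro k
  obtain ⟨C, hC⟩ := hf k
  obtain ⟨D, hD⟩ := hg k
  refine ⟨C + D, fun x => (J_add_le k f g x).trans ?_⟩
  rw [add_mul]; exact add_le_add (hC x) (hD x)

theorem Sym.smul {m : ℝ} {f : Sm n} (hf : Sym m f) (c : ℝ) : Sym m (c • f) := by
  intro k
  obtain ⟨C, hC⟩ := hf k
  refine ⟨|c| * C, fun x => ?_⟩
  rw [J_smul, mul_assoc]
  exact mul_le_mul_of_nonneg_left (hC x) (abs_nonneg c)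

theorem Sym.neg {m : ℝ} {f : Sm n} (hf : Sym m f) : Sym m (-f) := by
  intro k
  obtain ⟨C, hC⟩ := hf k
  exact ⟨C, fun x => by rw [J_neg]; exact hC x⟩

theorem Sym.sub {m : ℝ} {f g : Sm n} (hf : Sym m f) (hg : Sym m g) : Sym m (f - g) := by
  rw [sub_eq_add_neg]; exact hf.add hg.neg

protected theorem Sym.sum {ι : Type*} {m : ℝ} (s : Finset ι) {f : ι → Sm n} (hf : ∀ i ∈ s, Sym m (f i)) :
    Sym m (∑ i ∈ s, f i) := by
  classical
  induction s using Finset.induction_on with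
  | empty => simpa using sym_zero m
  | insert b s hb ih =>
    rw [Finset.sum_insert hb]
    exact (hf b (Finset.mem_insert_self _ _)).add
      (ih fun i hi => hf i (Finset.mem_insert_of_mem hi))

theorem Sym.mul {m m' : ℝ} {f g : Sm n} (hf : Sym m f) (hg : Sym m' g) : Sym (m + m') (f * g) := by
  intro k
  exact (SymK.mul (hf.J_le k) (hg.J_le k)).imp fun C hC => hC.2

theorem Sym.mul_zero {m : ℝ} {f g : Sm n} (hf : Sym m f) (hg : Sym 0 g) : Sym m (f * g) := by
  simpa using hf.mul hg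

theorem Sym.zero_mul {m : ℝ} {f g : Sm n} (hf : Sym 0 f) (hg : Sym m g) : Sym m (f * g) := by
  simpa using hf.mul hg

protected theorem Sym.prod {ι : Type*} (s : Finset ι) {f : ι → Sm n} (hf : ∀ i ∈ s, Sym 0 (f i)) :
    Sym 0 (∏ i ∈ s, f i) := by
  classical
  induction s using Finset.induction_on with
  | empty => simpa using sym_one
  | insert b s hb ih =>
    rw [Finset.prod_insert hb]
    exact (hf b (Finset.mem_insert_self _ _)).mul_zero
      (ih fun i hi => hf i (Finset.mem_insert_of_mem hi))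

protected theorem Sym.pd {m : ℝ} {f : Sm n} (hf : Sym m f) (a : Fin n) : Sym (m - 1) (pd a f) := by
  intro k
  obtain ⟨C, hC⟩ := hf (k + 1)
  refine ⟨C, fun x => ?_⟩
  have h1 := (J_pd_le k a f x).trans (hC x)
  rw [Real.rpow_sub (r_pos x), Real.rpow_one, ← mul_div_assoc, le_div_iff₀ (r_pos x), mul_comm]
  exact h1

protected theorem Sym.refl {m : ℝ} {f : Sm n} (hf : Sym m f) : Sym m (refl f) := by
  intro k
  obtain ⟨C, hC⟩ := hf k
  refine ⟨C, fun x => ?_⟩
  have h1 := hC (-x)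
  rw [r_neg] at h1
  rw [J_refl]; exact h1

/-- Use `J_succ`. -/
theorem sym_of_pd {m : ℝ} {f : Sm n} (h0 : ∃ C, ∀ x, |ev x f| ≤ C * r x ^ m)
    (h1 : ∀ a, Sym (m - 1) (pd a f)) : Sym m f := by
  refine sym_of_symK fun k => ?_
  cases k with
  | zero => exact symK_zero h0
  | succ k => exact symK_succ h0 fun a => (h1 a).J_le k

/-- A primitive of symbols of order `m - 1 > -1` is a symbol of order `m`.
`f x - f 0 = ∫₀¹ ∑ x_a ∂_a f (t x) dt` (`hasDerivAt_line`), and `r (t x)^{m-1} ≤ t^{m-1} r^{m-1}`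
if `m ≤ 1` (`mul_r_le_r_smul`), `≤ r^{m-1}` if `m ≥ 1`; or compare derivatives with those of
`t ↦ C r x ^ m t ^ (min m 1)`. -/
theorem sym_prim {m : ℝ} (hm : 0 < m) {f : Sm n} (h1 : ∀ a, Sym (m - 1) (pd a f)) : Sym m f := by
  refine sym_of_pd ?_ h1
  choose C hC0 hC using fun a => (h1 a).abs_le
  set μ : ℝ := min m 1 with hμ
  have hμ0 : 0 < μ := lt_min hm one_pos
  set K : ℝ := ∑ a, C a with hK
  have hK0 : 0 ≤ K := Finset.sum_nonneg fun a _ => hC0 a
  refine ⟨|ev 0 f| + K / μ, fun x => ?_⟩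
  have hr := r_pos x
  have key : |ev ((0 : E n) + (1 : ℝ) • x) f - ev ((0 : E n) + (0 : ℝ) • x) f| ≤
      K / μ * r x ^ m * (1 : ℝ) ^ μ - K / μ * r x ^ m * (0 : ℝ) ^ μ := by
    refine abs_sub_le_of_deriv_aux (g := fun s : ℝ => ev ((0 : E n) + s • x) f)
      (B := fun t : ℝ => K / μ * r x ^ m * t ^ μ)
      (B' := fun t : ℝ => K / μ * r x ^ m * (μ * t ^ (μ - 1)))
      (fun t => hasDerivAt_line f 0 x t) ?_ ?_ ?_
    · exact (continuous_const.mul (Real.continuous_rpow_const hμ0.le)).continuousOn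
    · intro t ht
      exact (Real.hasDerivAt_rpow_const (Or.inl ht.1.ne')).const_mul _
    · intro t ht
      have ht1 : |t| ≤ 1 := by rw [abs_of_pos ht.1]; exact ht.2.le
      have hrt : r (t • x) ^ (m - 1) ≤ t ^ (μ - 1) * r x ^ (m - 1) := by
        rcases le_total m 1 with hm1 | hm1
        · have e : μ = m := min_eq_left hm1
          rw [e, ← Real.mul_rpow ht.1.le hr.le]
          have h2 := mul_r_le_r_smul ht1 x
          rw [abs_of_pos ht.1] at h2
          exact Real.rpow_le_rpow_of_nonpos (mul_pos ht.1 hr) h2 (by linarith)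
        · have e : μ = 1 := min_eq_right hm1
          rw [e, sub_self, Real.rpow_zero, one_mul]
          exact Real.rpow_le_rpow (r_pos _).le (r_smul_le ht1 x) (by linarith)
      have e1 : K / μ * r x ^ m * (μ * t ^ (μ - 1)) =
          ∑ a, r x * (C a * (t ^ (μ - 1) * r x ^ (m - 1))) := by
        rw [← Finset.mul_sum, ← Finset.sum_mul, ← hK, Real.rpow_sub hr, Real.rpow_one]
        field_simp
      rw [e1, zero_add]
      refine (Finset.abs_sum_le_sum_abs _ _).trans (Finset.sum_le_sum fun a _ => ?_)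
      rw [abs_mul]
      refine mul_le_mul (abs_le_r x a) ((hC a _).trans ?_) (abs_nonneg _) hr.le
      exact mul_le_mul_of_nonneg_left hrt (hC0 a)
  rw [one_smul, zero_smul, zero_add, zero_add, Real.one_rpow, Real.zero_rpow hμ0.ne', mul_one,
    mul_zero, sub_zero] at key
  have h2 : 1 ≤ r x ^ m := Real.one_le_rpow (one_le_r x) hm.le
  have h3 : |ev x f| ≤ |ev 0 f| + |ev x f - ev 0 f| := by
    have := abs_add_le (ev 0 f) (ev x f - ev 0 f)
    simpa using this
  have h4 : |ev 0 f| ≤ |ev 0 f| * r x ^ m := le_mul_of_one_le_right (abs_nonneg _) h2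
  rw [add_mul]; linarith

/-- Mean value bound along the segment from `0` to `x`. -/
theorem abs_sub_le_of_d_one {f : Sm n} {K : ℝ} (h : ∀ x, d 1 f x ≤ K) (x : E n) :
    |ev x f - ev 0 f| ≤ K * r x := by
  have hr := r_pos x
  have key : |ev ((0 : E n) + (1 : ℝ) • x) f - ev ((0 : E n) + (0 : ℝ) • x) f| ≤
      K * r x * (1 : ℝ) - K * r x * (0 : ℝ) := by
    refine abs_sub_le_of_deriv_aux (g := fun s : ℝ => ev ((0 : E n) + s • x) f)
      (B := fun t : ℝ => K * r x * t) (B' := fun _ : ℝ => K * r x * 1)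
      (fun t => hasDerivAt_line f 0 x t) ?_ ?_ ?_
    · exact (continuous_const.mul continuous_id).continuousOn
    · intro t _
      exact (hasDerivAt_id t).const_mul _
    · intro t _
      refine (Finset.abs_sum_le_sum_abs _ _).trans ?_
      have h1 := h (0 + t • x)
      rw [d_succ] at h1
      simp only [d_zero_eq] at h1
      calc ∑ a, |x a * ev (0 + t • x) (pd a f)| ≤ ∑ a, r x * |ev (0 + t • x) (pd a f)| := by
            refine Finset.sum_le_sum fun a _ => ?_
            rw [abs_mul]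
            exact mul_le_mul_of_nonneg_right (abs_le_r x a) (abs_nonneg _)
        _ = r x * ∑ a, |ev (0 + t • x) (pd a f)| := by rw [Finset.mul_sum]
        _ ≤ r x * K := mul_le_mul_of_nonneg_left h1 hr.le
        _ = K * r x * 1 := by ring
  rw [one_smul, zero_smul, zero_add, zero_add, mul_one, mul_zero, sub_zero] at key
  exact key

theorem sym_X (a : Fin n) : Sym 1 (X a : Sm n) := by
  refine sym_of_pd ⟨1, fun x => by simpa using abs_le_r x a⟩ fun b => ?_
  rw [pd_X, sub_self]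
  split_ifs
  · exact sym_one
  · exact sym_zero 0

/-- Induction on `k` for all `s` simultaneously, `pd_rho`, `J_succ`, `J_mul_le`. -/
theorem sym_rho (s : ℝ) : Sym s (rho s : Sm n) := by
  have h0 : ∀ s : ℝ, ∃ C, ∀ x : E n, |ev x (rho s : Sm n)| ≤ C * r x ^ s := fun s =>
    ⟨1, fun x => by rw [ev_rho, abs_of_pos (r_rpow_pos x s), one_mul]⟩
  have key : ∀ k : ℕ, ∀ s : ℝ, SymK k s (rho s : Sm n) := by
    intro k
    induction k with
    | zero => exact fun s => symK_zero (h0 s)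
    | succ k ih =>
      intro s
      refine symK_succ (h0 s) fun a => ?_
      rw [pd_rho, show s - 1 = 1 + (s - 2) by ring]
      exact (SymK.mul ((sym_X a).J_le k) (ih (s - 2))).smul s
  exact sym_of_symK fun k => key k s

theorem sym_nsq : Sym 2 (nsq : Sm n) := by
  refine Sym.sum _ fun a _ => ?_
  rw [sq, show (2 : ℝ) = 1 + 1 by norm_num]
  exact (sym_X a).mul (sym_X a)

/-- Induction on `k`: `J (k+1) (1/f) = |1/f| + r ∑ J k ((1/f)^2 ∂f)`. -/
protected theorem Sym.invS {f : Sm n} (hf : Sym 0 f) {c : ℝ} (hc : 0 < c) (h : ∀ x, c ≤ |ev x f|)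
    (hne : ∀ x, ev x f ≠ 0) : Sym 0 (invS f hne) := by
  have h0 : ∃ C, ∀ x : E n, |ev x (invS f hne)| ≤ C * r x ^ (0 : ℝ) :=
    ⟨c⁻¹, fun x => by
      rw [ev_invS, abs_inv, Real.rpow_zero, mul_one]
      exact inv_anti₀ hc (h x)⟩
  refine sym_of_symK fun k => ?_
  induction k with
  | zero => exact symK_zero h0
  | succ k ih =>
    refine symK_succ h0 fun a => ?_
    rw [pd_invS, sq, show (0 : ℝ) - 1 = 0 + 0 + (0 - 1) by ring]
    exact (SymK.mul (ih.mul ih) ((Sym.pd hf a).J_le k)).neg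

protected theorem Sym.q {m : ℝ} {f : Sm n} (hf : Sym m f) (k : ℕ) : Sym (2 * (m - k)) (q k f) := by
  induction k generalizing m f with
  | zero =>
    rw [q_zero_eq, sq, show 2 * (m - ((0 : ℕ) : ℝ)) = m + m by push_cast; ring]
    exact hf.mul hf
  | succ k ih =>
    rw [q_succ, show 2 * (m - ((k + 1 : ℕ) : ℝ)) = 2 * (m - 1 - (k : ℝ)) by push_cast; ring]
    exact Sym.sum _ fun a _ => ih (Sym.pd hf a)

/-- A function that is constant outside a compact set lies in `Sym 0` (all `d (k+1) f` vanish on the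
open set `{R < r}` and are continuous on the compact set `{r ≤ R}`). -/
theorem sym_of_eventually_const {f : Sm n} {R c : ℝ} (h : ∀ x, R ≤ r x → ev x f = c) : Sym 0 f := by
  have h1 : Sym 0 (f - cst c) :=
    sym_of_compact_support_aux (R := R) (fun x hx => by rw [map_sub, h x hx, ev_cst, sub_self]) 0
  simpa using h1.add (sym_cst c)

theorem sym_of_compact_support {f : Sm n} {R : ℝ} (h : ∀ x, R ≤ r x → ev x f = 0) (m : ℝ) :
    Sym m f := by
  exact sym_of_compact_support_aux h m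

theorem SymM.mono {m m' : ℝ} {M : Mat n} (h : SymM m M) (hm : m ≤ m') : SymM m' M :=
  fun a b => (h a b).mono hm

theorem symM_one : SymM 0 (1 : Mat n) := by
  intro a b
  rw [Matrix.one_apply]
  split_ifs
  · exact sym_one
  · exact sym_zero 0

theorem SymM.add {m : ℝ} {M P : Mat n} (h : SymM m M) (h' : SymM m P) : SymM m (M + P) :=
  fun a b => (h a b).add (h' a b)

theorem SymM.sub {m : ℝ} {M P : Mat n} (h : SymM m M) (h' : SymM m P) : SymM m (M - P) :=
  fun a b => (h a b).sub (h' a b)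

theorem SymM.neg {m : ℝ} {M : Mat n} (h : SymM m M) : SymM m (-M) := fun a b => (h a b).neg

theorem SymM.smul {m : ℝ} {M : Mat n} (h : SymM m M) (c : ℝ) : SymM m (c • M) :=
  fun a b => (h a b).smul c

theorem SymM.mul {m m' : ℝ} {M P : Mat n} (h : SymM m M) (h' : SymM m' P) :
    SymM (m + m') (M * P) := by
  intro a b
  rw [Matrix.mul_apply]
  exact Sym.sum _ fun c _ => (h a c).mul (h' c b)

protected theorem SymM.pdM {m : ℝ} {M : Mat n} (h : SymM m M) (c : Fin n) : SymM (m - 1) (pdM c M) :=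
  fun a b => (h a b).pd c

protected theorem SymM.trace {m : ℝ} {M : Mat n} (h : SymM m M) : Sym m M.trace := by
  exact Sym.sum _ fun a _ => h a a

protected theorem SymM.det {M : Mat n} (h : SymM 0 M) : Sym 0 M.det := by
  rw [Matrix.det_apply']
  refine Sym.sum _ fun σ _ => Sym.mul_zero ?_ (Sym.prod _ fun i _ => h _ _)
  rw [← map_intCast (algebraMap ℝ (Sm n))]
  exact sym_cst _

protected theorem SymM.adjugate {M : Mat n} (h : SymM 0 M) : SymM 0 M.adjugate := by
  intro a b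
  rw [Matrix.adjugate_apply]
  refine SymM.det fun i j => ?_
  rw [Matrix.updateRow_apply]
  split_ifs
  · rw [Pi.single_apply]
    split_ifs
    · exact sym_one
    · exact sym_zero 0
  · exact h i j

theorem SymM.JM_le {m : ℝ} {M : Mat n} (h : SymM m M) (k : ℕ) :
    ∃ C, 0 ≤ C ∧ ∀ x, JM k M x ≤ C * r x ^ m := by
  choose C hC0 hC using fun a b => (h a b).J_le k
  refine ⟨∑ a, ∑ b, C a b,
    Finset.sum_nonneg fun a _ => Finset.sum_nonneg fun b _ => hC0 a b, fun x => ?_⟩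
  rw [JM, Finset.sum_mul]
  refine Finset.sum_le_sum fun a _ => ?_
  rw [Finset.sum_mul]
  exact Finset.sum_le_sum fun b _ => hC a b x

protected theorem Sym.hess {m : ℝ} {f : Sm n} (hf : Sym m f) : SymM (m - 2) (hess f) := by
  intro a b
  rw [hess_apply, show m - 2 = m - 1 - 1 by ring]
  exact Sym.pd (Sym.pd hf b) a

protected theorem Sym.eul {m : ℝ} {f : Sm n} (hf : Sym m f) : Sym m (eul f) := by
  refine Sym.sum _ fun a _ => ?_
  have := (sym_X a).mul (Sym.pd hf a)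
  rwa [show 1 + (m - 1) = m by ring] at this

protected theorem Sym.con {m m' : ℝ} {M : Mat n} {f : Sm n} (hM : SymM m' M) (hf : Sym m f) :
    Sym (m' + m - 2) (con M f) := by
  refine Sym.sum _ fun a _ => Sym.sum _ fun b _ => ?_
  rw [show m' + m - 2 = m' + (m - 1 - 1) by ring]
  exact (hM a b).mul (Sym.pd (Sym.pd hf b) a)

protected theorem Sym.gam {m m' : ℝ} {τ : Mat n} {f h : Sm n} (hτ : SymM 0 τ) (hf : Sym m f) (hh : Sym m' h) :
    Sym (m + m' - 2) (gam τ f h) := by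
  refine Sym.sum _ fun a _ => Sym.sum _ fun b _ => ?_
  rw [show m + m' - 2 = 0 + (m - 1) + (m' - 1) by ring]
  exact ((hτ a b).mul (Sym.pd hf a)).mul (Sym.pd hh b)

protected theorem Sym.Lop {m : ℝ} {τ : Mat n} {f : Sm n} (hτ : SymM 0 τ) (hf : Sym m f) : Sym m (Lop τ f) := by
  exact ((Sym.con hτ hf).mono (by linarith)).sub (Sym.eul hf)

protected theorem Sym.Top {m : ℝ} {τ : Mat n} {f : Sm n} (hτ : SymM 0 τ) (l : ℝ) (hf : Sym m f) :
    Sym m (Top τ l f) := (Sym.Lop hτ hf).add (hf.smul l)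

/-! ### Tempered functions -/

theorem Sym.tm {m : ℝ} {f : Sm n} (h : Sym m f) : Tm f := by
  intro k
  obtain ⟨C, -, hC⟩ := h.d_le k
  exact ⟨C, m - k, hC⟩

theorem Tm.abs_le {f : Sm n} (h : Tm f) : ∃ C s : ℝ, 0 ≤ C ∧ 0 ≤ s ∧ ∀ x, |ev x f| ≤ C * r x ^ s := by
  exact h.d_le_aux 0

theorem tm_cst (c : ℝ) : Tm (cst c : Sm n) := (sym_cst c).tm
theorem tm_zero : Tm (0 : Sm n) := (sym_zero 0).tm
theorem tm_one : Tm (1 : Sm n) := sym_one.tm
theorem tm_X (a : Fin n) : Tm (X a : Sm n) := (sym_X a).tm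

theorem Tm.add {f g : Sm n} (hf : Tm f) (hg : Tm g) : Tm (f + g) := by
  intro k
  obtain ⟨C, s, hC0, -, hC⟩ := hf.d_le_aux k
  obtain ⟨D, t, hD0, -, hD⟩ := hg.d_le_aux k
  refine ⟨C + D, max s t, fun x => (d_add_le k f g x).trans ?_⟩
  rw [add_mul]
  exact add_le_add
    ((hC x).trans (mul_le_mul_of_nonneg_left (r_rpow_mono x (le_max_left _ _)) hC0))
    ((hD x).trans (mul_le_mul_of_nonneg_left (r_rpow_mono x (le_max_right _ _)) hD0))

theorem Tm.mul {f g : Sm n} (hf : Tm f) (hg : Tm g) : Tm (f * g) := by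
  intro k
  choose C s hC0 hs0 hC using hf.d_le_aux
  choose D t hD0 ht0 hD using hg.d_le_aux
  refine ⟨2 ^ k * ∑ i ∈ Finset.range (k + 1), C i * D (k - i),
    ∑ i ∈ Finset.range (k + 1), (s i + t (k - i)), fun x => (d_mul_le k f g x).trans ?_⟩
  rw [mul_assoc, Finset.sum_mul]
  refine mul_le_mul_of_nonneg_left (Finset.sum_le_sum fun i hi => ?_) (by positivity)
  have h1 : s i + t (k - i) ≤ ∑ i ∈ Finset.range (k + 1), (s i + t (k - i)) :=
    Finset.single_le_sum (f := fun i => s i + t (k - i))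
      (fun j _ => add_nonneg (hs0 j) (ht0 _)) hi
  calc d i f x * d (k - i) g x ≤ (C i * r x ^ s i) * (D (k - i) * r x ^ t (k - i)) :=
        mul_le_mul (hC i x) (hD _ x) (d_nonneg _ _ _)
          (mul_nonneg (hC0 i) (r_rpow_pos x _).le)
    _ = C i * D (k - i) * r x ^ (s i + t (k - i)) := by rw [r_rpow_add]; ring
    _ ≤ _ := mul_le_mul_of_nonneg_left (r_rpow_mono x h1) (mul_nonneg (hC0 i) (hD0 _))

theorem Tm.smul {f : Sm n} (hf : Tm f) (c : ℝ) : Tm (c • f) := by
  intro k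
  obtain ⟨C, s, hC⟩ := hf k
  refine ⟨|c| * C, s, fun x => ?_⟩
  rw [d_smul, mul_assoc]
  exact mul_le_mul_of_nonneg_left (hC x) (abs_nonneg c)

theorem Tm.neg {f : Sm n} (hf : Tm f) : Tm (-f) := by
  intro k
  obtain ⟨C, s, hC⟩ := hf k
  exact ⟨C, s, fun x => by rw [d_neg]; exact hC x⟩

theorem Tm.sub {f g : Sm n} (hf : Tm f) (hg : Tm g) : Tm (f - g) := by
  rw [sub_eq_add_neg]; exact hf.add hg.neg

theorem Tm.pow {f : Sm n} (hf : Tm f) (k : ℕ) : Tm (f ^ k) := by
  induction k with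
  | zero => simpa using tm_one
  | succ k ih => rw [pow_succ]; exact ih.mul hf

protected theorem Tm.sum {ι : Type*} (s : Finset ι) {f : ι → Sm n} (hf : ∀ i ∈ s, Tm (f i)) :
    Tm (∑ i ∈ s, f i) := by
  classical
  induction s using Finset.induction_on with
  | empty => simpa using tm_zero
  | insert b s hb ih =>
    rw [Finset.sum_insert hb]
    exact (hf b (Finset.mem_insert_self _ _)).add
      (ih fun i hi => hf i (Finset.mem_insert_of_mem hi))

protected theorem Tm.pd {f : Sm n} (hf : Tm f) (a : Fin n) : Tm (pd a f) := by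
  intro k
  obtain ⟨C, s, hC⟩ := hf (k + 1)
  exact ⟨C, s, fun x => (d_pd_le k a f x).trans (hC x)⟩

protected theorem Tm.q {f : Sm n} (hf : Tm f) (k : ℕ) : Tm (q k f) := by
  induction k generalizing f with
  | zero => rw [q_zero_eq]; exact hf.pow 2
  | succ k ih => rw [q_succ]; exact Tm.sum _ fun a _ => ih (Tm.pd hf a)

theorem tm_ofNat (k : ℕ) [k.AtLeastTwo] : Tm (ofNat(k) : Sm n) := by
  rw [← map_ofNat (algebraMap ℝ (Sm n)) k]
  exact tm_cst _

/-- All entries tempered. -/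
def TmM (M : Mat n) : Prop := ∀ a b, Tm (M a b)

theorem SymM.tmM {m : ℝ} {M : Mat n} (h : SymM m M) : TmM M := fun a b => (h a b).tm
theorem TmM.add {M P : Mat n} (h : TmM M) (h' : TmM P) : TmM (M + P) := fun a b => (h a b).add (h' a b)
theorem TmM.sub {M P : Mat n} (h : TmM M) (h' : TmM P) : TmM (M - P) := fun a b => (h a b).sub (h' a b)
theorem TmM.neg {M : Mat n} (h : TmM M) : TmM (-M) := fun a b => (h a b).neg
theorem TmM.smul {M : Mat n} (h : TmM M) (c : ℝ) : TmM (c • M) := fun a b => (h a b).smul c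
protected theorem TmM.transpose {M : Mat n} (h : TmM M) : TmM Mᵀ := fun a b => h b a
protected theorem TmM.pdM {M : Mat n} (h : TmM M) (c : Fin n) : TmM (pdM c M) := fun a b => (h a b).pd c
theorem TmM.mul {M P : Mat n} (h : TmM M) (h' : TmM P) : TmM (M * P) :=
  fun a b => by rw [Matrix.mul_apply]; exact Tm.sum _ fun c _ => (h a c).mul (h' c b)
protected theorem TmM.trace {M : Mat n} (h : TmM M) : Tm M.trace := Tm.sum _ fun a _ => h a a
protected theorem Tm.hess {f : Sm n} (h : Tm f) : TmM (hess f) := fun a b => (h.pd b).pd a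
theorem tmM_one : TmM (1 : Mat n) := symM_one.tmM
protected theorem Tm.eul {f : Sm n} (h : Tm f) : Tm (eul f) := Tm.sum _ fun a _ => (tm_X a).mul (h.pd a)
protected theorem Tm.con {M : Mat n} {f : Sm n} (hM : TmM M) (h : Tm f) : Tm (con M f) :=
  Tm.sum _ fun a _ => Tm.sum _ fun b _ => (hM a b).mul ((h.pd b).pd a)
protected theorem Tm.gam {τ : Mat n} {f h : Sm n} (hτ : TmM τ) (hf : Tm f) (hh : Tm h) : Tm (gam τ f h) :=
  Tm.sum _ fun a _ => Tm.sum _ fun b _ => ((hτ a b).mul (hf.pd a)).mul (hh.pd b)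
protected theorem Tm.Lop {τ : Mat n} {f : Sm n} (hτ : TmM τ) (h : Tm f) : Tm (Lop τ f) := (Tm.con hτ h).sub h.eul
protected theorem Tm.Top {τ : Mat n} {f : Sm n} (hτ : TmM τ) (l : ℝ) (h : Tm f) : Tm (Top τ l f) :=
  (Tm.Lop hτ h).add (h.smul l)

end Crest.Agent.R238
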