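import Crest.Agent.R238.Bochner
import Crest.Agent.R238.Approx
import Crest.Agent.R238.Pot

/-!
# Row 238: the bound for the symmetrised derivative
-/

set_option autoImplicit false
open MeasureTheory Matrix
open scoped ContDiff BigOperators

noncomputable section
namespace Crest.Agent.R238

variable {n : ℕ}

variable {ι : Type} [Fintype ι]

theorem vs_tm_outer (u : E n) : TmM (outer u) := fun _ _ => tm_cst _

theorem vs_tm_G (D : KE n) (P : Pot) (u : ι → E n) (a : ι → ℝ) :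
    Tm (∑ i, a i ^ 2 • (P.f2 (u i) * (D.τ * outer (u i)).trace)) :=
  Tm.sum _ fun i _ => ((P.tm_f2 _).mul (D.sym0τ.tmM.mul (vs_tm_outer _)).trace).smul _

theorem vs_Lop_f0 (τ : Mat n) (P : Pot) (u : E n) :
    Lop τ (P.f0 u) = P.f2 u * (τ * outer u).trace - lin u * P.f1 u := by
  rw [Lop, con_eq_trace, P.hess_f0, Matrix.mul_smul, Matrix.trace_smul, smul_eq_mul]
  congr 1
  simp only [eul, P.pd_f0, lin, Finset.sum_mul, mul_smul_comm, smul_mul_assoc]

theorem vs_evM_outer (x u : E n) : evM x (outer u) = Matrix.vecMulVec u u := by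
  ext a b
  simp [outer, Matrix.vecMulVec_apply]

theorem vs_psd_outer (u : E n) : (Matrix.vecMulVec u u : RM n).PosSemidef := by
  simpa using Matrix.posSemidef_vecMulVec_self_star u

theorem vs_evM_sum (x : E n) (M : ι → Mat n) : evM x (∑ i, M i) = ∑ i, evM x (M i) := by
  ext a b
  simp [Matrix.sum_apply]

theorem vs_evM_HP (P : Pot) (u : ι → E n) (x : E n) :
    evM x (HP P u) = ∑ i, ev x (P.f2 (u i)) • (Matrix.vecMulVec (u i) (u i) : RM n) := by
  ext a b
  simp [HP, Matrix.sum_apply, outer, Matrix.vecMulVec_apply]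

theorem vs_evM_sD (P : Pot) (u : ι → E n) (a : ι → ℝ) (x : E n) :
    evM x (sD (bV P u a)) =
      ∑ i, (a i * ev x (P.f2 (u i))) • (Matrix.vecMulVec (u i) (u i) : RM n) := by
  ext j l
  simp only [sD, bV, evM_apply, Matrix.of_apply, map_sum, Derivation.map_smul, P.pd_f1, ev_smul,
    map_add, Matrix.sum_apply, Matrix.smul_apply, Matrix.vecMulVec_apply, smul_eq_mul,
    ← Finset.sum_add_distrib, Finset.mul_sum]
  refine Finset.sum_congr rfl fun i _ => ?_
  ring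

theorem vs_sq {T S U : RM n} (hT : T.PosSemidef) (hS : Sᵀ = S) (hU : U.PosSemidef) (a : ℝ) :
    2 * a * (U * (T * S * T)).trace - (U * (T * S * T * S * T)).trace ≤ a ^ 2 * (T * U).trace := by
  have hTs := psd_transpose hT
  have h1 := hT.conjTranspose_mul_mul_same (a • (1 : RM n) - S * T)
  rw [conjTranspose_eq_transpose_of_trivial, transpose_sub, transpose_smul, transpose_one,
    transpose_mul, hS, hTs] at h1
  have h2 := trace_mul_nonneg hU h1
  simp only [Matrix.sub_mul, Matrix.mul_sub, Matrix.smul_mul, Matrix.mul_smul, Matrix.one_mul,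
    Matrix.mul_one, trace_sub, trace_smul, smul_eq_mul, Matrix.mul_assoc] at h2 ⊢
  rw [trace_mul_comm T U]
  nlinarith [h2]

theorem vs_cross {T S F : RM n} (hT : T.PosSemidef) (hS : Sᵀ = S) (hF : Fᵀ = F) {θ : ℝ}
    (hθ : 0 < θ) :
    -(2 * (F * (T * S * T)).trace) ≤ θ * (T * S * T * S).trace + θ⁻¹ * (T * F * T * F).trace := by
  have h := trace_conj_nonneg hT (S := θ • S + F) (by rw [transpose_add, transpose_smul, hS, hF])
  have e1 : (T * S * T * F).trace = (F * (T * S * T)).trace := trace_mul_comm _ _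
  have e2 : (T * F * T * S).trace = (F * (T * S * T)).trace := by
    rw [Matrix.mul_assoc, Matrix.mul_assoc, trace_mul_comm]
    simp only [Matrix.mul_assoc]
  simp only [Matrix.add_mul, Matrix.mul_add, Matrix.smul_mul, Matrix.mul_smul, trace_add,
    trace_smul, smul_eq_mul, e1, e2] at h
  have h' := mul_nonneg (inv_pos.2 hθ).le h
  have e : θ⁻¹ * (θ * (θ * (T * S * T * S).trace + (F * (T * S * T)).trace) +
      (θ * (F * (T * S * T)).trace + (T * F * T * F).trace)) =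
      θ * (T * S * T * S).trace + θ⁻¹ * (T * F * T * F).trace + 2 * (F * (T * S * T)).trace := by
    field_simp
    ring
  linarith

theorem vs_up {T F : RM n} (hT : T.PosSemidef) (hF : Fᵀ = F) {Λ : ℝ} (hΛ : 0 ≤ Λ)
    (h : ∀ v : E n, v ⬝ᵥ (T *ᵥ v) ≤ Λ * (v ⬝ᵥ v)) :
    (T * F * T * F).trace ≤ Λ ^ 2 * ∑ a, ∑ b, F a b ^ 2 := by
  have hP : (Λ • (1 : RM n) - T).PosSemidef := by
    refine psd_of_low (c := 0)
      (by rw [transpose_sub, transpose_smul, transpose_one, psd_transpose hT]) le_rfl fun v => ?_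
    rw [sub_mulVec, smul_mulVec, one_mulVec, dotProduct_sub, dotProduct_smul, smul_eq_mul]
    linarith [h v]
  have h1 := trace_mul_nonneg hP (alg_conj hT hF)
  have h2 := trace_mul_nonneg hP (alg_conj PosSemidef.one hF)
  have h3 : (F * F).trace = ∑ a, ∑ b, F a b ^ 2 := by
    simp only [trace, diag, mul_apply, sq]
    refine Finset.sum_congr rfl fun a _ => Finset.sum_congr rfl fun b _ => ?_
    rw [← transpose_apply F a b, hF]
  have h4 : (F * T * F).trace = (T * (F * F)).trace := by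
    rw [trace_mul_cycle, trace_mul_comm]
  simp only [Matrix.sub_mul, Matrix.smul_mul, Matrix.one_mul, Matrix.mul_one, trace_sub, trace_smul,
    smul_eq_mul] at h1 h2
  rw [h4] at h1
  rw [← h3, show T * F * T * F = T * (F * T * F) by simp only [Matrix.mul_assoc]]
  nlinarith [mul_le_mul_of_nonneg_left h2 hΛ]

theorem vs_sD_sq (e : Fin n → Sm n) (x : E n) :
    ∑ a, ∑ b, evM x (sD e) a b ^ 2 ≤ ev x (∑ j, q 1 (e j)) := by
  have h1 : ev x (∑ j, q 1 (e j)) = ∑ a, ∑ b, ev x (pd b (e a)) ^ 2 := by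
    simp only [map_sum, ev_q_one]
  have h2 : ev x (∑ j, q 1 (e j)) = ∑ a, ∑ b, ev x (pd a (e b)) ^ 2 := by
    rw [h1, Finset.sum_comm]
  have h3 : ∑ a, ∑ b, evM x (sD e) a b ^ 2 ≤
      ∑ a, ∑ b, (ev x (pd b (e a)) ^ 2 / 2 + ev x (pd a (e b)) ^ 2 / 2) := by
    refine Finset.sum_le_sum fun a _ => Finset.sum_le_sum fun b _ => ?_
    simp only [sD, evM_apply, Matrix.of_apply, ev_smul, map_add]
    nlinarith [sq_nonneg (ev x (pd a (e b)) - ev x (pd b (e a)))]
  simp only [Finset.sum_add_distrib, ← Finset.sum_div] at h3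
  linarith

theorem vs_evM_symm {s : Mat n} (hs : sᵀ = s) (x : E n) : (evM x s)ᵀ = evM x s := by
  rw [← evM_transpose, hs]

theorem vs_exists_up (D : KE n) : ∃ Λ : ℝ, 0 ≤ Λ ∧ ∀ x (v : E n),
    v ⬝ᵥ (evM x D.τ *ᵥ v) ≤ Λ * (v ⬝ᵥ v) := by
  choose C hC0 hC using fun a b => (D.sym0τ a b).bdd
  refine ⟨∑ a, ∑ b, C a b, Finset.sum_nonneg fun a _ => Finset.sum_nonneg fun b _ => hC0 a b,
    fun x v => ?_⟩
  refine (le_abs_self _).trans ((abs_quad_le_sum _ v).trans ?_)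
  exact mul_le_mul_of_nonneg_right
    (Finset.sum_le_sum fun a _ => Finset.sum_le_sum fun b _ => hC a b x) (dot_self_nonneg v)

/-- `0 = I(L φ(ℓ_i)) = I(φ''(ℓ_i) τ(u_i,u_i)) - I(ℓ_i φ'(ℓ_i))` (`Iw_Lop`, `hess_f0`). -/
theorem KE.Iw_G1 (D : KE n) (P : Pot) (u : ι → E n) (a : ι → ℝ) :
    Iw D.V (G1 P u a) = Iw D.V (∑ i, a i ^ 2 • (P.f2 (u i) * (D.τ * outer (u i)).trace)) := by
  have h := D.Iw_Lop (h := ∑ i, a i ^ 2 • P.f0 (u i)) (Tm.sum _ fun i _ => (P.tm_f0 _).smul _)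
  have e : Lop D.τ (∑ i, a i ^ 2 • P.f0 (u i)) =
      ∑ i, a i ^ 2 • (P.f2 (u i) * (D.τ * outer (u i)).trace) - G1 P u a := by
    simp only [Lop_sum, Lop_smul, vs_Lop_f0, G1, smul_sub, Finset.sum_sub_distrib]
  rw [e, Iw_sub D.symV (vs_tm_G D P u a) (tm_G1 P u a)] at h
  linarith

/-- Pointwise: with `sD b = ∑ a_i φ''_i u_i u_iᵀ`, `y_i = s τ u_i`:
`2 tr(sD b · τsτ) - tr(τHτ · sτs) ≤ ∑ φ''_i (2 a_i τ(u_i,y_i) - τ(y_i,y_i)) ≤ ∑ a_i² φ''_i τ(u_i,u_i)`
(`H - HP ≥ 0`, `τ s τ s τ ≥ 0`, `trace_mul_nonneg`). -/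
theorem KE.pt_S (D : KE n) (P : Pot) (u : ι → E n) (a : ι → ℝ) (hH : Low 0 (D.H - HP P u))
    {s : Mat n} (hs : sᵀ = s) (x : E n) :
    2 * ev x (sD (bV P u a) * (D.τ * s * D.τ)).trace
      - ev x (D.τ * D.H * D.τ * (s * D.τ * s)).trace
      ≤ ev x (∑ i, a i ^ 2 • (P.f2 (u i) * (D.τ * outer (u i)).trace)) := by
  have hT := (D.τ_posDef x).posSemidef
  have hS := vs_evM_symm hs x
  have hA : (evM x D.H - evM x (HP P u)).PosSemidef := by
    rw [← evM_sub]
    exact psd_of_low (c := 0) (vs_evM_symm (by rw [transpose_sub, D.H_symm, HP_symm]) x) le_rfl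
      (hH x)
  simp only [ev_trace, evM_mul, map_sum, ev_smul, map_mul, vs_evM_outer, vs_evM_sD]
  rw [vs_evM_HP] at hA
  generalize evM x D.τ = T at hT ⊢
  generalize evM x s = S at hS ⊢
  generalize evM x D.H = Hm at hA ⊢
  have hB : (T * S * T * S * T).PosSemidef := by
    have h1 := alg_conj (alg_conj hT hS) (psd_transpose hT)
    simpa only [Matrix.mul_assoc] using h1
  have h1 := trace_mul_nonneg hA hB
  have e1 : (T * Hm * T * (S * T * S)).trace = (Hm * (T * S * T * S * T)).trace := by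
    rw [Matrix.mul_assoc, Matrix.mul_assoc, trace_mul_comm]
    simp only [Matrix.mul_assoc]
  rw [Matrix.sub_mul, trace_sub, Finset.sum_mul, trace_sum] at h1
  rw [e1, Finset.sum_mul, trace_sum, Finset.mul_sum]
  refine le_trans (sub_le_sub_left (sub_nonneg.1 h1) _) ?_
  rw [← Finset.sum_sub_distrib]
  refine Finset.sum_le_sum fun i _ => ?_
  have hw : 0 ≤ ev x (P.f2 (u i)) := by
    rw [P.ev_f2]
    exact P.conv _
  have h2 := mul_le_mul_of_nonneg_left (vs_sq hT hS (vs_psd_outer (u i)) (a i)) hw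
  simp only [Matrix.smul_mul, trace_smul, smul_eq_mul]
  linarith

/-- Solve `L χ_j ≈ -b_j` in `H¹` (`approx_solve`; `I(b_j) = 0` by `Iw_odd`), `e_j = Lχ_j + b_j`,
`-sD (Lχ) = sD b - sD e`. `tensor`, `pt_S`, `Iw_G1` give `S ≤ Θ - 2 I(tr(sD e · τsτ))` for
`S = I(tr(τsτs))`, `Θ = I(G1) ≥ 0`, and pointwise
`-2 tr(E τsτ) ≤ θ tr(τsτs) + θ⁻¹ tr(τEτE)` (expand `trace_conj_nonneg` for `θ s + E`),
`tr(τEτE) ≤ C ∑_j q 1 e_j` (entries of `τ` are bounded). Choose `θ`, then the accuracy. -/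
theorem KE.var_S (D : KE n) {c : ℝ} (hc : 0 < c) (hl : Low c D.τ) (P : Pot) (u : ι → E n) (a : ι → ℝ)
    (hH : Low 0 (D.H - HP P u)) {t : ℝ} (ht : 0 < t) :
    ∃ χ : Fin n → Sm n, (∀ j, Tm (χ j)) ∧
      Iw D.V (D.τ * sD χ * D.τ * sD χ).trace ≤ Iw D.V (G1 P u a) + t ∧
      Iw D.V (∑ j, (Lop D.τ (χ j) + bV P u a j) ^ 2) ≤ t := by
  obtain ⟨Λ, hΛ, hup⟩ := vs_exists_up D
  set Θ := Iw D.V (G1 P u a) with hΘ
  have hΘt : 0 < |Θ| + t := by positivity
  set θ : ℝ := t / (2 * (|Θ| + t)) with hθ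
  have hθ0 : 0 < θ := by positivity
  have hθ1 : θ * (|Θ| + t) = t / 2 := by
    rw [hθ]
    field_simp
  have hθ2 : θ ≤ 1 / 2 := by
    rw [hθ, div_le_div_iff₀ (by positivity) (by norm_num)]
    nlinarith [abs_nonneg Θ]
  set A : ℝ := n * (1 + 2 * θ⁻¹ * Λ ^ 2) + 1 with hA
  have hA0 : 0 < A := by positivity
  set η : ℝ := t / A with hη
  have hη0 : 0 < η := by positivity
  have hηA : η * A = t := by
    rw [hη]
    field_simp
  have hb := tm_bV P u a
  have hsol := fun j => D.approx_solve hc hl (hb j).neg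
    (by rw [Iw_neg, Iw_odd D.evV (isOd_bV P u a j), neg_zero]) hη0
  choose χ hχ h1 h2 using hsol
  simp only [sub_neg_eq_add] at h1 h2
  have hτ := D.sym0τ.tmM
  set e : Fin n → Sm n := fun j => Lop D.τ (χ j) + bV P u a j with he
  have het : ∀ j, Tm (e j) := fun j => (Tm.Lop hτ (hχ j)).add (hb j)
  have hn : (0 : ℝ) ≤ n := Nat.cast_nonneg n
  have hpos : 0 ≤ η * (n * (2 * θ⁻¹ * Λ ^ 2)) := by positivity
  have hpos' : 0 ≤ η * n := by positivity
  refine ⟨χ, hχ, ?_, ?_⟩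
  · have hs := tmM_sD hχ
    have hten := D.tensor hχ
    have hL := tmM_sD (fun j => Tm.Lop hτ (hχ j))
    have hσ : TmM (D.τ * sD χ * D.τ) := (hτ.mul hs).mul hτ
    have t1 : Tm (D.τ * sD χ * D.τ * sD χ).trace := (hσ.mul hs).trace
    have t2 : Tm (D.τ * D.H * D.τ * (sD χ * D.τ * sD χ)).trace :=
      (((hτ.mul D.sym0H.tmM).mul hτ).mul ((hs.mul hτ).mul hs)).trace
    have t3 : Tm (-(sD fun j => Lop D.τ (χ j)) * (D.τ * sD χ * D.τ)).trace := (hL.neg.mul hσ).trace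
    have t4 := vs_tm_G D P u a
    have t5 : Tm (∑ j, q 1 (e j)) := Tm.sum _ fun j _ => (het j).q 1
    have hE : -(sD fun j => Lop D.τ (χ j)) = sD (bV P u a) - sD e := by
      ext i j x
      simp only [sD, he, Matrix.neg_apply, Matrix.sub_apply, Matrix.of_apply, map_add, map_neg,
        map_sub, ev_smul]
      ring
    have hm := Iw_mono D.symV ((t3.smul 2).sub t2)
      ((t4.add (t1.smul θ)).add (t5.smul (θ⁻¹ * Λ ^ 2))) (fun x => by
        have p1 := D.pt_S P u a hH (sD_symm χ) x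
        have hT := (D.τ_posDef x).posSemidef
        have p2 := vs_cross hT (vs_evM_symm (sD_symm χ) x) (vs_evM_symm (sD_symm e) x) hθ0
        have p3 := (vs_up hT (vs_evM_symm (sD_symm e) x) hΛ (hup x)).trans
          (mul_le_mul_of_nonneg_left (vs_sD_sq e x) (sq_nonneg Λ))
        have p4 := mul_le_mul_of_nonneg_left p3 (inv_pos.2 hθ0).le
        rw [hE, Matrix.sub_mul, trace_sub]
        simp only [← evM_mul, ← ev_trace] at p2 p4
        simp only [map_sub, map_add, ev_smul]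
        linarith)
    rw [Iw_sub D.symV (t3.smul 2) t2, Iw_add D.symV (t4.add (t1.smul θ)) (t5.smul _),
      Iw_add D.symV t4 (t1.smul θ), Iw_smul, Iw_smul, Iw_smul, ← D.Iw_G1, ← hΘ,
      Iw_sum D.symV _ (fun j _ => (het j).q 1)] at hm
    have hq : ∑ j, Iw D.V (q 1 (e j)) ≤ n * η := by
      refine (Finset.sum_le_sum fun j _ => h2 j).trans (le_of_eq ?_)
      simp
    have hq' := mul_le_mul_of_nonneg_left hq (show 0 ≤ θ⁻¹ * Λ ^ 2 by positivity)
    have hk : θ⁻¹ * Λ ^ 2 * (n * η) ≤ t / 2 := by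
      rw [← hηA, hA]
      nlinarith
    have hfin : (1 - θ) * Iw D.V (D.τ * sD χ * D.τ * sD χ).trace ≤ (1 - θ) * (Θ + t) := by
      nlinarith [mul_le_mul_of_nonneg_left (le_abs_self Θ) hθ0.le]
    exact le_of_mul_le_mul_left hfin (by linarith)
  · rw [Iw_sum D.symV _ (fun j _ => (het j).pow 2)]
    refine (Finset.sum_le_sum fun j _ => h1 j).trans ?_
    simp only [Finset.sum_const, Finset.card_univ, Fintype.card_fin, nsmul_eq_mul]
    rw [← hηA, hA]
    nlinarith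

end Crest.Agent.R238
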